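import Vale.Agent.P166.Rsb.Energy.KerDefs
import Vale.Agent.P166.Rsb.FormulaKappa

/-!
# P166: stability and closing of tilted kernels

`exists_tilt_stable`: the tilted kernel is Lipschitz in the tilt and in the mass-weighted distance of
kernels.  `exists_closing`: if the mixture of the tilted top kernels is close to a path, the mixture
of their diagonals is the energy derivative of that path.
-/

open Real Finset
open Vale.Agent.P157.Rsb (lev vOf IsPath tail mass)

namespace Vale.Agent.P166.Rsb.Energy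

/-- A kernel with diagonal `Q` and bound `Qm`. -/
def IsKer (k : ℕ) (q : ℕ → ℝ) (Q Qm : ℝ) : Prop :=
  q 0 = 0 ∧ (∀ i < k, q i ≤ q (i + 1)) ∧ q k ≤ Q ∧ Q ≤ Qm

variable {k : ℕ} {q q' : ℕ → ℝ} {Q Q' Qm t t' : ℝ}

theorem kv_eq_vOf (k : ℕ) (q : ℕ → ℝ) (j : ℕ) : kv k q 1 j = vOf k q j := rfl

theorem kv_eq_add (k : ℕ) (q : ℕ → ℝ) (Q : ℝ) (j : ℕ) : kv k q Q j = Q - 1 + vOf k q j := by
  simp only [kv, P157.Rsb.vOf]; ring

theorem kv_top (k : ℕ) (q : ℕ → ℝ) (Q : ℝ) : kv k q Q k = Q - q k := by simp [kv]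

theorem kv_step {i : ℕ} (hi : i < k) :
    kv k q Q i = kv k q Q (i + 1) + lev k (i + 1) * (q (i + 1) - q i) := by
  rw [kv_eq_add, kv_eq_add, vOf_step hi]; ring

theorem kv_eq_tail {j : ℕ} (hj : j ≤ k) :
    kv k q Q j = Q - lev k (j + 1) * q j - tail k q (j + 1) := by
  rw [kv_eq_add, vOf_eq_tail hj]; ring

namespace IsKer

theorem le (h : IsKer k q Q Qm) {i j : ℕ} (hij : i ≤ j) (hj : j ≤ k) : q i ≤ q j := by
  induction j, hij using Nat.le_induction with
  | base => exact le_rfl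
  | succ n _ ih => exact (ih (by omega)).trans (h.2.1 n (by omega))

theorem nonneg (h : IsKer k q Q Qm) {j : ℕ} (hj : j ≤ k) : 0 ≤ q j := h.1 ▸ h.le (Nat.zero_le j) hj

theorem le_diag (h : IsKer k q Q Qm) {j : ℕ} (hj : j ≤ k) : q j ≤ Qm :=
  (h.le hj le_rfl).trans (h.2.2.1.trans h.2.2.2)

theorem bound_nonneg (h : IsKer k q Q Qm) : 0 ≤ Qm := (h.nonneg le_rfl).trans (h.le_diag le_rfl)

theorem kv_nonneg (h : IsKer k q Q Qm) (j : ℕ) : 0 ≤ kv k q Q j :=
  add_nonneg (sub_nonneg.2 h.2.2.1) (sum_nonneg fun i hi =>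
    mul_nonneg (lev_pos' k i).le (sub_nonneg.2 (h.2.1 i (mem_Ico.1 hi).2)))

theorem kv_anti (h : IsKer k q Q Qm) {i : ℕ} (hi : i < k) : kv k q Q (i + 1) ≤ kv k q Q i := by
  rw [kv_step (q := q) hi]
  exact le_add_of_nonneg_right (mul_nonneg (lev_pos' k i).le (sub_nonneg.2 (h.2.1 i hi)))

theorem kv_le (h : IsKer k q Q Qm) {j : ℕ} (hj : j ≤ k) : kv k q Q j ≤ Qm := by
  rw [kv_eq_tail hj]
  have h1 : 0 ≤ lev k (j + 1) * q j := mul_nonneg (lev_pos' k j).le (h.nonneg hj)
  have h2 : 0 ≤ tail k q (j + 1) := by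
    unfold P157.Rsb.tail P157.Rsb.mass
    exact mul_nonneg (by positivity) (sum_nonneg fun l hl => h.nonneg (mem_Icc.1 hl).2)
  linarith [h.2.2.2]

end IsKer

/-- The factor of a tilt. -/
noncomputable def damp (t v : ℝ) : ℝ := 1 / (1 + t * v)

theorem damp_mem (ht : 0 ≤ t) {v : ℝ} (hv : 0 ≤ v) : 0 ≤ damp t v ∧ damp t v ≤ 1 := by
  have : (1 : ℝ) ≤ 1 + t * v := le_add_of_nonneg_right (mul_nonneg ht hv)
  exact ⟨one_div_nonneg.2 (by linarith), by rw [damp, div_le_one (by linarith)]; exact this⟩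

theorem tiltV_sub (ht : 0 ≤ t) {u v : ℝ} (hu : 0 ≤ u) (hv : 0 ≤ v) :
    tiltV t u - tiltV t v = (u - v) * (damp t u * damp t v) := by
  have h1 : 1 + t * u ≠ 0 := (lt_add_of_pos_of_le one_pos (mul_nonneg ht hu)).ne'
  have h2 : 1 + t * v ≠ 0 := (lt_add_of_pos_of_le one_pos (mul_nonneg ht hv)).ne'
  simp only [tiltV, damp]
  field_simp
  ring

theorem damp_sub (ht : 0 ≤ t) (ht' : 0 ≤ t') {u v : ℝ} (hu : 0 ≤ u) (hv : 0 ≤ v) :
    damp t u - damp t' v = (t' * v - t * u) * (damp t u * damp t' v) := by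
  have h1 : 1 + t * u ≠ 0 := (lt_add_of_pos_of_le one_pos (mul_nonneg ht hu)).ne'
  have h2 : 1 + t' * v ≠ 0 := (lt_add_of_pos_of_le one_pos (mul_nonneg ht' hv)).ne'
  simp only [damp]
  field_simp
  ring

theorem abs_damp_sub_le (ht : 0 ≤ t) (ht' : 0 ≤ t') {u v : ℝ} (hu : 0 ≤ u) (hv : 0 ≤ v) :
    |damp t u - damp t' v| ≤ |t' * v - t * u| := by
  rw [damp_sub ht ht' hu hv, abs_mul]
  refine mul_le_of_le_one_right (abs_nonneg _) ?_
  obtain ⟨a, b⟩ := damp_mem ht hu
  obtain ⟨c, e⟩ := damp_mem ht' hv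
  rw [abs_of_nonneg (mul_nonneg a c)]
  exact mul_le_one₀ b c e

/-- Two kernels at one tilt. -/
theorem abs_tilt_sub_le {η : ℝ} (ht : 0 ≤ t) (h : IsKer k q Q Qm) (h' : IsKer k q' Q' Qm)
    (hQ : |Q - Q'| ≤ η) (hq : mass k * ∑ l ∈ Icc 1 k, |q l - q' l| ≤ η) :
    (∀ j ≤ k, |kq t k q Q j - kq t k q' Q' j| ≤ |q j - q' j| + 4 * t * Qm * η) ∧
      |kQ t k q Q - kQ t k q' Q'| ≤ η + 4 * t * Qm * η := by
  set g : ℕ → ℝ := fun i => damp t (kv k q Q i) * damp t (kv k q' Q' i) with hg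
  set D : ℕ → ℝ := fun i => (Q - Q') - (tail k q (i + 1) - tail k q' (i + 1)) with hD
  have hη : 0 ≤ η := (abs_nonneg _).trans hQ
  have hDle : ∀ i, |D i| ≤ 2 * η := fun i => by
    have hm : 0 ≤ mass k := by unfold P157.Rsb.mass; positivity
    have : |tail k q (i + 1) - tail k q' (i + 1)| ≤ η := by
      refine le_trans ?_ hq
      rw [P157.Rsb.tail, P157.Rsb.tail, ← mul_sub, abs_mul, abs_of_nonneg hm, ← sum_sub_distrib]
      refine mul_le_mul_of_nonneg_left ((abs_sum_le_sum_abs _ _).trans ?_) hm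
      exact sum_le_sum_of_subset_of_nonneg (Icc_subset_Icc_left (by omega)) fun _ _ _ => abs_nonneg _
    exact (abs_sub _ _).trans (by linarith)
  have hg01 : ∀ i, |g i| ≤ 1 := fun i => by
    obtain ⟨a, b⟩ := damp_mem ht (h.kv_nonneg i)
    obtain ⟨c, e⟩ := damp_mem ht (h'.kv_nonneg i)
    rw [abs_of_nonneg (mul_nonneg a c)]
    exact mul_le_one₀ b c e
  have hgs : ∀ i < k, |(g (i + 1) - g i) / lev k (i + 1)| ≤
      t * ((q (i + 1) - q i) + (q' (i + 1) - q' i)) := fun i hi => by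
    have hl := lev_pos' k i
    rw [abs_div, abs_of_pos hl, div_le_iff₀ hl]
    obtain ⟨a, b⟩ := damp_mem ht (h.kv_nonneg (i + 1))
    obtain ⟨c, e⟩ := damp_mem ht (h'.kv_nonneg i)
    have e1 := abs_damp_sub_le ht ht (h.kv_nonneg (i + 1)) (h.kv_nonneg i)
    have e2 := abs_damp_sub_le ht ht (h'.kv_nonneg (i + 1)) (h'.kv_nonneg i)
    rw [kv_step (q := q) hi, mul_add, add_sub_cancel_left, abs_mul, abs_of_nonneg ht,
      abs_of_nonneg (mul_nonneg hl.le (sub_nonneg.2 (h.2.1 i hi))), ← kv_step (q := q) hi] at e1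
    rw [kv_step (q := q') hi, mul_add, add_sub_cancel_left, abs_mul, abs_of_nonneg ht,
      abs_of_nonneg (mul_nonneg hl.le (sub_nonneg.2 (h'.2.1 i hi))), ← kv_step (q := q') hi] at e2
    calc |g (i + 1) - g i|
        = |damp t (kv k q Q (i + 1)) * (damp t (kv k q' Q' (i + 1)) - damp t (kv k q' Q' i))
          + (damp t (kv k q Q (i + 1)) - damp t (kv k q Q i)) * damp t (kv k q' Q' i)| := by
          simp only [hg]; ring_nf
      _ ≤ 1 * (t * (lev k (i + 1) * (q' (i + 1) - q' i)))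
          + t * (lev k (i + 1) * (q (i + 1) - q i)) * 1 := by
          refine (abs_add_le _ _).trans (add_le_add ?_ ?_)
          · rw [abs_mul, abs_of_nonneg a]
            exact mul_le_mul b e2 (abs_nonneg _) zero_le_one
          · rw [abs_mul, abs_of_nonneg c]
            exact mul_le_mul e1 e c ((abs_nonneg _).trans e1)
      _ = _ := by ring
  have key : ∀ j ≤ k, kq t k q Q j - kq t k q' Q' j = g j * (q j - q' j)
      - ∑ i ∈ range j, (g (i + 1) - g i) / lev k (i + 1) * D i := by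
    intro j hj
    induction j with
    | zero => simp [kq, h.1, h'.1]
    | succ j ih =>
      have hl := (lev_pos' k j).ne'
      have a1 := tiltV_sub ht (h.kv_nonneg j) (h'.kv_nonneg j)
      have a2 := tiltV_sub ht (h.kv_nonneg (j + 1)) (h'.kv_nonneg (j + 1))
      have s1 : kv k q Q j - kv k q' Q' j = D j - lev k (j + 1) * (q j - q' j) := by
        rw [kv_eq_tail (by omega), kv_eq_tail (by omega)]; simp only [hD]; ring
      have s2 : kv k q Q (j + 1) - kv k q' Q' (j + 1) =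
          D j - lev k (j + 1) * (q (j + 1) - q' (j + 1)) := by
        have := kv_step (q := q) (Q := Q) (show j < k by omega)
        have := kv_step (q := q') (Q := Q') (show j < k by omega)
        linarith
      rw [s1] at a1
      rw [s2] at a2
      simp only [kq] at ih ⊢
      rw [sum_range_succ, sum_range_succ, sum_range_succ]
      have hstep : (tiltV t (kv k q Q j) - tiltV t (kv k q Q (j + 1))) / lev k (j + 1)
          - (tiltV t (kv k q' Q' j) - tiltV t (kv k q' Q' (j + 1))) / lev k (j + 1)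
          = g (j + 1) * (q (j + 1) - q' (j + 1)) - g j * (q j - q' j)
            - (g (j + 1) - g j) / lev k (j + 1) * D j := by
        simp only [hg]
        field_simp
        linear_combination a1 - a2
      linear_combination ih (by omega) + hstep
  have hsum : ∀ j ≤ k, |∑ i ∈ range j, (g (i + 1) - g i) / lev k (i + 1) * D i| ≤ 4 * t * Qm * η := by
    intro j hj
    refine (abs_sum_le_sum_abs _ _).trans ?_
    calc ∑ i ∈ range j, |(g (i + 1) - g i) / lev k (i + 1) * D i|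
        ≤ ∑ i ∈ range j, t * ((q (i + 1) - q i) + (q' (i + 1) - q' i)) * (2 * η) :=
          sum_le_sum fun i hi => by
            have hik : i < k := (mem_range.1 hi).trans_le hj
            rw [abs_mul]
            exact mul_le_mul (hgs i hik) (hDle i) (abs_nonneg _) ((abs_nonneg _).trans (hgs i hik))
      _ = t * (q j + q' j) * (2 * η) := by
          rw [← sum_mul, ← mul_sum, sum_add_distrib, sum_range_sub q, sum_range_sub q', h.1, h'.1,
            sub_zero, sub_zero]
      _ ≤ t * (Qm + Qm) * (2 * η) := mul_le_mul_of_nonneg_right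
          (mul_le_mul_of_nonneg_left (add_le_add (h.le_diag hj) (h'.le_diag hj)) ht) (by linarith)
      _ = 4 * t * Qm * η := by ring
  refine ⟨fun j hj => ?_, ?_⟩
  · rw [key j hj]
    refine (abs_sub _ _).trans (add_le_add ?_ (hsum j hj))
    rw [abs_mul]
    exact mul_le_of_le_one_left (abs_nonneg _) (hg01 j)
  · have a1 := tiltV_sub ht (h.kv_nonneg k) (h'.kv_nonneg k)
    have e : kQ t k q Q - kQ t k q' Q' =
        g k * (Q - Q') - ∑ i ∈ range k, (g (i + 1) - g i) / lev k (i + 1) * D i := by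
      simp only [kQ]
      rw [show kv k q Q k - kv k q' Q' k = (Q - Q') - (q k - q' k) by rw [kv_top, kv_top]; ring] at a1
      simp only [hg] at key ⊢
      linear_combination key k le_rfl + a1
    rw [e]
    refine (abs_sub _ _).trans (add_le_add ?_ (hsum k le_rfl))
    rw [abs_mul]
    exact (mul_le_of_le_one_left (abs_nonneg _) (hg01 k)).trans hQ

/-- One kernel at two tilts. -/
theorem abs_tilt_time_le (ht : 0 ≤ t) (ht' : 0 ≤ t') (h : IsKer k q Q Qm) :
    (∀ j ≤ k, |kq t k q Q j - kq t' k q Q j| ≤ 2 * Qm ^ 2 * |t - t'|) ∧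
      |kQ t k q Q - kQ t' k q Q| ≤ 3 * Qm ^ 2 * |t - t'| := by
  have hQm := h.bound_nonneg
  have hd : ∀ v, 0 ≤ v → v ≤ Qm → |damp t v - damp t' v| ≤ Qm * |t - t'| := fun v hv hv' => by
    refine (abs_damp_sub_le ht ht' hv hv).trans ?_
    rw [← sub_mul, abs_mul, abs_sub_comm, abs_of_nonneg hv, mul_comm]
    exact mul_le_mul_of_nonneg_right hv' (abs_nonneg _)
  have hj' : ∀ j ≤ k, |kq t k q Q j - kq t' k q Q j| ≤ 2 * Qm ^ 2 * |t - t'| := by
    intro j hj
    rw [kq, kq, ← sum_sub_distrib]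
    calc |∑ i ∈ range j, ((tiltV t (kv k q Q i) - tiltV t (kv k q Q (i + 1))) / lev k (i + 1)
          - (tiltV t' (kv k q Q i) - tiltV t' (kv k q Q (i + 1))) / lev k (i + 1))|
        ≤ ∑ i ∈ range j, (q (i + 1) - q i) * (2 * Qm * |t - t'|) := by
          refine (abs_sum_le_sum_abs _ _).trans (sum_le_sum fun i hi => ?_)
          have hik : i < k := (mem_range.1 hi).trans_le hj
          have hl := (lev_pos' k i).ne'
          have n1 := h.kv_nonneg i
          have n2 := h.kv_nonneg (i + 1)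
          rw [tiltV_sub ht n1 n2, tiltV_sub ht' n1 n2, kv_step (q := q) hik, add_sub_cancel_left,
            mul_assoc (lev k (i + 1)), mul_assoc (lev k (i + 1)), mul_div_cancel_left₀ _ hl,
            mul_div_cancel_left₀ _ hl, ← mul_sub, abs_mul,
            abs_of_nonneg (sub_nonneg.2 (h.2.1 i hik)), ← kv_step (q := q) hik]
          refine mul_le_mul_of_nonneg_left ?_ (sub_nonneg.2 (h.2.1 i hik))
          obtain ⟨a, b⟩ := damp_mem ht n1
          obtain ⟨c, e⟩ := damp_mem ht' n2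
          calc |damp t (kv k q Q i) * damp t (kv k q Q (i + 1))
                - damp t' (kv k q Q i) * damp t' (kv k q Q (i + 1))|
              = |damp t (kv k q Q i) * (damp t (kv k q Q (i + 1)) - damp t' (kv k q Q (i + 1)))
                + (damp t (kv k q Q i) - damp t' (kv k q Q i)) * damp t' (kv k q Q (i + 1))| := by
                ring_nf
            _ ≤ 1 * (Qm * |t - t'|) + Qm * |t - t'| * 1 := by
                refine (abs_add_le _ _).trans (add_le_add ?_ ?_)
                · rw [abs_mul, abs_of_nonneg a]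
                  exact mul_le_mul b (hd _ n2 (h.kv_le hik)) (abs_nonneg _) zero_le_one
                · rw [abs_mul, abs_of_nonneg c]
                  exact mul_le_mul (hd _ n1 (h.kv_le hik.le)) e c (by positivity)
            _ = 2 * Qm * |t - t'| := by ring
      _ = q j * (2 * Qm * |t - t'|) := by rw [← sum_mul, sum_range_sub q, h.1, sub_zero]
      _ ≤ Qm * (2 * Qm * |t - t'|) := mul_le_mul_of_nonneg_right (h.le_diag hj) (by positivity)
      _ = 2 * Qm ^ 2 * |t - t'| := by ring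
  refine ⟨hj', ?_⟩
  have hv := h.kv_nonneg k
  have hv' := h.kv_le (j := k) le_rfl
  have e : ∀ s, tiltV s (kv k q Q k) = kv k q Q k * damp s (kv k q Q k) := fun s => by
    simp only [tiltV, damp]; ring
  have h2 : |kv k q Q k * (damp t (kv k q Q k) - damp t' (kv k q Q k))| ≤ Qm * (Qm * |t - t'|) := by
    rw [abs_mul, abs_of_nonneg hv]
    exact mul_le_mul hv' (hd _ hv hv') (abs_nonneg _) hQm
  rw [kQ, kQ, e, e, add_sub_add_comm, ← mul_sub]
  exact (abs_add_le _ _).trans ((add_le_add (hj' k le_rfl) h2).trans (le_of_eq (by ring)))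

/-- Stability of tilted kernels in the tilt and in the mass-weighted distance. -/
theorem exists_tilt_stable (T Qm : ℝ) (hT : 0 ≤ T) (hQm : 0 ≤ Qm) :
    ∃ C : ℝ, 0 ≤ C ∧ ∀ (k : ℕ) (t t' : ℝ) (q q' : ℕ → ℝ) (Q Q' η : ℝ), 0 ≤ t → t ≤ T → 0 ≤ t' →
      t' ≤ T → IsKer k q Q Qm → IsKer k q' Q' Qm → |Q - Q'| ≤ η →
      mass k * ∑ l ∈ Icc 1 k, |q l - q' l| ≤ η →
        |kQ t k q Q - kQ t' k q' Q'| ≤ C * (η + |t - t'|) ∧
        mass k * ∑ j ∈ Icc 1 k, |kq t k q Q j - kq t' k q' Q' j| ≤ C * (η + |t - t'|) := by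
  refine ⟨1 + 4 * T * Qm + 3 * Qm ^ 2, by positivity,
    fun k t t' q q' Q Q' η ht htT ht' _ h h' hQ hq => ?_⟩
  have hη : 0 ≤ η := (abs_nonneg _).trans hQ
  obtain ⟨a1, a2⟩ := abs_tilt_sub_le ht h h' hQ hq
  obtain ⟨b1, b2⟩ := abs_tilt_time_le ht ht' h'
  have hTη : 4 * t * Qm * η ≤ 4 * T * Qm * η := by gcongr
  have n1 : 0 ≤ 4 * T * Qm * |t - t'| := by positivity
  have n2 : 0 ≤ 3 * Qm ^ 2 * η := by positivity
  have n4 : 0 ≤ Qm ^ 2 * |t - t'| := by positivity
  have n3 : 0 ≤ |t - t'| := abs_nonneg _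
  refine ⟨(abs_sub_le _ (kQ t k q' Q') _).trans ((add_le_add a2 b2).trans ?_), ?_⟩
  · linarith
  have hm : 0 ≤ mass k := by unfold P157.Rsb.mass; positivity
  have hmk : mass k * ∑ _j ∈ Icc 1 k, (1 : ℝ) ≤ 1 := by
    rw [sum_const, Nat.card_Icc, nsmul_eq_mul, mul_one, P157.Rsb.mass, one_div,
      inv_mul_le_iff₀ (by positivity), mul_one, Nat.add_sub_cancel]
    linarith
  calc mass k * ∑ j ∈ Icc 1 k, |kq t k q Q j - kq t' k q' Q' j|
      ≤ mass k * ∑ j ∈ Icc 1 k, (|q j - q' j| + (4 * T * Qm * η + 2 * Qm ^ 2 * |t - t'|) * 1) := by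
        refine mul_le_mul_of_nonneg_left (sum_le_sum fun j hj => ?_) hm
        have hj := (mem_Icc.1 hj).2
        exact (abs_sub_le _ (kq t k q' Q' j) _).trans ((add_le_add (a1 j hj) (b1 j hj)).trans
          (by linarith))
    _ = mass k * ∑ j ∈ Icc 1 k, |q j - q' j|
        + (4 * T * Qm * η + 2 * Qm ^ 2 * |t - t'|) * (mass k * ∑ _j ∈ Icc 1 k, (1 : ℝ)) := by
        rw [sum_add_distrib, ← mul_sum, mul_add, mul_left_comm]
    _ ≤ η + (4 * T * Qm * η + 2 * Qm ^ 2 * |t - t'|) :=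
        add_le_add hq (mul_le_of_le_one_right (by positivity) hmk)
    _ ≤ (1 + 4 * T * Qm + 3 * Qm ^ 2) * (η + |t - t'|) := by linarith

section closing

variable {d : ℕ} (A : Atoms d)

/-- The tilt of block `e` against the top block. -/
theorem tilt_eq_swapK (β : ℝ) (e : Fin (d + 1)) (u : ℝ) :
    tiltV (β * (A.top - A.a e)) u = A.swapK β e u := rfl

/-- The energy derivative is Lipschitz in the inverse temperature, uniformly in the path. -/
theorem abs_eAt_sub_le {L β β' : ℝ} (hL0 : 0 ≤ L)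
    (hL : ∀ x y, 0 ≤ x → x ≤ y → dh0 A.a A.w y - dh0 A.a A.w x ≤ L * (y - x)) (hβ : 0 < β)
    (hβ' : 0 < β') (hq : IsPath k q) :
    |A.eAt β' k q - A.eAt β k q| ≤ L * |β' - β| / 2 := by
  have hw := A.isSpec
  set h := hA A.a A.w with hh
  have e : ∀ γ : ℝ, 0 < γ → A.eAt γ k q = comb k q (fun v => γ⁻¹ * h (γ * v)) / 2 := fun γ hγ => by
    rw [A.eAt_eq, comb_const_mul]; field_simp; rfl
  rw [e β hβ, e β' hβ', ← sub_div, abs_div, abs_two]
  refine div_le_div_of_nonneg_right
    (abs_comb_sub_le hq (by simp [hh, IsSpec.hA_zero]) fun x y hx hxy hy => ?_) two_pos.le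
  rcases hxy.eq_or_lt with rfl | hlt
  · simp
  set F : ℝ → ℝ := fun v => β'⁻¹ * h (β' * v) - β⁻¹ * h (β * v) with hF
  have hcF : Continuous F :=
    ((hw.continuous_hA.comp (continuous_const.mul continuous_id)).const_mul _).sub
      ((hw.continuous_hA.comp (continuous_const.mul continuous_id)).const_mul _)
  obtain ⟨c, hc, hd⟩ := exists_hasDerivAt_eq_slope F
    (fun v => dhA A.a A.w (β' * v) - dhA A.a A.w (β * v)) hlt hcF.continuousOn
    fun v hv => by
      have hv0 : 0 < v := hx.trans_lt hv.1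
      refine ((((hw.hasDerivAt_hA (mul_pos hβ' hv0)).comp v
        ((hasDerivAt_id v).const_mul β')).const_mul β'⁻¹).sub
        (((hw.hasDerivAt_hA (mul_pos hβ hv0)).comp v
          ((hasDerivAt_id v).const_mul β)).const_mul β⁻¹)).congr_deriv ?_
      field_simp
  have hc0 : 0 < c := hx.trans_lt hc.1
  have hb : |dhA A.a A.w (β' * c) - dhA A.a A.w (β * c)| ≤ L * |β' - β| := by
    have key : ∀ u v, 0 < u → u ≤ v → |dhA A.a A.w v - dhA A.a A.w u| ≤ L * (v - u) := by
      intro u v hu huv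
      have h1 := hL u v hu.le huv
      have h2 := hw.dh0_mono (a := A.a) huv
      simp only [dh0, if_pos hu, if_pos (hu.trans_le huv)] at h1 h2
      rw [abs_of_nonneg (sub_nonneg.2 h2)]; exact h1
    have hc1 : c ≤ 1 := hc.2.le.trans hy
    have hmul : L * (|β' - β| * c) ≤ L * |β' - β| :=
      mul_le_mul_of_nonneg_left (mul_le_of_le_one_right (abs_nonneg _) hc1) hL0
    rcases le_total β β' with h | h
    · refine (key _ _ (mul_pos hβ hc0) (mul_le_mul_of_nonneg_right h hc0.le)).trans ?_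
      rw [← sub_mul]
      rwa [abs_of_nonneg (sub_nonneg.2 h)] at hmul ⊢
    · rw [abs_sub_comm]
      refine (key _ _ (mul_pos hβ' hc0) (mul_le_mul_of_nonneg_right h hc0.le)).trans ?_
      rw [← sub_mul]
      rwa [abs_of_nonpos (sub_nonpos.2 h), neg_sub] at hmul ⊢
  have hslope := hd ▸ hb
  rw [abs_div, abs_of_pos (sub_pos.2 hlt), div_le_iff₀ (sub_pos.2 hlt)] at hslope
  exact hslope

/-- If the mixture of tilted top kernels is close to the path `q`, the weighted diagonals give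
`A.eAt`. -/
theorem exists_closing (B : ℝ) (hB : 0 < B) :
    ∃ C : ℝ, 0 ≤ C ∧ ∀ (k : ℕ) (β : ℝ) (qT q : ℕ → ℝ) (QT Qm δ : ℝ), 0 < β → β ≤ B →
      IsKer k qT QT Qm → IsPath k q →
      |1 - ∑ e, A.w e * kQ (β * (A.top - A.a e)) k qT QT| ≤ δ →
      mass k * ∑ j ∈ Icc 1 k, |q j - ∑ e, A.w e * kq (β * (A.top - A.a e)) k qT QT j| ≤ δ →
        |A.eAt β k q - (∑ e, A.a e * (A.w e * kQ (β * (A.top - A.a e)) k qT QT)) / 2| ≤ C * δ := by
  obtain ⟨C₁, hC₁, hlip⟩ := A.exists_eAt_lip B hB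
  obtain ⟨L, hL0, hL⟩ := A.isSpec.exists_dh0_lip A.a
  refine ⟨2 * C₁ + L * B / 2 + ∑ c, |A.a c|, by positivity,
    fun k β qT q QT Qm δ hβ hβB hT hq hS hdist => ?_⟩
  set t : Fin (d + 1) → ℝ := fun e => β * (A.top - A.a e) with ht
  set S := ∑ e, A.w e * kQ (t e) k qT QT with hSdef
  set qs : ℕ → ℝ := fun j => ∑ e, A.w e * kq (t e) k qT QT j with hqs
  set M := (∑ c, |A.a c|) / 2 with hM
  have hM0 : 0 ≤ M := by positivity
  have hδ : 0 ≤ δ := (abs_nonneg _).trans hS
  have hstep : ∀ e, ∀ i < k, 0 ≤ (tiltV (t e) (kv k qT QT i) - tiltV (t e) (kv k qT QT (i + 1)))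
      / lev k (i + 1) := fun e i hi => by
    refine div_nonneg ?_ (lev_pos' k i).le
    simp only [ht, tilt_eq_swapK]
    exact (A.swapK_sub_le hβ e (hT.kv_nonneg _) (hT.kv_anti hi)).1
  have hq0 : qs 0 = 0 := by simp [hqs, kq]
  have hmono : ∀ i < k, qs i ≤ qs (i + 1) := fun i hi => sum_le_sum fun e _ => by
    refine mul_le_mul_of_nonneg_left ?_ (A.w_pos e).le
    rw [kq, kq, sum_range_succ]
    exact le_add_of_nonneg_right (hstep e i hi)
  have hV : ∀ e, 0 ≤ tiltV (t e) (kv k qT QT k) := fun e => A.swapK_nonneg hβ e (hT.kv_nonneg k)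
  have hlast : qs k ≤ S := sum_le_sum fun e _ => by
    refine mul_le_mul_of_nonneg_left ?_ (A.w_pos e).le
    rw [kQ]
    exact le_add_of_nonneg_right (hV e)
  have hvv : ∀ j, j ≤ k → kv k qs S j = A.swapV β (kv k qT QT j) := by
    intro j hj
    induction hj using Nat.decreasingInduction with
    | self =>
      rw [kv_top]
      simp only [hSdef, hqs, Atoms.swapV, ← sum_sub_distrib]
      exact sum_congr rfl fun e _ => by rw [kQ, ← tilt_eq_swapK A β e]; simp only [ht]; ring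
    | of_succ i hi ih =>
      rw [kv_step (q := qs) hi, ih]
      simp only [Atoms.swapV, hqs, ← sum_sub_distrib, mul_sum, ← sum_add_distrib]
      refine sum_congr rfl fun e _ => ?_
      rw [kq, kq, sum_range_succ, ← mul_sub, add_sub_cancel_left, ← tilt_eq_swapK A β e,
        ← tilt_eq_swapK A β e]
      have := (lev_pos' k i).ne'
      simp only [ht]
      field_simp
      ring
  rcases le_or_gt S 0 with hS0 | hS0
  · have hz : ∀ e, A.w e * kQ (t e) k qT QT = 0 := fun e => by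
      have hnn : ∀ f, 0 ≤ A.w f * kQ (t f) k qT QT := fun f => mul_nonneg (A.w_pos f).le
        (add_nonneg (sum_nonneg fun i hi => hstep f i (mem_range.1 hi)) (hV f))
      exact (sum_eq_zero_iff_of_nonneg fun f _ => hnn f).1
        (le_antisymm hS0 (sum_nonneg fun f _ => hnn f)) e (mem_univ e)
    have hzero : ∑ e, A.a e * (A.w e * kQ (t e) k qT QT) = 0 :=
      sum_eq_zero fun e _ => by rw [hz e, mul_zero]
    rw [hzero, zero_div, sub_zero]
    refine (A.abs_eAt_le hβ hq).trans ?_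
    have h1 : 1 ≤ δ := by linarith [(abs_le.1 hS).2]
    have := mul_le_mul_of_nonneg_left h1 hM0
    have := mul_nonneg hC₁ hδ
    have := mul_nonneg (mul_nonneg hL0 hB.le) hδ
    have := mul_nonneg hM0 hδ
    linarith [hM, congrArg (· * δ) hM]
  set qn : ℕ → ℝ := fun j => qs j / S with hqn
  have hpath : IsPath k qn := ⟨by simp [hqn, hq0],
    fun i hi => div_le_div_of_nonneg_right (hmono i hi) hS0.le,
    by simp only [hqn]; rw [div_le_one hS0]; exact hlast⟩
  have hv : ∀ j ≤ k, S * vOf k qn j = A.swapV β (kv k qT QT j) := fun j hj => by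
    rw [← hvv j hj, vOf_eq_tail hj, kv_eq_tail hj]
    simp only [hqn, P157.Rsb.tail, ← sum_div]
    field_simp
  have hh : ∀ j ≤ k, hA A.a A.w (β * S * vOf k qn j)
      = β * ∑ e, A.a e * (A.w e * tiltV (t e) (kv k qT QT j)) := fun j hj => by
    rw [mul_assoc, hv j hj, hA, mul_sum]
    refine sum_congr rfl fun e _ => ?_
    have e1 : kA A.a A.w e (β * A.swapV β (kv k qT QT j)) = β * tiltV (t e) (kv k qT QT j) := by
      have h := A.kap_swapV hβ e (hT.kv_nonneg j)
      rw [Atoms.kap, ← tilt_eq_swapK, div_eq_iff hβ.ne'] at h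
      rw [h]; ring
    rw [e1]; ring
  have htarget : (∑ e, A.a e * (A.w e * kQ (t e) k qT QT)) / 2 = S * A.eAt (β * S) k qn := by
    have hs : ∀ i ∈ range k,
        (hA A.a A.w (β * S * vOf k qn i) - hA A.a A.w (β * S * vOf k qn (i + 1))) / lev k (i + 1)
          = (β * ∑ e, A.a e * (A.w e * tiltV (t e) (kv k qT QT i))
            - β * ∑ e, A.a e * (A.w e * tiltV (t e) (kv k qT QT (i + 1)))) / lev k (i + 1) :=
      fun i hi => by rw [hh i (mem_range.1 hi).le, hh (i + 1) (mem_range.1 hi)]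
    rw [A.eAt_eq, comb, hh k le_rfl, sum_congr rfl hs]
    have hc : β * (∑ e, A.a e * (A.w e * kQ (t e) k qT QT)) =
        β * ∑ e, A.a e * (A.w e * tiltV (t e) (kv k qT QT k)) + ∑ i ∈ range k,
          (β * ∑ e, A.a e * (A.w e * tiltV (t e) (kv k qT QT i))
            - β * ∑ e, A.a e * (A.w e * tiltV (t e) (kv k qT QT (i + 1)))) / lev k (i + 1) := by
      simp only [kQ, kq, mul_add, sum_add_distrib, mul_sum, sum_div, ← sum_sub_distrib]
      rw [add_comm, sum_comm]
      exact congrArg _ (sum_congr rfl fun i _ => sum_congr rfl fun e _ => by ring)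
    rw [← hc]
    field_simp
  have hdq : mass k * ∑ j ∈ Icc 1 k, |qn j - q j| ≤ 2 * δ := by
    have hm : 0 ≤ mass k := by unfold P157.Rsb.mass; positivity
    have h2 : mass k * ∑ j ∈ Icc 1 k, |qn j - qs j| ≤ δ := by
      calc mass k * ∑ j ∈ Icc 1 k, |qn j - qs j| ≤ mass k * ∑ j ∈ Icc 1 k, δ := by
            refine mul_le_mul_of_nonneg_left (sum_le_sum fun j hj => ?_) hm
            have hj := (mem_Icc.1 hj).2
            have e1 : qn j - qs j = qn j * (1 - S) := by
              simp only [hqn]; field_simp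
            have h01 : 0 ≤ qn j ∧ qn j ≤ 1 := by
              have a : IsKer k qn 1 1 := ⟨hpath.1, hpath.2.1, hpath.2.2, le_rfl⟩
              exact ⟨a.nonneg hj, a.le_diag hj⟩
            rw [e1, abs_mul, abs_of_nonneg h01.1]
            exact (mul_le_of_le_one_left (abs_nonneg _) h01.2).trans hS
        _ ≤ δ := by
            rw [sum_const, Nat.card_Icc, nsmul_eq_mul, P157.Rsb.mass, one_div,
              inv_mul_le_iff₀ (by positivity), Nat.add_sub_cancel]
            exact mul_le_mul_of_nonneg_right (by linarith) hδ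
    calc mass k * ∑ j ∈ Icc 1 k, |qn j - q j|
        ≤ mass k * ∑ j ∈ Icc 1 k, (|qn j - qs j| + |q j - qs j|) :=
          mul_le_mul_of_nonneg_left (sum_le_sum fun j _ =>
            (abs_sub_le _ (qs j) _).trans (by rw [abs_sub_comm (qs j)])) hm
      _ ≤ 2 * δ := by rw [sum_add_distrib, mul_add]; linarith
  rw [htarget]
  have h1 := hlip k β q qn hβ hβB hq hpath
  have h2 := abs_eAt_sub_le A (β := β) (β' := β * S) hL0 hL hβ (mul_pos hβ hS0) hpath
  have h3 : |(1 - S) * A.eAt (β * S) k qn| ≤ δ * M := by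
    rw [abs_mul]
    exact mul_le_mul hS (A.abs_eAt_le (mul_pos hβ hS0) hpath) (abs_nonneg _) hδ
  have hb : |β * S - β| ≤ B * δ := by
    rw [show β * S - β = -(β * (1 - S)) by ring, abs_neg, abs_mul, abs_of_pos hβ]
    exact mul_le_mul hβB hS (abs_nonneg _) hB.le
  have hh1 := h1.trans (mul_le_mul_of_nonneg_left hdq hC₁)
  have hh2 := h2.trans (div_le_div_of_nonneg_right (mul_le_mul_of_nonneg_left hb hL0) two_pos.le)
  calc |A.eAt β k q - S * A.eAt (β * S) k qn|
      = |(A.eAt β k q - A.eAt β k qn) + (A.eAt β k qn - A.eAt (β * S) k qn)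
          + (1 - S) * A.eAt (β * S) k qn| := by ring_nf
    _ ≤ |A.eAt β k q - A.eAt β k qn| + |A.eAt β k qn - A.eAt (β * S) k qn|
          + |(1 - S) * A.eAt (β * S) k qn| := abs_add_three _ _ _
    _ ≤ C₁ * (2 * δ) + L * (B * δ) / 2 + δ * M := by
        rw [abs_sub_comm (A.eAt β k q) (A.eAt β k qn),
          abs_sub_comm (A.eAt β k qn) (A.eAt (β * S) k qn)]
        exact add_le_add (add_le_add hh1 hh2) h3
    _ ≤ _ := by
        have := mul_nonneg hM0 hδ
        linarith [hM, congrArg (· * δ) hM]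

end closing

end Vale.Agent.P166.Rsb.Energy
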