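import Vale.Agent.P157.Rsb.Defs

/-!
# P166: the kernel of a block after a tilt

`kv k q Q` are the tail variables of a kernel `q` with diagonal `Q`; a tilt `exp (-t u² / 2)` of a
field with that kernel replaces them by `φ_t (kv)`, `φ_t v = v / (1 + t v)`, and gives the kernel
`kq t k q Q` with diagonal `kQ t k q Q`.
-/

open Real
open Vale.Agent.P157.Rsb (lev)

namespace Vale.Agent.P166.Rsb.Energy

/-- The tail variables of a kernel with diagonal `Q`; `vOf` is the case `Q = 1`. -/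
noncomputable def kv (k : ℕ) (q : ℕ → ℝ) (Q : ℝ) (j : ℕ) : ℝ :=
  Q - q k + ∑ i ∈ Finset.Ico j k, lev k (i + 1) * (q (i + 1) - q i)

/-- The image of a tail variable under a tilt. -/
noncomputable def tiltV (t v : ℝ) : ℝ := v / (1 + t * v)

/-- The kernel after a tilt. -/
noncomputable def kq (t : ℝ) (k : ℕ) (q : ℕ → ℝ) (Q : ℝ) (j : ℕ) : ℝ :=
  ∑ i ∈ Finset.range j, (tiltV t (kv k q Q i) - tiltV t (kv k q Q (i + 1))) / lev k (i + 1)

/-- The diagonal after a tilt. -/
noncomputable def kQ (t : ℝ) (k : ℕ) (q : ℕ → ℝ) (Q : ℝ) : ℝ :=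
  kq t k q Q k + tiltV t (kv k q Q k)

end Vale.Agent.P166.Rsb.Energy
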