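import Vale.Agent.P157.Rsb.Gauss
import Vale.Agent.P166.Rsb.Energy.KerDefs
import Vale.Agent.P166.Rsb.Slot.Ends

/-!
# P166: the recursion of a field under a quadratic tilt

For bounded potentials `f n ≤ 0` that tend pointwise to `-t u² / 2`, the value and the conditional
means of the field with kernel `q` and diagonal `Q` tend to those of a Gaussian field with kernel
`kq t k q Q` and diagonal `kQ t k q Q`.
-/

open MeasureTheory ProbabilityTheory Real Filter Topology Finset
open Vale.Agent.P157.Rsb (acc acc_put acc_top acc_zero gauss_quad lev lev_pos val cnd put val_top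
  cnd_top val_step cnd_step levels_down LinB Tame lineSize measurable_put_right val_regular
  cnd_regular cnd_abs_le cnd_upto cnd_const_fun cnd_tame)
open Vale.Agent.P166.Rsb.Slot (IsKer kerFld kerFld_le gamQ)

namespace Vale.Agent.P166.Rsb.Energy

theorem to_eq {g : ℕ → ℝ} {a b : ℝ} (h : Tendsto g atTop (𝓝 a)) (e : a = b) : Tendsto g atTop (𝓝 b) :=
  e ▸ h

/-! ### Gaussian integrals -/

/-- A Gaussian step under a quadratic tilt. -/
theorem tilt_step (ψ : ℝ → ℝ) {c : ℝ} (hc : 0 ≤ c) (S s : ℝ) :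
    ∫ y, ψ (S + s * y) * exp (-(c * (S + s * y) ^ 2) / 2) ∂gaussianReal 0 1
      = exp (-(c * S ^ 2) / (2 * (1 + c * s ^ 2))) / √(1 + c * s ^ 2)
        * ∫ y, ψ (S / (1 + c * s ^ 2) + s / √(1 + c * s ^ 2) * y) ∂gaussianReal 0 1 := by
  have hp : 0 < 1 + c * s ^ 2 := by positivity
  have e : ∀ y, ψ (S + s * y) * exp (-(c * (S + s * y) ^ 2) / 2)
      = exp (-(c * S ^ 2) / 2) *
        (ψ (S + s * y) * exp (-(c * s * S) * y - (1 + c * s ^ 2 - 1) * y ^ 2 / 2)) := fun y => by
    rw [mul_left_comm, ← exp_add]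
    congr 2
    ring
  simp only [e, integral_const_mul, gauss_quad (fun y => ψ (S + s * y)) hp]
  have e2 : ∀ y, S + s * (-(c * s * S) / (1 + c * s ^ 2) + y / √(1 + c * s ^ 2))
      = S / (1 + c * s ^ 2) + s / √(1 + c * s ^ 2) * y := fun y => by
    field_simp
    ring
  simp only [e2]
  rw [← mul_assoc, mul_div_assoc', ← exp_add]
  congr 3
  field_simp
  ring

theorem tilt_step_one {c : ℝ} (hc : 0 ≤ c) (S s : ℝ) :
    ∫ y, exp (-(c * (S + s * y) ^ 2) / 2) ∂gaussianReal 0 1
      = exp (-(c * S ^ 2) / (2 * (1 + c * s ^ 2))) / √(1 + c * s ^ 2) := by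
  simpa using tilt_step (fun _ => 1) hc S s

theorem tilt_step_log {c : ℝ} (hc : 0 ≤ c) (S s : ℝ) :
    log (∫ y, exp (-(c * (S + s * y) ^ 2) / 2) ∂gaussianReal 0 1)
      = -(c * S ^ 2) / (2 * (1 + c * s ^ 2)) - log (√(1 + c * s ^ 2)) := by
  have hp : 0 < √(1 + c * s ^ 2) := by positivity
  rw [tilt_step_one hc, log_div (exp_pos _).ne' hp.ne', log_exp]

/-- Two independent Gaussian terms are one. -/
theorem merge {G : ℝ → ℝ} (hG : Continuous G) {C : ℝ} (hC : ∀ u, |G u| ≤ C) (u a b : ℝ) :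
    ∫ y, ∫ x, G (u + a * y + b * x) ∂gaussianReal 0 1 ∂gaussianReal 0 1 = ∫ w, G (u + √(a ^ 2 + b ^ 2) * w) ∂gaussianReal 0 1 := by
  have h3 : ((gaussianReal 0 1).prod (gaussianReal 0 1)).map (fun w : ℝ × ℝ => a * w.1 + b * w.2)
      = (gaussianReal 0 1).map (√(a ^ 2 + b ^ 2) * ·) := by
    rw [show (fun w : ℝ × ℝ => a * w.1 + b * w.2)
        = (fun w : ℝ × ℝ => w.1 + w.2) ∘ Prod.map (a * ·) (b * ·) from rfl,
      ← Measure.map_map (by fun_prop) (by fun_prop),
      ← Measure.map_prod_map _ _ (by fun_prop) (by fun_prop)]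
    simp only [gaussianReal_map_const_mul, mul_zero, mul_one]
    rw [show ((gaussianReal 0 _).prod (gaussianReal 0 _)).map (fun w : ℝ × ℝ => w.1 + w.2)
      = Measure.conv _ _ from rfl, gaussianReal_conv_gaussianReal]
    congr 1
    · simp
    · ext; simp [sq_sqrt (show 0 ≤ a ^ 2 + b ^ 2 by positivity)]
  have hF : Continuous fun v => G (u + v) := hG.comp (continuous_const.add continuous_id)
  simp only [add_assoc]
  rw [integral_integral (f := fun y x => G (u + (a * y + b * x)))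
    ((integrable_const C).mono' (Continuous.aestronglyMeasurable (by fun_prop))
      (ae_of_all _ fun p => hC _)),
    ← integral_map (μ := gaussianReal 0 1) (φ := (√(a ^ 2 + b ^ 2) * ·)) (f := fun v => G (u + v)) (by fun_prop)
      hF.aestronglyMeasurable, ← h3, integral_map (by fun_prop) hF.aestronglyMeasurable]

theorem abs_shift_mean_le {G : ℝ → ℝ} {C : ℝ} (hC : ∀ u, |G u| ≤ C) (u b : ℝ) :
    |∫ x, G (u + b * x) ∂gaussianReal 0 1| ≤ C := by
  have h := norm_integral_le_of_norm_le_const (μ := gaussianReal 0 1) (f := fun x => G (u + b * x))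
    (ae_of_all _ fun x => (Real.norm_eq_abs _).trans_le (hC _))
  simpa [Real.norm_eq_abs] using h

theorem continuous_shift_mean {G : ℝ → ℝ} (hG : Continuous G) {C : ℝ} (hC : ∀ u, |G u| ≤ C) (b : ℝ) :
    Continuous fun u => ∫ x, G (u + b * x) ∂gaussianReal 0 1 :=
  continuous_of_dominated (bound := fun _ => C) (fun u => Continuous.aestronglyMeasurable (by fun_prop))
    (fun u => ae_of_all _ fun x => (Real.norm_eq_abs _).trans_le (hC _)) (integrable_const C)
    (ae_of_all _ fun x => by fun_prop)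

/-! ### the kernel after a tilt -/

/-- The coefficient of the square at level `j`. -/
noncomputable def coef (t : ℝ) (k : ℕ) (q : ℕ → ℝ) (Q : ℝ) (j : ℕ) : ℝ := 1 / (1 + t * kv k q Q j)

/-- The field amplitude of level `l`. -/
noncomputable def amp (q : ℕ → ℝ) (l : ℕ) : ℝ := √(q l - q (l - 1))

/-- The field accumulated up to level `j`. -/
noncomputable def part (k : ℕ) (q : ℕ → ℝ) (j : ℕ) (z : Fin k → ℝ) : ℝ :=
  acc (amp q) (fun y : ℝ => y) j z

variable {t : ℝ} {k : ℕ} {q : ℕ → ℝ} {Q : ℝ}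

theorem kv_top (k : ℕ) (q : ℕ → ℝ) (Q : ℝ) : kv k q Q k = Q - q k := by simp [kv]

theorem kv_step {i : ℕ} (hi : i < k) :
    kv k q Q i = kv k q Q (i + 1) + lev k (i + 1) * (q (i + 1) - q i) := by
  simp only [kv, sum_eq_sum_Ico_succ_bot hi]; ring

theorem kv_nonneg (hq : IsKer k q Q) (j : ℕ) : 0 ≤ kv k q Q j :=
  add_nonneg (sub_nonneg.2 hq.2.2) (sum_nonneg fun i hi =>
    mul_nonneg (P157.Rsb.lev_nonneg _) (sub_nonneg.2 (hq.2.1 i (mem_Ico.1 hi).2)))

theorem den_pos (ht : 0 ≤ t) (hq : IsKer k q Q) (j : ℕ) : 0 < 1 + t * kv k q Q j :=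
  add_pos_of_pos_of_nonneg one_pos (mul_nonneg ht (kv_nonneg hq j))

theorem coef_nonneg (ht : 0 ≤ t) (hq : IsKer k q Q) (j : ℕ) : 0 ≤ coef t k q Q j :=
  (one_div_pos.2 (den_pos ht hq j)).le

theorem kq_succ (t : ℝ) (k : ℕ) (q : ℕ → ℝ) (Q : ℝ) (i : ℕ) : kq t k q Q (i + 1)
    = kq t k q Q i + (tiltV t (kv k q Q i) - tiltV t (kv k q Q (i + 1))) / lev k (i + 1) := by
  simp only [kq, sum_range_succ]

/-- One level: the new coefficient, the new argument and the increment of the kernel. -/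
theorem step_ids (ht : 0 ≤ t) (hq : IsKer k q Q) {i : ℕ} (hi : i < k) :
    lev k (i + 1) * t * coef t k q Q (i + 1)
        / (1 + lev k (i + 1) * t * coef t k q Q (i + 1) * amp q (i + 1) ^ 2)
      = lev k (i + 1) * (t * coef t k q Q i) ∧
    coef t k q Q (i + 1) / (1 + lev k (i + 1) * t * coef t k q Q (i + 1) * amp q (i + 1) ^ 2)
      = coef t k q Q i ∧
    coef t k q Q (i + 1) ^ 2 * amp q (i + 1) ^ 2
        / (1 + lev k (i + 1) * t * coef t k q Q (i + 1) * amp q (i + 1) ^ 2)
      = kq t k q Q (i + 1) - kq t k q Q i := by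
  have hm : 0 < lev k (i + 1) := lev_pos (Nat.le_add_left 1 i)
  have hd : amp q (i + 1) ^ 2 = q (i + 1) - q i := by
    rw [amp, Nat.add_sub_cancel, sq_sqrt (sub_nonneg.2 (hq.2.1 i hi))]
  have h1 := den_pos ht hq i
  have h2 := den_pos ht hq (i + 1)
  have hp : 1 + lev k (i + 1) * t * coef t k q Q (i + 1) * amp q (i + 1) ^ 2
      = (1 + t * kv k q Q i) / (1 + t * kv k q Q (i + 1)) := by
    rw [hd, coef, kv_step hi, eq_div_iff h2.ne']
    field_simp
    ring
  have e3 : tiltV t (kv k q Q i) - tiltV t (kv k q Q (i + 1))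
      = lev k (i + 1) * (q (i + 1) - q i)
        / ((1 + t * kv k q Q i) * (1 + t * kv k q Q (i + 1))) := by
    rw [tiltV, tiltV, div_sub_div _ _ h1.ne' h2.ne', kv_step (Q := Q) (q := q) hi]
    ring_nf
  refine ⟨?_, ?_, ?_⟩
  · rw [hp, coef, coef]; field_simp
  · rw [hp, coef, coef]; field_simp
  · rw [hp, hd, kq_succ, add_sub_cancel_left, e3, coef]; field_simp

theorem kq_mono (ht : 0 ≤ t) (hq : IsKer k q Q) {i j : ℕ} (hij : i ≤ j) (hj : j ≤ k) :
    kq t k q Q i ≤ kq t k q Q j := by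
  induction j, hij using Nat.le_induction with
  | base => exact le_rfl
  | succ j hij ih =>
    refine (ih (by omega)).trans ?_
    have h := (step_ids ht hq (i := j) (by omega)).2.2
    have : 0 ≤ coef t k q Q (j + 1) ^ 2 * amp q (j + 1) ^ 2
        / (1 + lev k (j + 1) * t * coef t k q Q (j + 1) * amp q (j + 1) ^ 2) := by
      have := coef_nonneg ht hq (j + 1)
      have := P157.Rsb.lev_nonneg (k := k) (j + 1)
      positivity
    linarith

theorem kq_zero (t : ℝ) (k : ℕ) (q : ℕ → ℝ) (Q : ℝ) : kq t k q Q 0 = 0 := by simp [kq]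

theorem kq_le_kQ (ht : 0 ≤ t) (hq : IsKer k q Q) {j : ℕ} (hj : j ≤ k) :
    kq t k q Q j ≤ kQ t k q Q :=
  (kq_mono ht hq hj le_rfl).trans (le_add_of_nonneg_right
    (div_nonneg (kv_nonneg hq k) (den_pos ht hq k).le))

theorem kQ_le (ht : 0 ≤ t) (hq : IsKer k q Q) : kQ t k q Q ≤ Q := by
  have h : ∀ j, j ≤ k → kq t k q Q j ≤ q j := by
    intro j
    induction j with
    | zero => intro _; rw [kq_zero, hq.1]
    | succ j ih =>
      intro hj
      have hj' : j < k := hj
      have hd : 0 ≤ q (j + 1) - q j := sub_nonneg.2 (hq.2.1 j hj')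
      have e : tiltV t (kv k q Q j) - tiltV t (kv k q Q (j + 1))
          ≤ lev k (j + 1) * (q (j + 1) - q j) := by
        rw [tiltV, tiltV, div_sub_div _ _ (den_pos ht hq j).ne' (den_pos ht hq (j + 1)).ne',
          div_le_iff₀ (mul_pos (den_pos ht hq j) (den_pos ht hq (j + 1))), kv_step (Q := Q) (q := q) hj']
        have a := kv_nonneg hq (j + 1)
        have hX : 0 ≤ lev k (j + 1) * (q (j + 1) - q j) := mul_nonneg (P157.Rsb.lev_nonneg _) hd
        have hY : 1 ≤ (1 + t * (kv k q Q (j + 1) + lev k (j + 1) * (q (j + 1) - q j)))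
            * (1 + t * kv k q Q (j + 1)) :=
          one_le_mul_of_one_le_of_one_le (le_add_of_nonneg_right (by positivity))
            (le_add_of_nonneg_right (by positivity))
        linarith [mul_le_mul_of_nonneg_left hY hX]
      rw [← sub_nonneg] at e
      have h2 : (tiltV t (kv k q Q j) - tiltV t (kv k q Q (j + 1))) / lev k (j + 1)
          ≤ q (j + 1) - q j := by
        rw [div_le_iff₀ (lev_pos (Nat.le_add_left 1 j))]
        linarith
      rw [kq_succ]
      linarith [ih hj'.le]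
  have ht' : tiltV t (kv k q Q k) ≤ kv k q Q k :=
    div_le_self (kv_nonneg hq k) (le_add_of_nonneg_right (mul_nonneg ht (kv_nonneg hq k)))
  rw [kv_top] at ht'
  rw [kQ, kv_top]
  linarith [h k le_rfl]

theorem kerFld_part (z : Fin k → ℝ) (x : ℝ) :
    kerFld k q Q z x = part k q k z + √(kv k q Q k) * x := by
  simp only [kerFld, part, acc_top, kv_top, amp, Nat.add_sub_cancel]

/-! ### limits -/

section Limit

variable {f : ℕ → ℝ → ℝ} (ht : 0 ≤ t) (hq : IsKer k q Q) (hfm : ∀ n, Measurable (f n))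
  (hfb : ∀ n, ∃ B, ∀ u, |f n u| ≤ B) (hf0 : ∀ n u, f n u ≤ 0)
  (hlim : ∀ u, Tendsto (fun n => f n u) atTop (𝓝 (-(t * u ^ 2) / 2)))

/-- The Hamiltonian of the field. -/
noncomputable def fldH (k : ℕ) (q : ℕ → ℝ) (Q : ℝ) (g : ℝ → ℝ) (z : Fin k → ℝ) (x : ℝ) : ℝ :=
  g (kerFld k q Q z x)

include hfm hfb in
theorem linB_fldH (n : ℕ) : LinB lineSize (fldH k q Q (f n)) := by
  obtain ⟨B, hB⟩ := hfb n
  have hB0 : 0 ≤ B := (abs_nonneg _).trans (hB 0)
  exact ⟨(hfm n).comp (kerFld_le q Q), B, hB0, fun z x =>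
    (hB _).trans (le_mul_of_one_le_right hB0 (le_add_of_nonneg_right (P157.Rsb.Size.tot_nonneg _ z)))⟩

include hfm hfb hf0 in
theorem val_nonpos (n j : ℕ) (hj : j ≤ k) (z : Fin k → ℝ) :
    val (gaussianReal 0 1) (gaussianReal 0 1) (fldH k q Q (f n)) j z ≤ 0 := by
  have hL := linB_fldH (q := q) (Q := Q) (k := k) hfm hfb n
  suffices H : ∀ j ≤ k, ∀ z, val (gaussianReal 0 1) (gaussianReal 0 1) (fldH k q Q (f n)) j z ≤ 0 from H j hj z
  refine levels_down (k := k) (P := fun j => ∀ z, val (gaussianReal 0 1) (gaussianReal 0 1) (fldH k q Q (f n)) j z ≤ 0)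
    (fun z => ?_) fun j hj ih z => ?_
  · rw [val_top]
    refine log_nonpos (integral_nonneg fun x => (exp_pos _).le) ?_
    have h := integral_mono (P157.Rsb.integrable_exp_leaf (μ := gaussianReal 0 1) hL z) (integrable_const (1 : ℝ))
      fun x => exp_le_one_iff.2 (hf0 n _)
    simpa using h
  · have hm : 0 < lev k (j + 1) := lev_pos (Nat.le_add_left 1 j)
    have e := val_step (k := k) (γ := gaussianReal 0 1) (μ := gaussianReal 0 1) (j := j + 1) (Nat.le_add_left 1 j) hj z
      (fldH k q Q (f n))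
    rw [Nat.add_sub_cancel] at e
    rw [e]
    refine div_nonpos_of_nonpos_of_nonneg (log_nonpos (integral_nonneg fun x => (exp_pos _).le) ?_) hm.le
    have h := integral_mono (P157.Rsb.integrable_val_step (μ := gaussianReal 0 1) hL (j := j + 1) z j).1 (integrable_const (1 : ℝ))
      fun y => exp_le_one_iff.2 (mul_nonpos_of_nonneg_of_nonpos hm.le (ih _))
    simpa using h

include ht hq hfm hfb hf0 hlim in
theorem val_limit (j : ℕ) (hj : j ≤ k) : ∃ C, ∀ z, Tendsto (fun n => val (gaussianReal 0 1) (gaussianReal 0 1) (fldH k q Q (f n)) j z)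
    atTop (𝓝 (C - t * coef t k q Q j * part k q j z ^ 2 / 2)) := by
  refine levels_down (k := k) (P := fun j => ∃ C, ∀ z, Tendsto
    (fun n => val (gaussianReal 0 1) (gaussianReal 0 1) (fldH k q Q (f n)) j z) atTop
      (𝓝 (C - t * coef t k q Q j * part k q j z ^ 2 / 2))) ?_ (fun i hi ih => ?_) j hj
  · refine ⟨-log (√(1 + t * kv k q Q k)), fun z => ?_⟩
    simp only [val_top, fldH, kerFld_part]
    set S := part k q k z
    have h : Tendsto (fun n => ∫ x, exp (f n (S + √(kv k q Q k) * x)) ∂gaussianReal 0 1) atTop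
        (𝓝 (∫ x, exp (-(t * (S + √(kv k q Q k) * x) ^ 2) / 2) ∂gaussianReal 0 1)) := by
      refine tendsto_integral_of_dominated_convergence (fun _ => 1)
        (fun n => (((hfm n).comp (by fun_prop)).exp).aestronglyMeasurable) (integrable_const 1)
        (fun n => ae_of_all _ fun x => ?_) (ae_of_all _ fun x => (continuous_exp.tendsto _).comp (hlim _))
      rw [Real.norm_eq_abs, abs_of_pos (exp_pos _)]
      exact exp_le_one_iff.2 (hf0 n _)
    have hne : (∫ x, exp (-(t * (S + √(kv k q Q k) * x) ^ 2) / 2) ∂gaussianReal 0 1) ≠ 0 := by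
      rw [tilt_step_one ht]; positivity
    refine to_eq (h.log hne) ?_
    rw [tilt_step_log ht, sq_sqrt (kv_nonneg hq k), coef]
    have := den_pos ht hq k
    field_simp
    ring
  · obtain ⟨C, hC⟩ := ih
    have hm : 0 < lev k (i + 1) := lev_pos (Nat.le_add_left 1 i)
    obtain ⟨i1, -, -⟩ := step_ids ht hq hi
    set m := lev k (i + 1)
    set c := m * t * coef t k q Q (i + 1) with hc
    have hc0 : 0 ≤ c := by have := coef_nonneg ht hq (i + 1); positivity
    refine ⟨C - log (√(1 + c * amp q (i + 1) ^ 2)) / m, fun z => ?_⟩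
    have e := fun n => val_step (k := k) (γ := gaussianReal 0 1) (μ := gaussianReal 0 1) (j := i + 1) (Nat.le_add_left 1 i) hi z
      (fldH k q Q (f n))
    simp only [Nat.add_sub_cancel] at e
    simp only [e]
    set S := part k q i z
    set s := amp q (i + 1)
    have hS : ∀ y, part k q (i + 1) (put z i y) = S + s * y := fun y => acc_put _ _ z hi y
    have h : Tendsto (fun n => ∫ y, exp (m * val (gaussianReal 0 1) (gaussianReal 0 1) (fldH k q Q (f n)) (i + 1) (put z i y)) ∂gaussianReal 0 1) atTop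
        (𝓝 (∫ y, exp (m * C) * exp (-(c * (S + s * y) ^ 2) / 2) ∂gaussianReal 0 1)) := by
      refine tendsto_integral_of_dominated_convergence (fun _ => 1) (fun n => ?_) (integrable_const 1)
        (fun n => ae_of_all _ fun y => ?_) (ae_of_all _ fun y => ?_)
      · exact ((((val_regular (μ := gaussianReal 0 1) (linB_fldH (q := q) (Q := Q) (k := k) hfm hfb n) (i + 1)).1).comp
          (measurable_put_right z i)).const_mul m).exp.aestronglyMeasurable
      · rw [Real.norm_eq_abs, abs_of_pos (exp_pos _)]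
        exact exp_le_one_iff.2 (mul_nonpos_of_nonneg_of_nonpos hm.le (val_nonpos hfm hfb hf0 n _ hi _))
      · refine to_eq ((continuous_exp.tendsto _).comp ((hC (put z i y)).const_mul m)) ?_
        rw [hS, ← exp_add]
        congr 1
        rw [hc]; ring
    have hne : (∫ y, exp (m * C) * exp (-(c * (S + s * y) ^ 2) / 2) ∂gaussianReal 0 1) ≠ 0 := by
      rw [integral_const_mul, tilt_step_one hc0]; positivity
    refine to_eq ((h.log hne).div_const m) ?_
    rw [integral_const_mul, log_mul (exp_pos _).ne' (by rw [tilt_step_one hc0]; positivity), log_exp,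
      tilt_step_log hc0]
    have e2 : -(c * S ^ 2) / (2 * (1 + c * s ^ 2)) = -(c / (1 + c * s ^ 2) * S ^ 2) / 2 := by
      rw [div_mul_eq_mul_div, ← neg_div, div_div, mul_comm 2]
    rw [e2, i1]
    field_simp
    ring

include ht hq hfm hfb hf0 hlim in
/-- One level of the descent of conditional means. -/
theorem cnd_one_step {φ : ℕ → (Fin k → ℝ) → ℝ → ℝ} {B : ℝ} (hφm : ∀ n, Measurable (Function.uncurry (φ n)))
    (hφb : ∀ n z x, |φ n z x| ≤ B) {G : ℝ → ℝ} (hG : Continuous G) {C : ℝ} (hGb : ∀ u, |G u| ≤ C)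
    {i : ℕ} (hi : i < k) {K : ℝ} (hK' : kq t k q Q (i + 1) ≤ K)
    (ih : ∀ z, Tendsto (fun n => cnd (gaussianReal 0 1) (gaussianReal 0 1) (fldH k q Q (f n)) (φ n) (i + 1) z) atTop
      (𝓝 (∫ y, G (coef t k q Q (i + 1) * part k q (i + 1) z + √(K - kq t k q Q (i + 1)) * y) ∂gaussianReal 0 1)))
    (z : Fin k → ℝ) : Tendsto (fun n => cnd (gaussianReal 0 1) (gaussianReal 0 1) (fldH k q Q (f n)) (φ n) i z) atTop
      (𝓝 (∫ y, G (coef t k q Q i * part k q i z + √(K - kq t k q Q i) * y) ∂gaussianReal 0 1)) := by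
  obtain ⟨C₀, hC₀⟩ := val_limit ht hq hfm hfb hf0 hlim (i + 1) hi
  have hm : 0 < lev k (i + 1) := lev_pos (Nat.le_add_left 1 i)
  obtain ⟨-, i2, i3⟩ := step_ids ht hq hi
  set m := lev k (i + 1)
  set c := m * t * coef t k q Q (i + 1) with hc
  have hc0 : 0 ≤ c := by have := coef_nonneg ht hq (i + 1); positivity
  set S := part k q i z
  set s := amp q (i + 1)
  have hp : 0 < 1 + c * s ^ 2 := by positivity
  have hS : ∀ y, part k q (i + 1) (put z i y) = S + s * y := fun y => acc_put _ _ z hi y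
  have hL := fun n => linB_fldH (q := q) (Q := Q) (k := k) hfm hfb n
  have e := fun n => cnd_step (k := k) (γ := gaussianReal 0 1) (μ := gaussianReal 0 1) (j := i + 1) (Nat.le_add_left 1 i) hi z
    (fldH k q Q (f n)) (φ n)
  simp only [Nat.add_sub_cancel] at e
  simp only [e]
  set ψ := fun u => ∫ x, G (coef t k q Q (i + 1) * u + √(K - kq t k q Q (i + 1)) * x) ∂gaussianReal 0 1 with hψ
  have hexp : ∀ y, Tendsto (fun n => exp (m * val (gaussianReal 0 1) (gaussianReal 0 1) (fldH k q Q (f n)) (i + 1) (put z i y))) atTop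
      (𝓝 (exp (m * C₀) * exp (-(c * (S + s * y) ^ 2) / 2))) := fun y => by
    refine to_eq ((continuous_exp.tendsto _).comp ((hC₀ (put z i y)).const_mul m)) ?_
    rw [hS, ← exp_add]
    congr 1
    rw [hc]; ring
  have hle : ∀ n y, exp (m * val (gaussianReal 0 1) (gaussianReal 0 1) (fldH k q Q (f n)) (i + 1) (put z i y)) ≤ 1 := fun n y =>
    exp_le_one_iff.2 (mul_nonpos_of_nonneg_of_nonpos hm.le (val_nonpos hfm hfb hf0 n _ hi _))
  have hmv : ∀ n, Measurable fun y => exp (m * val (gaussianReal 0 1) (gaussianReal 0 1) (fldH k q Q (f n)) (i + 1) (put z i y)) :=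
    fun n => ((((val_regular (μ := gaussianReal 0 1) (hL n) (i + 1)).1).comp (measurable_put_right z i)).const_mul m).exp
  have hmc : ∀ n, Measurable fun y => cnd (gaussianReal 0 1) (gaussianReal 0 1) (fldH k q Q (f n)) (φ n) (i + 1) (put z i y) := fun n =>
    ((cnd_regular (μ := gaussianReal 0 1) (hL n) (Tame.of_bdd (hφm n) (hφb n)) (i + 1)).1).comp (measurable_put_right z i)
  have hnum : Tendsto (fun n => ∫ y, cnd (gaussianReal 0 1) (gaussianReal 0 1) (fldH k q Q (f n)) (φ n) (i + 1) (put z i y)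
      * exp (m * val (gaussianReal 0 1) (gaussianReal 0 1) (fldH k q Q (f n)) (i + 1) (put z i y)) ∂gaussianReal 0 1) atTop
      (𝓝 (∫ y, ψ (S + s * y) * (exp (m * C₀) * exp (-(c * (S + s * y) ^ 2) / 2)) ∂gaussianReal 0 1)) := by
    refine tendsto_integral_of_dominated_convergence (fun _ => |B|)
      (fun n => ((hmc n).mul (hmv n)).aestronglyMeasurable) (integrable_const _)
      (fun n => ae_of_all _ fun y => ?_) (ae_of_all _ fun y => ?_)
    · rw [Real.norm_eq_abs, abs_mul, abs_of_pos (exp_pos _)]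
      exact (mul_le_mul ((cnd_abs_le (hL n) (hφm n) (hφb n) _ _).trans (le_abs_self B)) (hle n y)
        (exp_pos _).le (abs_nonneg _)).trans_eq (mul_one _)
    · refine to_eq ((ih (put z i y)).mul (hexp y)) ?_
      simp only [hψ, hS]
  have hden : Tendsto (fun n => ∫ y, exp (m * val (gaussianReal 0 1) (gaussianReal 0 1) (fldH k q Q (f n)) (i + 1) (put z i y)) ∂gaussianReal 0 1) atTop
      (𝓝 (∫ y, exp (m * C₀) * exp (-(c * (S + s * y) ^ 2) / 2) ∂gaussianReal 0 1)) :=
    tendsto_integral_of_dominated_convergence (fun _ => 1) (fun n => (hmv n).aestronglyMeasurable)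
      (integrable_const 1)
      (fun n => ae_of_all _ fun y => by rw [Real.norm_eq_abs, abs_of_pos (exp_pos _)]; exact hle n y)
      (ae_of_all _ hexp)
  have hne : (∫ y, exp (m * C₀) * exp (-(c * (S + s * y) ^ 2) / 2) ∂gaussianReal 0 1) ≠ 0 := by
    rw [integral_const_mul, tilt_step_one hc0]; positivity
  refine to_eq (hnum.div hden hne) ?_
  simp only [fun a b : ℝ => mul_left_comm a (exp (m * C₀)) b, integral_const_mul]
  rw [tilt_step ψ hc0, tilt_step_one hc0, ← mul_assoc, mul_div_assoc]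
  have hpre : exp (m * C₀) * (exp (-(c * S ^ 2) / (2 * (1 + c * s ^ 2))) / √(1 + c * s ^ 2)) ≠ 0 := by
    positivity
  rw [← mul_div_assoc, mul_div_cancel_left₀ _ hpre]
  have ea : ∀ y x, coef t k q Q (i + 1) * (S / (1 + c * s ^ 2) + s / √(1 + c * s ^ 2) * y)
      + √(K - kq t k q Q (i + 1)) * x
      = coef t k q Q i * S + coef t k q Q (i + 1) * s / √(1 + c * s ^ 2) * y
        + √(K - kq t k q Q (i + 1)) * x := fun y x => by
    rw [← i2]; ring
  simp only [hψ, ea]
  rw [merge hG hGb]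
  have ev : (coef t k q Q (i + 1) * s / √(1 + c * s ^ 2)) ^ 2 + √(K - kq t k q Q (i + 1)) ^ 2
      = K - kq t k q Q i := by
    rw [div_pow, mul_pow, sq_sqrt hp.le, sq_sqrt (sub_nonneg.2 hK'), i3]
    ring
  rw [ev]

include ht hq hfm hfb hf0 hlim in
/-- Conditional means descend through the levels by Gaussian convolution. -/
theorem cnd_descend {φ : ℕ → (Fin k → ℝ) → ℝ → ℝ} {B : ℝ} (hφm : ∀ n, Measurable (Function.uncurry (φ n)))
    (hφb : ∀ n z x, |φ n z x| ≤ B) {G : ℝ → ℝ} (hG : Continuous G) {C : ℝ} (hGb : ∀ u, |G u| ≤ C)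
    {j : ℕ} (hj : j ≤ k) {K : ℝ} (hK : kq t k q Q j ≤ K)
    (hstart : ∀ z, Tendsto (fun n => cnd (gaussianReal 0 1) (gaussianReal 0 1) (fldH k q Q (f n)) (φ n) j z) atTop
      (𝓝 (∫ y, G (coef t k q Q j * part k q j z + √(K - kq t k q Q j) * y) ∂gaussianReal 0 1))) :
    Tendsto (fun n => cnd (gaussianReal 0 1) (gaussianReal 0 1) (fldH k q Q (f n)) (φ n) 0 fun _ => 0) atTop
      (𝓝 (∫ y, G (√K * y) ∂gaussianReal 0 1)) := by
  suffices H : ∀ i ≤ j, ∀ z, Tendsto (fun n => cnd (gaussianReal 0 1) (gaussianReal 0 1) (fldH k q Q (f n)) (φ n) i z) atTop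
      (𝓝 (∫ y, G (coef t k q Q i * part k q i z + √(K - kq t k q Q i) * y) ∂gaussianReal 0 1)) by
    simpa [kq_zero, part, acc_zero] using H 0 (Nat.zero_le _) fun _ => 0
  refine levels_down (k := j) (P := fun i => ∀ z, Tendsto
    (fun n => cnd (gaussianReal 0 1) (gaussianReal 0 1) (fldH k q Q (f n)) (φ n) i z) atTop
      (𝓝 (∫ y, G (coef t k q Q i * part k q i z + √(K - kq t k q Q i) * y) ∂gaussianReal 0 1))) hstart ?_
  intro i hij ih z
  exact cnd_one_step ht hq hfm hfb hf0 hlim hφm hφb hG hGb (hij.trans_le hj)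
    ((kq_mono ht hq hij hj).trans hK) ih z

include ht hq hfm hf0 hlim in
theorem cnd_leaf {e : ℝ → ℝ} (he : Continuous e) {B : ℝ} (heb : ∀ u, |e u| ≤ B) (z : Fin k → ℝ) :
    Tendsto (fun n => cnd (gaussianReal 0 1) (gaussianReal 0 1) (fldH k q Q (f n)) (fun z x => e (kerFld k q Q z x)) k z) atTop
      (𝓝 (∫ y, e (coef t k q Q k * part k q k z + √(kQ t k q Q - kq t k q Q k) * y) ∂gaussianReal 0 1)) := by
  simp only [cnd_top, fldH, kerFld_part]
  set S := part k q k z
  set s := √(kv k q Q k)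
  have hexp : ∀ x, Tendsto (fun n => exp (f n (S + s * x))) atTop
      (𝓝 (exp (-(t * (S + s * x) ^ 2) / 2))) := fun x => (continuous_exp.tendsto _).comp (hlim _)
  have hmf : ∀ n, Measurable fun x => exp (f n (S + s * x)) := fun n => ((hfm n).comp (by fun_prop)).exp
  have hnum : Tendsto (fun n => ∫ x, e (S + s * x) * exp (f n (S + s * x)) ∂gaussianReal 0 1) atTop
      (𝓝 (∫ x, e (S + s * x) * exp (-(t * (S + s * x) ^ 2) / 2) ∂gaussianReal 0 1)) := by
    refine tendsto_integral_of_dominated_convergence (fun _ => B)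
      (fun n => ((he.measurable.comp (by fun_prop)).mul (hmf n)).aestronglyMeasurable) (integrable_const _)
      (fun n => ae_of_all _ fun x => ?_) (ae_of_all _ fun x => (hexp x).const_mul _)
    rw [Real.norm_eq_abs, abs_mul, abs_of_pos (exp_pos _)]
    exact (mul_le_mul (heb _) (exp_le_one_iff.2 (hf0 n _)) (exp_pos _).le
      ((abs_nonneg _).trans (heb 0))).trans_eq (mul_one _)
  have hden : Tendsto (fun n => ∫ x, exp (f n (S + s * x)) ∂gaussianReal 0 1) atTop
      (𝓝 (∫ x, exp (-(t * (S + s * x) ^ 2) / 2) ∂gaussianReal 0 1)) := by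
    refine tendsto_integral_of_dominated_convergence (fun _ => 1)
      (fun n => (hmf n).aestronglyMeasurable) (integrable_const _)
      (fun n => ae_of_all _ fun x => ?_) (ae_of_all _ hexp)
    rw [Real.norm_eq_abs, abs_of_pos (exp_pos _)]
    exact exp_le_one_iff.2 (hf0 n _)
  have hne : (∫ x, exp (-(t * (S + s * x) ^ 2) / 2) ∂gaussianReal 0 1) ≠ 0 := by
    rw [tilt_step_one ht]; positivity
  refine to_eq (hnum.div hden hne) ?_
  rw [tilt_step e ht, tilt_step_one ht]
  rw [mul_div_cancel_left₀ _ (by positivity : exp (-(t * S ^ 2) / (2 * (1 + t * s ^ 2))) / √(1 + t * s ^ 2) ≠ 0)]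
  have hs : s ^ 2 = kv k q Q k := sq_sqrt (kv_nonneg hq k)
  have hw : kQ t k q Q - kq t k q Q k = kv k q Q k / (1 + t * kv k q Q k) := by simp [kQ, tiltV]
  rw [hs, hw, sqrt_div (kv_nonneg hq k)]
  refine integral_congr_ae (ae_of_all _ fun y => ?_)
  simp only [coef, s]
  ring_nf

include ht hq hfm hfb hf0 hlim in
/-- The mean of a bounded observable of the tilted field. -/
theorem mean_limit {e : ℝ → ℝ} (he : Continuous e) {B : ℝ} (heb : ∀ u, |e u| ≤ B) :
    Tendsto (fun n => cnd (gaussianReal 0 1) (gaussianReal 0 1) (fun z s => f n (kerFld k q Q z s))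
        (fun z s => e (kerFld k q Q z s)) 0 fun _ => 0) atTop
      (𝓝 (∫ x, e (√(kQ t k q Q) * x) ∂gaussianReal 0 1)) :=
  cnd_descend ht hq hfm hfb hf0 hlim (φ := fun _ z x => e (kerFld k q Q z x))
    (fun _ => he.measurable.comp (kerFld_le q Q)) (fun _ _ _ => heb _) he heb le_rfl
    (kq_le_kQ ht hq le_rfl) (cnd_leaf ht hq hfm hf0 hlim he heb)

include ht hq hfm hfb hf0 hlim in
/-- The mean square at level `j` of a bounded observable of the tilted field. -/
theorem gamQ_limit {e : ℝ → ℝ} (he : Continuous e) {B : ℝ} (heb : ∀ u, |e u| ≤ B) {j : ℕ} (hj : j ≤ k) :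
    Tendsto (fun n => gamQ k (f n) e q Q j) atTop
      (𝓝 (∫ y, (∫ x, e (√(kq t k q Q j) * y + √(kQ t k q Q - kq t k q Q j) * x) ∂gaussianReal 0 1) ^ 2 ∂gaussianReal 0 1)) := by
  set b := √(kQ t k q Q - kq t k q Q j) with hb
  set G := fun u => (∫ x, e (u + b * x) ∂gaussianReal 0 1) ^ 2 with hG
  have hGc : Continuous G := (continuous_shift_mean he heb b).pow 2
  have hGb : ∀ u, |G u| ≤ B ^ 2 := fun u => by
    rw [hG, abs_pow]
    exact pow_le_pow_left₀ (abs_nonneg _) (abs_shift_mean_le heb u b) 2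
  set φ : ℕ → (Fin k → ℝ) → ℝ → ℝ := fun n z _ =>
    cnd (gaussianReal 0 1) (gaussianReal 0 1) (fldH k q Q (f n)) (fun z x => e (kerFld k q Q z x)) j z ^ 2 with hφ
  have hL := fun n => linB_fldH (q := q) (Q := Q) (k := k) hfm hfb n
  have hme : Measurable (Function.uncurry fun (z : Fin k → ℝ) x => e (kerFld k q Q z x)) :=
    he.measurable.comp (kerFld_le q Q)
  have hle : ∀ n z, |cnd (gaussianReal 0 1) (gaussianReal 0 1) (fldH k q Q (f n)) (fun z x => e (kerFld k q Q z x)) j z| ≤ B := fun n z =>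
    cnd_abs_le (hL n) hme (fun z x => heb _) j z
  have hφm : ∀ n, Measurable (Function.uncurry (φ n)) := fun n =>
    (((cnd_regular (μ := gaussianReal 0 1) (hL n) (Tame.of_bdd hme fun z x => heb _) j).1).comp measurable_fst).pow_const 2
  have hφb : ∀ n z x, |φ n z x| ≤ B ^ 2 := fun n z x => by
    rw [hφ, abs_pow]
    exact pow_le_pow_left₀ (abs_nonneg _) (hle n z) 2
  refine cnd_descend ht hq hfm hfb hf0 hlim (φ := φ) hφm hφb hGc hGb hj (K := kq t k q Q j) le_rfl fun z => ?_
  have he' : ∀ z, Tendsto (fun n => cnd (gaussianReal 0 1) (gaussianReal 0 1) (fldH k q Q (f n)) (fun z x => e (kerFld k q Q z x)) j z) atTop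
      (𝓝 (∫ x, e (coef t k q Q j * part k q j z + b * x) ∂gaussianReal 0 1)) := by
    rw [hb]
    refine levels_down (k := k) (P := fun i => ∀ z, Tendsto (fun n =>
      cnd (gaussianReal 0 1) (gaussianReal 0 1) (fldH k q Q (f n)) (fun z x => e (kerFld k q Q z x)) i z) atTop
        (𝓝 (∫ x, e (coef t k q Q i * part k q i z + √(kQ t k q Q - kq t k q Q i) * x) ∂gaussianReal 0 1)))
      (cnd_leaf ht hq hfm hf0 hlim he heb) (fun i hi ih z => ?_) j hj
    exact cnd_one_step ht hq hfm hfb hf0 hlim (φ := fun _ z x => e (kerFld k q Q z x))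
      (fun _ => hme) (fun _ z x => heb _) he heb hi (kq_le_kQ ht hq hi) ih z
  have e0 : ∀ n, cnd (gaussianReal 0 1) (gaussianReal 0 1) (fldH k q Q (f n)) (φ n) j z
      = cnd (gaussianReal 0 1) (gaussianReal 0 1) (fldH k q Q (f n)) (fun z x => e (kerFld k q Q z x)) j z ^ 2 := fun n =>
    cnd_const_fun (hL n) (fun a a' h => by simp only [cnd_upto j a a' h]) z
  simp only [e0]
  refine to_eq ((he' z).pow 2) ?_
  simp [hG]

end Limit

/-! ### truncated squares -/

theorem integrable_abs_pow (p : ℕ) : Integrable (fun x : ℝ => |x| ^ p) (gaussianReal 0 1) := by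
  rcases Nat.eq_zero_or_pos p with rfl | hp
  · simp
  · simpa [Real.norm_eq_abs] using
      (memLp_id_gaussianReal (μ := 0) (v := 1) p).integrable_norm_pow (by omega)

theorem integral_sq_one : ∫ x : ℝ, x ^ 2 ∂gaussianReal 0 1 = 1 := by
  simpa using (variance_eq_sub (memLp_id_gaussianReal (μ := 0) (v := 1) 2)).symm.trans
    (variance_id_gaussianReal (μ := 0) (v := 1))

theorem integral_sq (r : ℝ) : ∫ x : ℝ, (r * x) ^ 2 ∂gaussianReal 0 1 = r ^ 2 := by
  simp only [mul_pow, integral_const_mul, integral_sq_one, mul_one]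

theorem shift_mean_sub_le {e : ℝ → ℝ} {L : ℝ} (he : Continuous e) (h1 : ∀ u, |e u| ≤ |u|)
    (h2 : ∀ u, |e u - u| ≤ u ^ 2 / L) (u b : ℝ) :
    |∫ x, e (u + b * x) ∂gaussianReal 0 1 - u| ≤ (u ^ 2 + b ^ 2) / L ∧
      |∫ x, e (u + b * x) ∂gaussianReal 0 1| ≤ |u| + (b ^ 2 + 1) / 2 := by
  have hi1 : Integrable (fun x : ℝ => x) (gaussianReal 0 1) :=
    (memLp_id_gaussianReal (μ := 0) (v := 1) 1).integrable le_rfl
  have hi2 : Integrable (fun x : ℝ => x ^ 2) (gaussianReal 0 1) := by simpa using integrable_abs_pow 2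
  have hia : Integrable (fun x : ℝ => |x|) (gaussianReal 0 1) := by simpa using integrable_abs_pow 1
  have hie : Integrable (fun x => e (u + b * x)) (gaussianReal 0 1) :=
    ((integrable_const |u|).add (hia.const_mul |b|)).mono' (Continuous.aestronglyMeasurable (by fun_prop))
      (ae_of_all _ fun x => by
        rw [Real.norm_eq_abs]
        exact (h1 _).trans ((abs_add_le _ _).trans_eq (by rw [abs_mul]; rfl)))
  have hu : ∫ x, (u + b * x) ∂gaussianReal 0 1 = u := by
    rw [integral_add (integrable_const _) (hi1.const_mul b), integral_const_mul, integral_id_gaussianReal]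
    simp
  have hsq : Integrable (fun x => (u + b * x) ^ 2 / L) (gaussianReal 0 1) := by
    refine (((integrable_const (u ^ 2)).add (hi1.const_mul (2 * u * b))).add
      (hi2.const_mul (b ^ 2))).div_const L |>.congr (ae_of_all _ fun x => ?_)
    simp only [Pi.add_apply]; ring
  have hsq' : ∫ x, (u + b * x) ^ 2 / L ∂gaussianReal 0 1 = (u ^ 2 + b ^ 2) / L := by
    rw [integral_div]
    congr 1
    have e0 : ∀ x, (u + b * x) ^ 2 = u ^ 2 + 2 * u * b * x + b ^ 2 * x ^ 2 := fun x => by ring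
    simp only [e0]
    have j1 : Integrable (fun x : ℝ => u ^ 2 + 2 * u * b * x) (gaussianReal 0 1) :=
      (integrable_const _).add (hi1.const_mul _)
    rw [integral_add j1 (hi2.const_mul _),
      integral_add (integrable_const _) (hi1.const_mul _), integral_const_mul, integral_const_mul,
      integral_id_gaussianReal, integral_sq_one]
    simp
  constructor
  · have hsub : Integrable (fun x => e (u + b * x) - (u + b * x)) (gaussianReal 0 1) :=
      hie.sub ((integrable_const u).add (hi1.const_mul b))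
    have := integral_mono hsub.abs hsq fun x => h2 _
    rw [hsq'] at this
    refine le_trans (le_of_eq ?_) (abs_integral_le_integral_abs.trans this)
    rw [integral_sub (f := fun x => e (u + b * x)) (g := fun x => u + b * x) hie
      ((integrable_const u).add (hi1.const_mul b)), hu]
  · have hb : Integrable (fun x => |u| + (b ^ 2 + x ^ 2) / 2) (gaussianReal 0 1) :=
      (integrable_const _).add (((integrable_const _).add hi2).div_const 2)
    have := integral_mono hie.abs hb fun x => (h1 _).trans ((abs_add_le _ _).trans (by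
      rw [abs_mul]
      gcongr
      nlinarith [sq_nonneg (|b| - |x|), sq_abs b, sq_abs x]))
    refine abs_integral_le_integral_abs.trans (this.trans (le_of_eq ?_))
    have j2 : Integrable (fun x : ℝ => b ^ 2 + x ^ 2) (gaussianReal 0 1) := (integrable_const _).add hi2
    rw [integral_add (integrable_const _) (j2.div_const 2), integral_div,
      integral_add (integrable_const _) hi2, integral_sq_one]
    simp

/-- Truncated squares and truncated nested squares are close to the variances. -/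
theorem trunc_bound {Qm : ℝ} (hQm : 0 ≤ Qm) : ∃ C, 0 ≤ C ∧ ∀ (a K L : ℝ) (e : ℝ → ℝ),
    0 ≤ a → a ≤ K → K ≤ Qm → 0 < L → Continuous e → (∀ u, |e u| ≤ |u|) →
    (∀ u, |e u - u| ≤ u ^ 2 / L) →
    |∫ y, (∫ x, e (√a * y + √(K - a) * x) ∂gaussianReal 0 1) ^ 2 ∂gaussianReal 0 1 - a| ≤ C / L ∧
      |∫ x, e (√K * x) ^ 2 ∂gaussianReal 0 1 - K| ≤ C / L := by
  set M₄ := ∫ x : ℝ, |x| ^ 4 ∂gaussianReal 0 1
  have hM : 0 ≤ M₄ := integral_nonneg fun x => by positivity
  refine ⟨2 * Qm ^ 2 * M₄ + 2 * (Qm + 2) ^ 2, by positivity, fun a K L e ha haK hK hL he h1 h2 => ?_⟩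
  set C := 2 * Qm ^ 2 * M₄ + 2 * (Qm + 2) ^ 2
  have key : ∀ (r : ℝ) (F : ℝ → ℝ), Continuous F → 0 ≤ r → r ≤ Qm →
      (∀ u, |F u - u ^ 2| ≤ (2 * u ^ 4 + 2 * (Qm + 2) ^ 2) / L) →
      |∫ y, F (√r * y) ∂gaussianReal 0 1 - r| ≤ C / L := by
    intro r F hF hr hrQ hFu
    have h4 : Integrable (fun y => (2 * (r ^ 2 * |y| ^ 4) + 2 * (Qm + 2) ^ 2) / L) (gaussianReal 0 1) :=
      ((((integrable_abs_pow 4).const_mul _).const_mul 2).add (integrable_const _)).div_const L
    have hb : ∀ y, |F (√r * y) - (√r * y) ^ 2| ≤ (2 * (r ^ 2 * |y| ^ 4) + 2 * (Qm + 2) ^ 2) / L := fun y => by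
      refine (hFu _).trans_eq ?_
      have : (√r * y) ^ 4 = r ^ 2 * |y| ^ 4 := by
        rw [mul_pow, Even.pow_abs (by decide : Even 4), show (√r) ^ 4 = (√r ^ 2) ^ 2 by ring, sq_sqrt hr]
      rw [this]
    have hd : Integrable (fun y => F (√r * y) - (√r * y) ^ 2) (gaussianReal 0 1) :=
      h4.mono' (Continuous.aestronglyMeasurable (by fun_prop))
        (ae_of_all _ fun y => (Real.norm_eq_abs _).trans_le (hb y))
    have hs : Integrable (fun y => (√r * y) ^ 2) (gaussianReal 0 1) := by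
      simpa [mul_pow] using (integrable_abs_pow 2).const_mul ((√r) ^ 2)
    have h := integral_mono hd.abs h4 hb
    have e0 : ∫ y, F (√r * y) ∂gaussianReal 0 1 - r = ∫ y, (F (√r * y) - (√r * y) ^ 2) ∂gaussianReal 0 1 := by
      have hF' : Integrable (fun y => F (√r * y)) (gaussianReal 0 1) :=
        (hd.add hs).congr (ae_of_all _ fun y => by simp)
      rw [integral_sub hF' hs, integral_sq, sq_sqrt hr]
    rw [e0]
    refine abs_integral_le_integral_abs.trans (h.trans ?_)
    rw [integral_div, integral_add (((integrable_abs_pow 4).const_mul _).const_mul 2) (integrable_const _),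
      integral_const_mul, integral_const_mul]
    simp only [integral_const, probReal_univ, smul_eq_mul, one_mul]
    gcongr
    show 2 * (r ^ 2 * M₄) + 2 * (Qm + 2) ^ 2 ≤ C
    linarith [mul_le_mul_of_nonneg_right (pow_le_pow_left₀ hr hrQ 2) hM]
  constructor
  · have hcont : Continuous fun u => (∫ x, e (u + √(K - a) * x) ∂gaussianReal 0 1) := by
      refine continuous_iff_continuousAt.2 fun u₀ => ?_
      refine continuousAt_of_dominated (bound := fun x => |u₀| + 1 + |√(K - a)| * |x|)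
        (.of_forall fun u => Continuous.aestronglyMeasurable (by fun_prop)) ?_
        ((integrable_const _).add ((by simpa using integrable_abs_pow 1 : Integrable (fun x : ℝ => |x|) (gaussianReal 0 1)).const_mul _))
        (ae_of_all _ fun x => by fun_prop)
      filter_upwards [Metric.ball_mem_nhds u₀ one_pos] with u hu
      refine ae_of_all _ fun x => ?_
      rw [Metric.mem_ball, Real.dist_eq] at hu
      rw [Real.norm_eq_abs]
      refine (h1 _).trans ((abs_add_le _ _).trans ?_)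
      rw [abs_mul]
      linarith [abs_sub_abs_le_abs_sub u u₀]
    refine key a (fun u => (∫ x, e (u + √(K - a) * x) ∂gaussianReal 0 1) ^ 2) (hcont.pow 2) ha (haK.trans hK) fun u => ?_
    obtain ⟨g1, g2⟩ := shift_mean_sub_le he h1 h2 u (√(K - a))
    rw [sq_sqrt (sub_nonneg.2 haK)] at g1 g2
    set g := ∫ x, e (u + √(K - a) * x) ∂gaussianReal 0 1
    rw [sq_sub_sq, abs_mul, mul_comm]
    have h3 : |g + u| ≤ u ^ 2 + 1 + (Qm + 1) / 2 := by
      refine (abs_add_le _ _).trans ?_
      nlinarith [sq_nonneg (|u| - 1), sq_abs u]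
    refine (mul_le_mul g1 h3 (abs_nonneg _) (div_nonneg (by nlinarith) hL.le)).trans ?_
    rw [div_mul_eq_mul_div]
    gcongr
    nlinarith [sq_nonneg (u ^ 2 - (Qm + 2)), sq_nonneg u]
  · refine key K (fun u => e u ^ 2) (he.pow 2) (ha.trans haK) hK fun u => ?_
    rw [sq_sub_sq, abs_mul, mul_comm]
    refine (mul_le_mul (h2 u) ((abs_add_le _ _).trans (add_le_add_left (h1 u) |u|)) (abs_nonneg _)
      (div_nonneg (sq_nonneg u) hL.le)).trans ?_
    rw [div_mul_eq_mul_div]
    gcongr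
    nlinarith [sq_nonneg (|u| - 1), sq_abs u, sq_nonneg (u ^ 2 - 1)]

/-- Both limits are within `C / L` of the kernel, for a truncation `e` at scale `L`. -/
theorem ker_trunc_bound {Qm : ℝ} (hQm : 0 ≤ Qm) : ∃ C, 0 ≤ C ∧ ∀ (t : ℝ) (k : ℕ) (q : ℕ → ℝ) (Q L : ℝ) (e : ℝ → ℝ) (j : ℕ),
    0 ≤ t → IsKer k q Q → Q ≤ Qm → j ≤ k → 0 < L → Continuous e → (∀ u, |e u| ≤ |u|) →
    (∀ u, |e u - u| ≤ u ^ 2 / L) →
    |∫ y, (∫ x, e (√(kq t k q Q j) * y + √(kQ t k q Q - kq t k q Q j) * x) ∂gaussianReal 0 1) ^ 2 ∂gaussianReal 0 1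
        - kq t k q Q j| ≤ C / L ∧
      |∫ x, e (√(kQ t k q Q) * x) ^ 2 ∂gaussianReal 0 1 - kQ t k q Q| ≤ C / L := by
  obtain ⟨C, hC, h⟩ := trunc_bound hQm
  refine ⟨C, hC, fun t k q Q L e j ht hq hQ hj hL he h1 h2 => ?_⟩
  refine h _ _ L e ?_ (kq_le_kQ ht hq hj) ((kQ_le ht hq).trans hQ) hL he h1 h2
  simpa [kq_zero] using kq_mono ht hq (Nat.zero_le j) hj

end Vale.Agent.P166.Rsb.Energy
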