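import Vale.Agent.P166.Rsb.Energy.Defs
import Vale.Agent.P166.Rsb.Sync.Export

/-!
# P166: the energy on average over small perturbations

`energy_of_point : PointStmt → SyncStmt → EnergyStmt` (module F).  The error of the systems with one
coordinate moved to the last block is small on average, so some small perturbation gives tilted
kernels whose mixture is close to the spin path; the tilts are then moved to those of the law itself.
-/

open MeasureTheory ProbabilityTheory Real Finset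
open Vale.Agent.P157.Rsb (lev lift IsPath)

namespace Vale.Agent.P166.Rsb.Energy

variable {d N k : ℕ} {A : Atoms d} {c : Fin N → Fin (d + 1)} {θ θ' : ℝ}
  {m : Measure (Fin N → Fin N → ℝ)} {β : ℝ} {σ : ℕ → ℝ} {η δ δ' : ℝ}

/-- Moving one coordinate changes the multiplicities by at most one. -/
theorem fits_moved (hF : Fits A c θ) (hθ : θ * N + 1 ≤ θ' * N) (i : Fin N) :
    Fits A (moved c i) θ' := fun e => by
  have h : |((univ.filter fun j => moved c i j = e).card : ℝ)
      - ((univ.filter fun j => c j = e).card : ℝ)| ≤ 1 := by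
    have hoff : ∀ j, j ≠ i → moved c i j = c j := fun j hj => Function.update_of_ne hj _ _
    have h1 : (univ.filter fun j => moved c i j = e).card ≤
        (univ.filter fun j => c j = e).card + 1 := by
      refine (card_le_card ?_).trans (card_insert_le i _)
      intro j hj
      rcases eq_or_ne j i with rfl | hne
      · exact mem_insert_self _ _
      · rw [mem_filter, hoff j hne] at hj
        exact mem_insert_of_mem (mem_filter.2 hj)
    have h2 : (univ.filter fun j => c j = e).card ≤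
        (univ.filter fun j => moved c i j = e).card + 1 := by
      refine (card_le_card ?_).trans (card_insert_le i _)
      intro j hj
      rcases eq_or_ne j i with rfl | hne
      · exact mem_insert_self _ _
      · rw [mem_filter, ← hoff j hne] at hj
        exact mem_insert_of_mem (mem_filter.2 hj)
    have h1' := (Nat.cast_le (α := ℝ)).2 h1
    have h2' := (Nat.cast_le (α := ℝ)).2 h2
    push_cast at h1' h2'
    rw [abs_le]
    constructor <;> linarith
  refine le_trans ?_ hθ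
  calc _ ≤ |((univ.filter fun j => moved c i j = e).card : ℝ)
          - ((univ.filter fun j => c j = e).card : ℝ)|
        + |((univ.filter fun j => c j = e).card : ℝ) - A.w e * N| := abs_sub_le _ _ _
    _ ≤ 1 + θ * N := add_le_add h (hF e)
    _ = _ := add_comm _ _

theorem movedErr_mem (hm : IsHaarOrth m) (hN : 1 ≤ N) (a : Fin (d + 1) → ℝ) (τ : ℕ → ℝ) :
    0 ≤ movedErr m k β a c σ τ ∧ movedErr m k β a c σ τ ≤ 4 := by
  have hN0 : (0 : ℝ) < N := Nat.cast_pos.2 hN
  have h := fun i => Syn.topErr_mem (k := k) β (moved c i) σ hm hN τ a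
  refine ⟨div_nonneg (sum_nonneg fun i _ => (h i).1) hN0.le, ?_⟩
  rw [movedErr, div_le_iff₀ hN0]
  refine (sum_le_card_nsmul _ _ (4 : ℝ) fun i _ => (h i).2).trans ?_
  rw [nsmul_eq_mul, mul_comm]
  have : ((univ.filter fun i => c i ≠ Fin.last d).card : ℝ) ≤ N :=
    Nat.cast_le.2 ((card_le_univ _).trans_eq (Fintype.card_fin N))
  exact mul_le_mul_of_nonneg_left this (by norm_num)

theorem movedErr_pertInt (hm : IsHaarOrth m) (hN : 1 ≤ N) (α : Fin (d + 1) → ℝ) (hδ : 0 < δ)
    (hδ' : 0 < δ') :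
    Syn.PertInt k η δ δ' fun τ h => movedErr m k β (raise α h) c σ τ := by
  have hs : Syn.PertInt k η δ δ' fun τ h =>
      ∑ i ∈ univ.filter (fun i => c i ≠ Fin.last d), topErr m k β (raise α h) (moved c i) σ τ :=
    Syn.PertInt.sum _ fun i _ => Syn.pertInt_topErr β α (moved c i) σ hm hN hδ hδ'
  exact Integrable.div_const hs _

/-- The averaged error of the systems with one coordinate moved. -/
theorem pertAvg_movedErr (hm : IsHaarOrth m) (hN : 1 ≤ N) (α : Fin (d + 1) → ℝ) (hδ : 0 < δ)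
    (hδ' : 0 < δ') {E : ℝ} (hE0 : 0 ≤ E)
    (hE : ∀ i, c i ≠ Fin.last d →
      pertAvg k η δ δ' (fun τ h => topErr m k β (raise α h) (moved c i) σ τ) ≤ E) :
    pertAvg k η δ δ' (fun τ h => movedErr m k β (raise α h) c σ τ) ≤ E := by
  have hN0 : (0 : ℝ) < N := Nat.cast_pos.2 hN
  set S := univ.filter fun i => c i ≠ Fin.last d
  have hi := fun i =>
    Syn.pertInt_topErr (k := k) (η := η) β α (moved c i) σ hm hN hδ hδ'
  rw [Syn.pertAvg_eq hδ hδ' (movedErr_pertInt hm hN α hδ hδ')]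
  simp only [movedErr]
  rw [integral_div, integral_finsetSum S fun i _ => hi i, div_le_iff₀ hN0]
  refine (sum_le_card_nsmul S _ E fun i hiS =>
    (Syn.pertAvg_eq hδ hδ' (hi i)).symm.trans_le (hE i (mem_filter.1 hiS).2)).trans ?_
  rw [nsmul_eq_mul, mul_comm]
  exact mul_le_mul_of_nonneg_left
    (Nat.cast_le.2 ((card_le_univ _).trans_eq (Fintype.card_fin N))) hE0

theorem kq_tilt_zero {q : ℕ → ℝ} (hq : q 0 = 0) {Q : ℝ} {j : ℕ} (hj : j ≤ k) : kq 0 k q Q j = q j := by
  rw [kq, sum_congr rfl (g := fun i => q (i + 1) - q i) fun i hi => ?_, sum_range_sub q, hq, sub_zero]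
  have hik : i < k := (mem_range.1 hi).trans_le hj
  have := (lev_pos' k i).ne'
  simp only [tiltV, zero_mul, add_zero, div_one]
  rw [kv_step (q := q) hik, add_sub_cancel_left, mul_div_cancel_left₀ _ this]

theorem kQ_tilt_zero {q : ℕ → ℝ} (hq : q 0 = 0) (Q : ℝ) : kQ 0 k q Q = Q := by
  rw [kQ, kq_tilt_zero hq le_rfl, kv_top]
  simp [tiltV]

/-- The tilts of the raised law and those of the law differ by at most `β h`. -/
theorem tilt_raise (A : Atoms d) (β h : ℝ) (e : Fin (d + 1)) :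
    tilt β (raise A.a h) e - β * (A.top - A.a e) = β * (h - if e = Fin.last d then h else 0) := by
  simp only [tilt, raise, if_pos, Atoms.top]
  ring

/-- At a perturbation where the tilted kernels are accurate the energy is that of the spin path. -/
theorem exists_energy_close (A : Atoms d) (B : ℝ) :
    ∃ C : ℝ, 0 ≤ C ∧ ∀ (k : ℕ) (β h err : ℝ) (q qS : ℕ → ℝ) (Q E : ℝ), 0 < β → β ≤ B → 0 ≤ h →
      h ≤ 1 → IsKer k q Q (2 / A.w (Fin.last d)) → IsPath k qS →
      |1 - ∑ e, A.w e * kQ (tilt β (raise A.a h) e) k q Q| ≤ err →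
      P157.Rsb.mass k * ∑ j ∈ Icc 1 k,
        |qS j - ∑ e, A.w e * kq (tilt β (raise A.a h) e) k q Q j| ≤ err →
      |E - (∑ e, raise A.a h e * (A.w e * kQ (tilt β (raise A.a h) e) k q Q)) / 2| ≤ err →
      |E - A.eAt β k qS| ≤ C * (err + h) := by
  set B' := max B 1
  have hB : 0 < B' := lt_max_of_lt_right one_pos
  set Qm := 2 / A.w (Fin.last d)
  have hQm : 0 ≤ Qm := div_nonneg (by norm_num) (A.w_pos _).le
  set G := ∑ e, (A.top - A.a e) + 1
  have hG : ∀ e, A.top - A.a e + 1 ≤ G := fun e => by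
    have := single_le_sum (fun f _ => A.gap_nonneg f) (mem_univ e)
    linarith
  have hT : 0 ≤ B' * G := mul_nonneg hB.le (by linarith [hG 0, A.gap_nonneg 0])
  obtain ⟨Cs, hCs, hst⟩ := exists_tilt_stable (B' * G) Qm hT hQm
  obtain ⟨Cc, hCc, hcl⟩ := exists_closing A B' hB
  set Ma := ∑ e, |A.a e|
  have hMa : 0 ≤ Ma := sum_nonneg fun e _ => abs_nonneg _
  refine ⟨1 + Cc + Cc * Cs * B' + Qm + Ma * Cs * B', by positivity,
    fun k β h err q qS Q E hβ hβB hh0 hh1 hker hqS h1 h2 h3 => ?_⟩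
  have hβB' : β ≤ B' := hβB.trans (le_max_left _ _)
  set t : Fin (d + 1) → ℝ := fun e => tilt β (raise A.a h) e with ht
  set t' : Fin (d + 1) → ℝ := fun e => β * (A.top - A.a e) with ht'
  have hdh : ∀ e, 0 ≤ h - (if e = Fin.last d then h else 0) ∧
      h - (if e = Fin.last d then h else 0) ≤ h := fun e => by split_ifs <;> constructor <;> linarith
  have ht'0 : ∀ e, 0 ≤ t' e := fun e => mul_nonneg hβ.le (A.gap_nonneg e)
  have ht0 : ∀ e, 0 ≤ t e ∧ t e ≤ B' * G ∧ |t e - t' e| ≤ B' * h ∧ t' e ≤ B' * G := fun e => by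
    have e1 : t e - t' e = _ := tilt_raise A β h e
    have e2 := mul_nonneg hβ.le (hdh e).1
    have e3 : β * (h - if e = Fin.last d then h else 0) ≤ B' * h :=
      mul_le_mul hβB' (hdh e).2 (hdh e).1 hB.le
    have e4 : t' e ≤ B' * (A.top - A.a e) := mul_le_mul_of_nonneg_right hβB' (A.gap_nonneg e)
    have e5 := mul_le_mul_of_nonneg_left (hG e) hB.le
    have e6 := mul_le_mul_of_nonneg_left hh1 hB.le
    refine ⟨by linarith [ht'0 e], by linarith, ?_, by linarith⟩
    rw [e1, abs_of_nonneg e2]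
    exact e3
  have hs := fun e => hst k (t e) (t' e) q q Q Q 0 (ht0 e).1 (ht0 e).2.1 (ht'0 e) (ht0 e).2.2.2
    hker hker (by simp) (by simp)
  have hCsB : 0 ≤ Cs * (B' * h) := by positivity
  have hd : ∀ e, Cs * (0 + |t e - t' e|) ≤ Cs * (B' * h) := fun e => by
    rw [zero_add]; exact mul_le_mul_of_nonneg_left (ht0 e).2.2.1 hCs
  have hQd : ∀ e, |kQ (t e) k q Q - kQ (t' e) k q Q| ≤ Cs * (B' * h) := fun e =>
    (hs e).1.trans (hd e)
  have hδ1 : |1 - ∑ e, A.w e * kQ (t' e) k q Q| ≤ err + Cs * (B' * h) := by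
    refine (abs_sub_le _ (∑ e, A.w e * kQ (t e) k q Q) _).trans (add_le_add h1 ?_)
    rw [← sum_sub_distrib]
    refine (abs_sum_le_sum_abs _ _).trans ?_
    calc ∑ e, |A.w e * kQ (t e) k q Q - A.w e * kQ (t' e) k q Q|
        ≤ ∑ e, A.w e * (Cs * (B' * h)) := sum_le_sum fun e _ => by
          rw [← mul_sub, abs_mul, abs_of_pos (A.w_pos e)]
          exact mul_le_mul_of_nonneg_left (hQd e) (A.w_pos e).le
      _ = _ := by rw [← sum_mul, A.w_sum, one_mul]
  have hm0 : 0 ≤ P157.Rsb.mass k := P157.Rsb.mass_pos.le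
  have hδ2 : P157.Rsb.mass k * ∑ j ∈ Icc 1 k, |qS j - ∑ e, A.w e * kq (t' e) k q Q j|
      ≤ err + Cs * (B' * h) := by
    calc _ ≤ P157.Rsb.mass k * ∑ j ∈ Icc 1 k, (|qS j - ∑ e, A.w e * kq (t e) k q Q j|
          + ∑ e, A.w e * |kq (t e) k q Q j - kq (t' e) k q Q j|) := by
          refine mul_le_mul_of_nonneg_left (sum_le_sum fun j _ => ?_) hm0
          refine (abs_sub_le _ (∑ e, A.w e * kq (t e) k q Q j) _).trans (add_le_add le_rfl ?_)
          rw [← sum_sub_distrib]
          refine (abs_sum_le_sum_abs _ _).trans (sum_le_sum fun e _ => ?_)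
          rw [← mul_sub, abs_mul, abs_of_pos (A.w_pos e)]
      _ = P157.Rsb.mass k * (∑ j ∈ Icc 1 k, |qS j - ∑ e, A.w e * kq (t e) k q Q j|)
          + ∑ e, A.w e * (P157.Rsb.mass k *
              ∑ j ∈ Icc 1 k, |kq (t e) k q Q j - kq (t' e) k q Q j|) := by
          rw [sum_add_distrib, mul_add, sum_comm]
          simp only [mul_sum]
          exact congrArg _ (sum_congr rfl fun e _ => sum_congr rfl fun j _ => by ring)
      _ ≤ err + ∑ e, A.w e * (Cs * (B' * h)) := add_le_add h2 (sum_le_sum fun e _ =>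
          mul_le_mul_of_nonneg_left ((hs e).2.trans (hd e)) (A.w_pos e).le)
      _ = _ := by rw [← sum_mul, A.w_sum, one_mul]
  have hclose := hcl k β q qS Q Qm (err + Cs * (B' * h)) hβ hβB' hker hqS hδ1 hδ2
  have h4 : |(∑ e, raise A.a h e * (A.w e * kQ (t e) k q Q))
      - ∑ e, A.a e * (A.w e * kQ (t' e) k q Q)| ≤ h * Qm + Ma * (Cs * (B' * h)) := by
    have e0 : ∀ e, raise A.a h e * (A.w e * kQ (t e) k q Q) - A.a e * (A.w e * kQ (t' e) k q Q)
        = (if e = Fin.last d then h * (A.w e * Q) else 0)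
          + A.a e * (A.w e * (kQ (t e) k q Q - kQ (t' e) k q Q)) := fun e => by
      unfold raise
      by_cases he : e = Fin.last d
      · have : t e = 0 := by simp [ht, tilt, he]
        rw [if_pos he, if_pos he, this, kQ_tilt_zero hker.1]
        ring
      · rw [if_neg he, if_neg he]
        ring
    rw [← sum_sub_distrib, sum_congr rfl fun e _ => e0 e, sum_add_distrib, sum_ite_eq' univ (Fin.last d)]
    simp only [mem_univ, if_true]
    have hw1 : ∀ e, A.w e ≤ 1 := fun e =>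
      A.w_sum ▸ single_le_sum (fun f _ => (A.w_pos f).le) (mem_univ e)
    have hQ0 : 0 ≤ Q := (hker.nonneg le_rfl).trans hker.2.2.1
    refine (abs_add_le _ _).trans (add_le_add ?_ ?_)
    · rw [abs_of_nonneg (mul_nonneg hh0 (mul_nonneg (A.w_pos _).le hQ0))]
      exact mul_le_mul_of_nonneg_left
        ((mul_le_of_le_one_left hQ0 (hw1 _)).trans hker.2.2.2) hh0
    · refine (abs_sum_le_sum_abs _ _).trans ?_
      rw [sum_mul]
      refine sum_le_sum fun e _ => ?_
      rw [abs_mul, abs_mul, abs_of_pos (A.w_pos e)]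
      exact mul_le_mul_of_nonneg_left
        ((mul_le_of_le_one_left (abs_nonneg _) (hw1 e)).trans (hQd e)) (abs_nonneg _)
  have herr : 0 ≤ err := (abs_nonneg _).trans h1
  rw [abs_le] at h3 h4 hclose ⊢
  have m1 : 0 ≤ (Cc * Cs * B') * err := by positivity
  have m2 : 0 ≤ (Qm + Ma * Cs * B') * err := by positivity
  have m3 : 0 ≤ (1 + Cc) * h := by positivity
  have m4 : 0 ≤ (Qm + Ma * Cs * B') * h := by positivity
  constructor <;> linarith

/-- Module F, given the pointwise statement. -/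
theorem energy_of_point (hP : PointStmt) (hS : SyncStmt) : EnergyStmt := by
  obtain ⟨C', hC', hsync⟩ := hS
  intro d A β₀ B ε hβ₀ hε
  obtain ⟨Ce, hCe, hclose⟩ := exists_energy_close A B
  set κ := ε / (4 * (1 + Ce)) with hκ
  have hκ0 : 0 < κ := by positivity
  obtain ⟨Cp, hCp, hpoint⟩ := hP d A β₀ B κ hβ₀ hκ0
  obtain ⟨K, hK⟩ := exists_nat_gt (((Cp + 1) * C' / κ) ^ 2)
  refine ⟨max K 1, fun k hk R ρ hρ => ?_⟩
  have hk1 : 1 ≤ k := (le_max_right _ _).trans hk
  have hsk : (Cp + 1) * (C' / √((k : ℝ) + 1)) ≤ κ := by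
    have hKk : (K : ℝ) ≤ k := Nat.cast_le.2 ((le_max_left _ _).trans hk)
    have h1 : (Cp + 1) * C' / κ ≤ √((k : ℝ) + 1) := Real.le_sqrt_of_sq_le (by linarith)
    rw [div_le_iff₀ hκ0] at h1
    rw [← mul_div_assoc, div_le_iff₀ (Real.sqrt_pos.2 (by positivity))]
    linarith
  obtain ⟨ρp, hρp, hρp1, θp, hθp, Np, hpt⟩ := hpoint k hk1
  set r := min (min (ρ / 2) (ρp / 2)) (min (1 / 2) κ) with hr
  have hr0 : 0 < r := by positivity
  obtain ⟨θs, hθs, Ns, hsy⟩ := hsync d A k r r r β₀ (max B R) (κ / (Cp + 1)) hr0 hr0 hr0 hβ₀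
    (by positivity)
  obtain ⟨N₁, hN₁⟩ := exists_nat_gt (2 / θs)
  refine ⟨min θp (θs / 2), by positivity, max (max Np Ns) (max N₁ 1),
    fun N hN c hF m hm β hβ hβB σ hσ => ?_⟩
  simp only [max_le_iff] at hN
  have hN1 : 1 ≤ N := hN.2.2
  have hNR : (0 : ℝ) < N := Nat.cast_pos.2 hN1
  have hFp : Fits A c θp := fun e =>
    (hF e).trans (mul_le_mul_of_nonneg_right (min_le_left _ _) hNR.le)
  have hFs : ∀ i, Fits A (moved c i) θs := fun i => by
    refine fits_moved hF ?_ i
    have h1 : (2 : ℝ) / θs ≤ N := hN₁.le.trans (Nat.cast_le.2 hN.2.1)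
    rw [div_le_iff₀ hθs] at h1
    linarith [mul_le_mul_of_nonneg_right (min_le_right θp (θs / 2)) hNR.le]
  set E := C' / √((k : ℝ) + 1) + κ / (Cp + 1) with hE
  have hE0 : 0 ≤ E := by positivity
  have havg := pertAvg_movedErr (k := k) (η := r) (β := β) (σ := σ) (c := c) hm hN1 A.a hr0 hr0 hE0
    fun i _ => hsy N hN.1.2 (moved c i) (hFs i) m hm β hβ (hβB.trans (le_max_left _ _)) σ
      fun l => (hσ l).trans (le_max_right _ _)
  obtain ⟨y, h, hh0, hhr, hy, hle⟩ :=
    Syn.exists_le_pertAvg hr0 hr0 (movedErr_pertInt (k := k) (η := r) (β := β) (σ := σ) (c := c)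
      hm hN1 A.a hr0 hr0)
  have h2r : 2 * r ≤ ρ ∧ 2 * r ≤ ρp ∧ 2 * r ≤ 1 ∧ r ≤ κ := by
    have := min_le_left (min (ρ / 2) (ρp / 2)) (min (1 / 2) κ)
    have := min_le_right (min (ρ / 2) (ρp / 2)) (min (1 / 2) κ)
    have := min_le_left (ρ / 2) (ρp / 2)
    have := min_le_right (ρ / 2) (ρp / 2)
    have := min_le_left (1 / 2 : ℝ) κ
    have := min_le_right (1 / 2 : ℝ) κ
    refine ⟨?_, ?_, ?_, ?_⟩ <;> linarith
  have hτ : ∀ l, |lift y l| ≤ 2 * r := fun l => by
    unfold P157.Rsb.lift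
    split_ifs with hl
    · exact abs_le.2 ⟨by linarith [(hy ⟨l - 1, by omega⟩).1], by linarith [(hy ⟨l - 1, by omega⟩).2]⟩
    · simp [hr0.le]
  refine ⟨lift y, h, fun l => (hτ l).trans h2r.1, hh0, by linarith, ?_⟩
  obtain ⟨hker, h1, h2, h3⟩ := hpt N hN.1.1 c hFp m hm β hβ hβB h hh0 (by linarith) σ (lift y)
    fun l => (hτ l).trans h2r.2.1
  refine (hclose k β h (κ + Cp * movedErr m k β (raise A.a h) c σ (lift y)) _ _ _ _
    (hβ₀.trans_le hβ) hβB hh0 (by linarith) hker
    (isPath_qSpin (k := k) β (raise A.a h) c hm hN1 σ (lift y)) h1 h2 h3).trans ?_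
  have hbound : Cp * movedErr m k β (raise A.a h) c σ (lift y) ≤ 2 * κ := by
    refine (mul_le_mul_of_nonneg_left (hle.trans havg) hCp).trans ?_
    have h4 : Cp * (κ / (Cp + 1)) ≤ κ := by
      rw [← mul_div_assoc, div_le_iff₀ (by positivity)]; linarith
    have h5 : 0 ≤ C' / √((k : ℝ) + 1) := by positivity
    rw [hE, mul_add]
    linarith
  calc Ce * (κ + Cp * movedErr m k β (raise A.a h) c σ (lift y) + h)
      ≤ Ce * (4 * κ) := mul_le_mul_of_nonneg_left (by linarith [h2r.2.2.2]) hCe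
    _ ≤ (1 + Ce) * (4 * κ) := mul_le_mul_of_nonneg_right (by linarith) (by positivity)
    _ = ε := by rw [hκ]; field_simp

end Vale.Agent.P166.Rsb.Energy
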