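import Vale.Agent.P157.Rsb.Upd

/-!
# P166: adding a bounded potential to a nested recursion

The change of the value is computed level by level in the measure of the system without the potential;
below a level with parameter `p` all parameters may be replaced by `p`, and above it the power `p` of
the partition function is subadditive. This bounds the effect of cutting a potential off far out,
uniformly in the number of levels.
-/

open MeasureTheory ProbabilityTheory Real Finset
open Vale.Agent.P157.Rsb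

namespace Vale.Agent.P166.Rsb.Energy

variable {k : ℕ} {Z X : Type} [MeasurableSpace Z] [MeasurableSpace X]
  {γ : Measure Z} {μ : Measure X} {w : Size γ} [IsProbabilityMeasure γ]
  [IsFiniteMeasure μ] [NeZero μ]
  {H : (Fin k → Z) → X → ℝ}

variable (γ μ) in
/-- The change of the value at level `j`. -/
noncomputable def dVal (H g : (Fin k → Z) → X → ℝ) (j : ℕ) (z : Fin k → Z) : ℝ :=
  val γ μ (fun z x => H z x + g z x) j z - val γ μ H j z

/-- A bounded measurable potential. -/
def BPot (g : (Fin k → Z) → X → ℝ) : Prop :=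
  Measurable (Function.uncurry g) ∧ ∃ L, ∀ z x, |g z x| ≤ L

variable {g : (Fin k → Z) → X → ℝ}

theorem linB_pot (hH : LinB w H) (hg : BPot g) : LinB w fun z x => H z x + g z x := by
  obtain ⟨L, hL⟩ := hg.2
  exact linB_add_bdd hH hg.1 hL

omit [IsProbabilityMeasure γ] [IsFiniteMeasure μ] [NeZero μ] in
theorem dVal_upto (j : ℕ) : Upto j (dVal γ μ H g j) := fun z z' h => by
  simp only [dVal, val_upto j z z' h]

theorem dVal_bdd (hH : LinB w H) (hg : BPot g) : ∃ L, ∀ j z, |dVal γ μ H g j z| ≤ L := by
  obtain ⟨L, hL⟩ := hg.2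
  exact ⟨L, fun j z => val_close (γ := γ) (μ := μ) hH (linB_pot hH hg)
    (fun z x => by simpa using hL z x) j z⟩

theorem tame_dVal (hH : LinB w H) (hg : BPot g) (j : ℕ) :
    Tame w fun z (_ : X) => dVal γ μ H g j z := by
  obtain ⟨L, hL⟩ := dVal_bdd (γ := γ) (μ := μ) hH hg
  exact Tame.of_bdd (((val_regular (γ := γ) (μ := μ) (linB_pot hH hg) j).1.sub
    (val_regular (γ := γ) (μ := μ) hH j).1).comp measurable_fst) fun z _ => hL j z

theorem tame_exp_dVal (hH : LinB w H) (hg : BPot g) (c : ℝ) (j : ℕ) :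
    Tame w fun z (_ : X) => exp (c * dVal γ μ H g j z) := by
  obtain ⟨L, hL⟩ := dVal_bdd (γ := γ) (μ := μ) hH hg
  refine Tame.of_bdd ((tame_dVal hH hg j).meas.const_mul c).exp (B := exp (|c| * L)) fun z _ => ?_
  rw [abs_of_pos (exp_pos _), exp_le_exp]
  refine (le_abs_self _).trans ?_
  rw [abs_mul]
  exact mul_le_mul_of_nonneg_left (hL j z) (abs_nonneg _)

omit [IsProbabilityMeasure γ] [IsFiniteMeasure μ] [NeZero μ] in
theorem tame_exp_pot (hg : BPot g) (c : ℝ) : Tame w fun z x => exp (c * g z x) := by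
  obtain ⟨L, hL⟩ := hg.2
  refine Tame.of_bdd (hg.1.const_mul c).exp (B := exp (|c| * L)) fun z x => ?_
  rw [abs_of_pos (exp_pos _), exp_le_exp]
  refine (le_abs_self _).trans ?_
  rw [abs_mul]
  exact mul_le_mul_of_nonneg_left (hL z x) (abs_nonneg _)

/-- The change at the leaf. -/
theorem exp_dVal_top (hH : LinB w H) (hg : BPot g) {j : ℕ} (hj : k ≤ j) (z : Fin k → Z) :
    exp (dVal γ μ H g j z) = cnd γ μ H (fun z x => exp (g z x)) j z := by
  have h1 := integral_exp_pos (integrable_exp_leaf (μ := μ) hH z)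
  have h2 := integral_exp_pos (integrable_exp_leaf (μ := μ) (linB_pot hH hg) z)
  rw [dVal, val_of_le hj, val_of_le hj, val_top, val_top, cnd_of_le hj, cnd_top, exp_sub, exp_log h1,
    exp_log h2]
  simp only [exp_add, mul_comm]

/-- The change one level down. -/
theorem exp_dVal_step (hH : LinB w H) (hg : BPot g) {j : ℕ} (hj : 1 ≤ j) (hjk : j ≤ k)
    (z : Fin k → Z) :
    exp (lev k j * dVal γ μ H g (j - 1) z)
      = cnd γ μ H (fun z _ => exp (lev k j * dVal γ μ H g j z)) (j - 1) z := by
  have hm : 0 < lev k j := lev_pos hj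
  obtain ⟨hu, hp⟩ := integrable_val_step (γ := γ) (μ := μ) hH (j := j) z (j - 1)
  obtain ⟨hv, hq⟩ := integrable_val_step (γ := γ) (μ := μ) (linB_pot hH hg) (j := j) z (j - 1)
  have hc : ∀ z', cnd γ μ H (fun z _ => exp (lev k j * dVal γ μ H g j z)) j z'
      = exp (lev k j * dVal γ μ H g j z') := fun z' =>
    cnd_const_fun hH (fun a b h => by simp only [dVal_upto (γ := γ) (μ := μ) (H := H) (g := g) j a b h]) z'
  rw [dVal, mul_sub, val_step hj hjk, val_step hj hjk, mul_div_cancel₀ _ hm.ne',
    mul_div_cancel₀ _ hm.ne', exp_sub, exp_log hp, exp_log hq, cnd_step hj hjk]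
  simp only [hc]
  simp only [dVal, mul_sub, exp_sub]
  congr 1
  refine integral_congr_ae (ae_of_all _ fun y => ?_)
  simp only [div_mul_cancel₀ _ (exp_pos _).ne']

/-- The change of the value is at least the mean change at a higher level. -/
theorem cnd_dVal_le (hH : LinB w H) (hg : BPot g) {j : ℕ} (hjk : j ≤ k) {i : ℕ} (hij : i ≤ j)
    (z : Fin k → Z) :
    cnd γ μ H (fun z _ => dVal γ μ H g j z) i z ≤ dVal γ μ H g i z := by
  obtain ⟨d, rfl⟩ : ∃ d, i = j - d := ⟨j - i, by omega⟩
  clear hij
  induction d generalizing z with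
  | zero => exact (cnd_const_fun hH (dVal_upto j) z).le
  | succ d ih =>
    rcases Nat.eq_zero_or_pos (j - d) with h0 | h0
    · rw [show j - (d + 1) = j - d by omega]; exact ih z
    · set l := j - d with hl
      rw [show j - (d + 1) = l - 1 by omega]
      set m := lev k l
      have hm : 0 < m := lev_pos h0
      have hlk : l ≤ k := by omega
      rw [← cnd_tower (γ := γ) (μ := μ) (φ := fun z (_ : X) => dVal γ μ H g j z) hH (show l - 1 ≤ l by omega) z]
      refine (cnd_mono hH (cnd_tame hH (tame_dVal hH hg j) l) (tame_dVal hH hg l)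
        (fun z _ => ih z) (l - 1) z).trans ?_
      set c := cnd γ μ H (fun z _ => dVal γ μ H g l z) (l - 1) z with hc
      have h := exp_dVal_step (γ := γ) (μ := μ) hH hg h0 hlk z
      have h2 : exp (m * c) ≤ cnd γ μ H (fun z _ => exp (m * dVal γ μ H g l z)) (l - 1) z := by
        have t1 : Tame w fun (_ : Fin k → Z) (_ : X) => exp (m * c) * (1 - m * c) :=
          Tame.of_bdd measurable_const (B := |exp (m * c) * (1 - m * c)|) fun _ _ => le_rfl
        refine le_of_eq_of_le ?_ (cnd_mono hH (t1.add (((tame_dVal (γ := γ) (μ := μ) hH hg l).const_mul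
          (exp (m * c) * m)))) (tame_exp_dVal hH hg m l) (fun z _ => ?_) (l - 1) z)
        · rw [cnd_add hH t1 ((tame_dVal hH hg l).const_mul _), cnd_const hH, cnd_const_mul, ← hc]
          ring
        · calc exp (m * c) * (1 - m * c) + exp (m * c) * m * dVal γ μ H g l z
              = exp (m * c) * (m * dVal γ μ H g l z - m * c + 1) := by ring
            _ ≤ exp (m * c) * exp (m * dVal γ μ H g l z - m * c) :=
                mul_le_mul_of_nonneg_left (add_one_le_exp _) (exp_pos _).le
            _ = _ := by rw [← exp_add]; ring_nf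
      rw [← h, exp_le_exp] at h2
      exact le_of_mul_le_mul_left h2 hm

/-- Below level `j` the parameters may be raised to `p`. -/
theorem exp_dVal_le (hH : LinB w H) (hg : BPot g) {p : ℝ} {j : ℕ} (hjk : j ≤ k)
    (hlev : lev k j ≤ p) {i : ℕ} (hij : i ≤ j) (z : Fin k → Z) :
    exp (p * dVal γ μ H g i z) ≤ cnd γ μ H (fun z _ => exp (p * dVal γ μ H g j z)) i z := by
  obtain ⟨d, rfl⟩ : ∃ d, i = j - d := ⟨j - i, by omega⟩
  clear hij
  induction d generalizing z with
  | zero =>
    simp only [Nat.sub_zero]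
    refine (cnd_const_fun (γ := γ) (μ := μ) (c := fun z => exp (p * dVal γ μ H g j z)) hH
      (fun a b h => ?_) z).ge
    simp only [dVal_upto (γ := γ) (μ := μ) (H := H) (g := g) j a b h]
  | succ d ih =>
    rcases Nat.eq_zero_or_pos (j - d) with h0 | h0
    · rw [show j - (d + 1) = j - d by omega]; exact ih z
    · set l := j - d with hl
      rw [show j - (d + 1) = l - 1 by omega]
      set m := lev k l
      have hm : 0 < m := lev_pos h0
      have hlk : l ≤ k := by omega
      have hmp : m ≤ p := (lev_mono (by omega)).trans hlev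
      have hp : 0 < p := hm.trans_le hmp
      rw [← cnd_tower (γ := γ) (μ := μ) (φ := fun z (_ : X) => exp (p * dVal γ μ H g j z)) hH (show l - 1 ≤ l by omega) z]
      refine le_trans ?_ (cnd_mono hH (tame_exp_dVal hH hg p l) (cnd_tame hH (tame_exp_dVal hH hg p j) l)
        (fun z _ => ih z) (l - 1) z)
      set c := dVal γ μ H g (l - 1) z with hc
      have h := exp_dVal_step (γ := γ) (μ := μ) hH hg h0 hlk z
      rw [← hc] at h
      -- convexity of the exponential between exponents `0` and `p`
      have h2 : ∀ y, exp (m * y) ≤ exp (m * c) * ((1 - m / p) + m / p * exp (-(p * c)) * exp (p * y)) := by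
        intro y
        have hc' := convexOn_exp.2 (Set.mem_univ (0 : ℝ)) (Set.mem_univ (p * (y - c)))
          (show 0 ≤ 1 - m / p from sub_nonneg.2 ((div_le_one hp).2 hmp)) (by positivity)
          (sub_add_cancel _ _)
        simp only [smul_eq_mul, mul_zero, zero_add, exp_zero, mul_one] at hc'
        rw [show exp (m * y) = exp (m * c) * exp (m / p * (p * (y - c))) by
          rw [← exp_add]; congr 1; field_simp; ring]
        refine mul_le_mul_of_nonneg_left (hc'.trans (le_of_eq ?_)) (exp_pos _).le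
        rw [mul_sub p y c, sub_eq_add_neg (p * y), exp_add]; ring
      have te : Tame w fun z (_ : X) => m / p * exp (-(p * c)) * exp (p * dVal γ μ H g l z) :=
        (tame_exp_dVal hH hg p l).const_mul _
      have t1 : Tame w fun (_ : Fin k → Z) (_ : X) => 1 - m / p :=
        Tame.of_bdd measurable_const (B := |1 - m / p|) fun _ _ => le_rfl
      have h3 := cnd_mono (γ := γ) (μ := μ) hH (tame_exp_dVal hH hg m l)
        ((t1.add te).const_mul (exp (m * c))) (fun z _ => h2 _) (l - 1) z
      rw [← h, cnd_const_mul, cnd_add hH t1 te, cnd_const hH, cnd_const_mul] at h3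
      have h4 : 1 ≤ exp (-(p * c)) * cnd γ μ H (fun z _ => exp (p * dVal γ μ H g l z)) (l - 1) z := by
        have h5 := le_of_le_of_eq h3 rfl
        set E := cnd γ μ H (fun z _ => exp (p * dVal γ μ H g l z)) (l - 1) z
        have h6 : 1 ≤ (1 - m / p) + m / p * exp (-(p * c)) * E :=
          le_of_mul_le_mul_left ((mul_one _).trans_le h5) (exp_pos _)
        have : 0 < m / p := by positivity
        nlinarith
      rw [exp_neg, inv_mul_eq_div, le_div_iff₀ (exp_pos _), one_mul] at h4
      exact h4

/-- Above level `j` the power `p` of the partition function is subadditive. -/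
theorem exp_val_split (hH : LinB w H) {g1 : (Fin k → Z) → X → ℝ} (hg : BPot g) (hg1 : BPot g1)
    {M : ℝ} (hM : ∀ z x, exp (g1 z x) ≤ exp (g z x) + exp (-M)) {p : ℝ} (hp0 : 0 < p) (hp1 : p ≤ 1)
    {j : ℕ} (hlev : ∀ l, j < l → p ≤ lev k l) {i : ℕ} (hji : j ≤ i) (z : Fin k → Z) :
    exp (p * val γ μ (fun z x => H z x + g1 z x) i z)
      ≤ exp (p * val γ μ (fun z x => H z x + g z x) i z) + exp (-(p * M)) * exp (p * val γ μ H i z) := by
  have hL := linB_pot hH hg
  have hL1 := linB_pot hH hg1
  induction i using levels_induction (k := k) generalizing z with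
  | htop i hi =>
    have i0 := integrable_exp_leaf (μ := μ) hH z
    have i1 := integrable_exp_leaf (μ := μ) hL z
    have i2 := integrable_exp_leaf (μ := μ) hL1 z
    simp only [val_of_le hi, val_top]
    rw [mul_comm p (log _), mul_comm p (log _), mul_comm p (log _), ← rpow_def_of_pos (integral_exp_pos i0),
      ← rpow_def_of_pos (integral_exp_pos i1), ← rpow_def_of_pos (integral_exp_pos i2),
      show exp (-(p * M)) = exp (-M) ^ p by rw [← exp_mul]; ring_nf,
      ← mul_rpow (exp_pos _).le (integral_exp_pos i0).le]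
    refine le_trans (rpow_le_rpow (integral_exp_pos i2).le ?_ hp0.le)
      (rpow_add_le_add_rpow (integral_exp_pos i1).le
        (mul_nonneg (exp_pos _).le (integral_exp_pos i0).le) hp0.le hp1)
    rw [← integral_const_mul, ← integral_add i1 (i0.const_mul _)]
    refine integral_mono i2 (i1.add (i0.const_mul _)) fun x => ?_
    simp only [exp_add]
    nlinarith [hM z x, exp_pos (H z x)]
  | hstep i hi hik ih =>
    set m := lev k i with hm
    have hpm : p ≤ m := hlev i (by omega)
    have hm0 : 0 < m := hp0.trans_le hpm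
    set r := m / p with hr
    have hr1 : 1 ≤ r := (one_le_div hp0).2 hpm
    obtain ⟨u0, q0⟩ := integrable_val_step (γ := γ) (μ := μ) hH (j := i) z (i - 1)
    obtain ⟨u1, q1⟩ := integrable_val_step (γ := γ) (μ := μ) hL (j := i) z (i - 1)
    obtain ⟨u2, q2⟩ := integrable_val_step (γ := γ) (μ := μ) hL1 (j := i) z (i - 1)
    rw [← hm] at u0 q0 u1 q1 u2 q2
    have epow : ∀ x : ℝ, exp (p * x) ^ r = exp (m * x) := fun x => by
      rw [← exp_mul]; congr 1; rw [hr]; field_simp
    set A := exp (p * val γ μ (fun z x => H z x + g z x) (i - 1) z) with hA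
    set B := exp (-(p * M)) * exp (p * val γ μ H (i - 1) z) with hB
    have hA0 : 0 < A := exp_pos _
    have hB0 : 0 < B := by positivity
    have eA : A ^ r = ∫ y, exp (m * val γ μ (fun z x => H z x + g z x) i (put z (i - 1) y)) ∂γ := by
      rw [hA, epow, val_step hi hik, ← hm, mul_div_cancel₀ _ hm0.ne', exp_log q1]
    have eB : B ^ r = exp (-(p * M)) ^ r * ∫ y, exp (m * val γ μ H i (put z (i - 1) y)) ∂γ := by
      rw [hB, mul_rpow (exp_pos _).le (exp_pos _).le, epow (val γ μ H (i - 1) z), val_step hi hik, ← hm,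
        mul_div_cancel₀ _ hm0.ne', exp_log q0]
    rw [← rpow_le_rpow_iff (exp_pos _).le (add_pos hA0 hB0).le (by positivity : 0 < r), epow,
      val_step hi hik, ← hm, mul_div_cancel₀ _ hm0.ne', exp_log q2]
    have key : ∀ y, exp (m * val γ μ (fun z x => H z x + g1 z x) i (put z (i - 1) y))
        ≤ (A + B) ^ r * (A / (A + B) / A ^ r)
            * exp (m * val γ μ (fun z x => H z x + g z x) i (put z (i - 1) y))
          + (A + B) ^ r * (B / (A + B) / B ^ r) * exp (-(p * M)) ^ r
            * exp (m * val γ μ H i (put z (i - 1) y)) := by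
      intro y
      set a := exp (p * val γ μ (fun z x => H z x + g z x) i (put z (i - 1) y))
      set b := exp (-(p * M)) * exp (p * val γ μ H i (put z (i - 1) y)) with hb
      have ha0 : 0 < a := exp_pos _
      have hb0 : 0 < b := by positivity
      rw [← epow, ← epow (val γ μ (fun z x => H z x + g z x) i (put z (i - 1) y)),
        mul_assoc _ (exp (-(p * M)) ^ r), ← epow (val γ μ H i (put z (i - 1) y)),
        ← mul_rpow (exp_pos _).le (exp_pos _).le, ← hb]
      refine (rpow_le_rpow (exp_pos _).le (ih (by omega) (put z (i - 1) y)) (by positivity)).trans ?_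
      have hcv := (convexOn_rpow hr1).2 (Set.mem_Ici.2 (div_pos ha0 hA0).le)
        (Set.mem_Ici.2 (div_pos hb0 hB0).le) (div_pos hA0 (add_pos hA0 hB0)).le
        (div_pos hB0 (add_pos hA0 hB0)).le (by field_simp)
      simp only [smul_eq_mul] at hcv
      rw [show A / (A + B) * (a / A) + B / (A + B) * (b / B) = (a + b) / (A + B) by field_simp,
        div_rpow (by positivity) (by positivity), div_le_iff₀ (by positivity),
        div_rpow ha0.le hA0.le, div_rpow hb0.le hB0.le] at hcv
      exact hcv.trans (le_of_eq (by ring))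
    refine (integral_mono u2 ((u1.const_mul _).add (u0.const_mul _)) key).trans (le_of_eq ?_)
    rw [integral_add' (u1.const_mul _) (u0.const_mul _), integral_const_mul, integral_const_mul, ← eA,
      mul_assoc _ (exp (-(p * M)) ^ r), ← eB]
    field_simp

/-- Cutting a potential off far out changes the value little, uniformly in the number of levels. -/
theorem val_gap (hH : LinB w H) {g1 : (Fin k → Z) → X → ℝ} (hg : BPot g) (hg1 : BPot g1)
    (h01 : ∀ z x, g z x ≤ g1 z x) (h1 : ∀ z x, g1 z x ≤ 0)
    {M : ℝ} (hM : ∀ z x, exp (g1 z x) ≤ exp (g z x) + exp (-M))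
    {p X0 : ℝ} (hp0 : 0 < p) (hp1 : p ≤ 1) (hX0 : 0 < X0) (z : Fin k → Z) :
    val γ μ (fun z x => H z x + g1 z x) 0 z - val γ μ (fun z x => H z x + g z x) 0 z
      ≤ exp (p * (X0 - M)) / p + (1 / X0 + p) * cnd γ μ H (fun z x => g z x ^ 2) 0 z := by
  classical
  set j := Nat.findGreatest (fun l => lev k l ≤ p) k with hj
  have hjk : j ≤ k := Nat.findGreatest_le k
  have hlo : lev k j ≤ p :=
    Nat.findGreatest_spec (P := fun l => lev k l ≤ p) (Nat.zero_le k) (by simp [lev, hp0.le])
  have hhi : ∀ l, j < l → p ≤ lev k l := fun l hl => by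
    rcases le_or_gt l k with h | h
    · exact (not_le.1 (Nat.findGreatest_is_greatest (P := fun l => lev k l ≤ p) hl h)).le
    · exact hp1.trans (lev_top.symm.le.trans (lev_mono h))
  obtain ⟨L, hL⟩ := hg.2
  have tg : Tame w fun z x => g z x := Tame.of_bdd hg.1 hL
  have tg2 : Tame w fun z x => g z x ^ 2 := (tg.mul tg).congr fun z x => (pow_two _).symm
  have tX : Tame w fun z x => -g z x := tg.neg
  set Xj : (Fin k → Z) → ℝ := fun z => cnd γ μ H (fun z x => -g z x) j z with hXj
  have tXj : Tame w fun z (_ : X) => Xj z := cnd_tame hH tX j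
  have tXj2 : Tame w fun z (_ : X) => Xj z ^ 2 := (tXj.mul tXj).congr fun _ _ => (pow_two _).symm
  have hX0' : ∀ z, 0 ≤ Xj z := fun z => cnd_nonneg (fun z x => neg_nonneg.2 ((h01 z x).trans (h1 z x))) j z
  have hlow : ∀ {g' : (Fin k → Z) → X → ℝ}, BPot g' → (∀ z x, g z x ≤ g' z x) →
      ∀ z, -Xj z ≤ dVal γ μ H g' j z := fun {g'} hg' hle z => by
    obtain ⟨L', hL'⟩ := hg'.2
    have h := cnd_exp_le (γ := γ) (μ := μ) hH (linB_pot hH hg') j z
    simp only [add_sub_cancel_left] at h
    have h2 := cnd_mono (γ := γ) (μ := μ) hH tg (Tame.of_bdd hg'.1 hL') hle j z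
    have h3 : -Xj z = cnd γ μ H g j z := by
      simp only [hXj, show (fun z x => -g z x) = fun z x => (-1) * g z x from funext₂ fun _ _ => by ring,
        cnd_const_mul]
      ring
    show -Xj z ≤ val γ μ (fun z x => H z x + g' z x) j z - val γ μ H j z
    linarith
  have hnonpos : ∀ z, dVal γ μ H g1 j z ≤ 0 := fun z => by
    obtain ⟨L', hL'⟩ := hg1.2
    have h := cnd_exp_le (γ := γ) (μ := μ) (linB_pot hH hg1) hH j z
    simp only [sub_add_cancel_left] at h
    have h2 := cnd_nonneg (γ := γ) (μ := μ) (H := fun z x => H z x + g1 z x)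
      (φ := fun z x => -g1 z x) (fun z x => neg_nonneg.2 (h1 z x)) j z
    show val γ μ (fun z x => H z x + g1 z x) j z - val γ μ H j z ≤ 0
    linarith
  -- the lower levels
  have e1 : dVal γ μ H g1 0 z ≤ cnd γ μ H (fun z _ => dVal γ μ H g1 j z) 0 z
      + p / 2 * cnd γ μ H (fun z _ => Xj z ^ 2) 0 z := by
    have h := exp_dVal_le (γ := γ) (μ := μ) hH hg1 (p := p) hjk hlo (Nat.zero_le j) z
    have td := tame_dVal (γ := γ) (μ := μ) hH hg1 j
    have hb : ∀ y ≤ (0 : ℝ), exp y ≤ 1 + y + y ^ 2 / 2 := fun y hy => by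
      have h := quadratic_le_exp_of_nonneg (neg_nonneg.2 hy)
      have hq : 1 ≤ (1 + y + y ^ 2 / 2) * (1 + -y + (-y) ^ 2 / 2) := by nlinarith [sq_nonneg (y ^ 2)]
      have hpos : 0 < 1 + y + y ^ 2 / 2 := by nlinarith [sq_nonneg (y + 1)]
      rw [show y = -(-y) by ring, exp_neg]
      refine (inv_le_iff_one_le_mul₀ (exp_pos _)).2 ?_
      rw [neg_neg]
      exact hq.trans (mul_le_mul_of_nonneg_left h hpos.le)
    have h2 : cnd γ μ H (fun z _ => exp (p * dVal γ μ H g1 j z)) 0 z ≤
        1 + p * (cnd γ μ H (fun z _ => dVal γ μ H g1 j z) 0 z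
          + p / 2 * cnd γ μ H (fun z _ => Xj z ^ 2) 0 z) := by
      have t1 : Tame w fun (_ : Fin k → Z) (_ : X) => (1 : ℝ) :=
        Tame.of_bdd measurable_const (B := 1) fun _ _ => by simp
      refine (cnd_mono hH (tame_exp_dVal hH hg1 p j) (t1.add ((td.add (tXj2.const_mul (p / 2))).const_mul p))
        (fun z _ => ?_) 0 z).trans (le_of_eq ?_)
      · refine (hb _ (mul_nonpos_of_nonneg_of_nonpos hp0.le (hnonpos z))).trans ?_
        have h3 : dVal γ μ H g1 j z ^ 2 ≤ Xj z ^ 2 :=
          sq_le_sq' (hlow hg1 h01 z) ((hnonpos z).trans (hX0' z))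
        nlinarith [mul_le_mul_of_nonneg_left h3 (by positivity : 0 ≤ p * (p / 2))]
      · rw [cnd_add hH t1
          ((td.add (tXj2.const_mul (p / 2))).const_mul p), cnd_const hH, cnd_const_mul,
          cnd_add hH td (tXj2.const_mul (p / 2)), cnd_const_mul]
    refine le_of_mul_le_mul_left (exp_le_exp.1 ((h.trans h2).trans ?_)) hp0
    rw [add_comm]
    exact add_one_le_exp _
  have e0 := cnd_dVal_le (γ := γ) (μ := μ) hH hg hjk (Nat.zero_le j) z
  -- the upper levels
  set E := exp (p * (X0 - M)) / p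
  have e2 : cnd γ μ H (fun z _ => dVal γ μ H g1 j z - dVal γ μ H g j z) 0 z
      ≤ E + 1 / X0 * cnd γ μ H (fun z _ => Xj z ^ 2) 0 z := by
    have tE : Tame w fun (_ : Fin k → Z) (_ : X) => E :=
      Tame.of_bdd measurable_const (B := |E|) fun _ _ => le_rfl
    refine (cnd_mono hH ((tame_dVal hH hg1 j).sub (tame_dVal hH hg j))
      (tE.add (tXj2.const_mul (1 / X0))) (fun z _ => ?_) 0 z).trans
      (le_of_eq (by rw [cnd_add hH tE (tXj2.const_mul _), cnd_const hH, cnd_const_mul]))
    set D1 := dVal γ μ H g1 j z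
    set D0 := dVal γ μ H g j z
    set V := val γ μ H j z
    set x := Xj z
    have hs := exp_val_split (γ := γ) (μ := μ) hH hg hg1 hM hp0 hp1 hhi le_rfl z
    have hs1 : exp (p * D1) ≤ exp (p * D0) * (1 + exp (p * (x - M))) := by
      have e : ∀ y, exp (p * y) = exp (p * (y - V)) * exp (p * V) := fun y => by
        rw [← exp_add]; ring_nf
      rw [e, e (val γ μ (fun z x => H z x + g z x) j z), ← add_mul,
        mul_le_mul_iff_left₀ (exp_pos _)] at hs
      refine hs.trans ?_
      rw [mul_add, mul_one, ← exp_add]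
      refine add_le_add le_rfl (exp_le_exp.2 ?_)
      nlinarith [hlow hg (fun _ _ => le_rfl) z, hp0.le]
    have hs2 : p * (D1 - D0) ≤ log (1 + exp (p * (x - M))) := by
      rw [le_log_iff_exp_le (by positivity), mul_sub, exp_sub, div_le_iff₀ (exp_pos _)]
      linarith
    refine le_of_mul_le_mul_left ?_ hp0
    refine hs2.trans ?_
    have hE : p * E = exp (p * (X0 - M)) := by simp only [E]; field_simp
    rw [mul_add, hE]
    have hlog : log (1 + exp (p * (X0 - M))) ≤ exp (p * (X0 - M)) := by
      have := log_le_sub_one_of_pos (add_pos zero_lt_one (exp_pos (p * (X0 - M))))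
      linarith
    rcases le_or_gt x X0 with hx | hx
    · have h5 : 0 ≤ p * (1 / X0 * x ^ 2) := by positivity
      have h6 : log (1 + exp (p * (x - M))) ≤ log (1 + exp (p * (X0 - M))) :=
        log_le_log (by positivity) (by
          have := exp_le_exp.2 (mul_le_mul_of_nonneg_left (sub_le_sub_right hx M) hp0.le)
          linarith)
      linarith
    · have h5 : x ≤ 1 / X0 * x ^ 2 := by
        rw [one_div_mul_eq_div, le_div_iff₀ hX0]; nlinarith
      have h7 : log (1 + exp (p * (x - M))) ≤ log (exp (p * (x - X0)) * (1 + exp (p * (X0 - M)))) := by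
        refine log_le_log (by positivity) ?_
        rw [mul_add, mul_one, ← exp_add]
        refine add_le_add (one_le_exp (mul_nonneg hp0.le (by linarith))) (le_of_eq ?_)
        ring_nf
      rw [log_mul (exp_pos _).ne' (by positivity), log_exp] at h7
      nlinarith [mul_le_mul_of_nonneg_left h5 hp0.le, mul_pos hp0 hX0]
  have e3 : cnd γ μ H (fun z _ => Xj z ^ 2) 0 z ≤ cnd γ μ H (fun z x => g z x ^ 2) 0 z := by
    rw [← cnd_tower (φ := fun z x => g z x ^ 2) hH (Nat.zero_le j) z]
    refine cnd_mono hH tXj2 (cnd_tame hH tg2 j) (fun z _ => ?_) 0 z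
    have := cnd_sq_le (γ := γ) (μ := μ) hH tX j z
    simpa [hXj] using this
  rw [cnd_sub hH (tame_dVal hH hg1 j) (tame_dVal hH hg j)] at e2
  have e4 : val γ μ (fun z x => H z x + g1 z x) 0 z - val γ μ (fun z x => H z x + g z x) 0 z
      = dVal γ μ H g1 0 z - dVal γ μ H g 0 z := by unfold dVal; ring
  have e5 : (1 / X0 + p / 2) * cnd γ μ H (fun z _ => Xj z ^ 2) 0 z
      ≤ (1 / X0 + p) * cnd γ μ H (fun z x => g z x ^ 2) 0 z :=
    mul_le_mul (by linarith) e3 (cnd_nonneg (fun z _ => sq_nonneg _) 0 z) (by positivity)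
  rw [e4]
  linarith

/-- A potential adds at most the logarithm of its mean exponential. -/
theorem exp_dVal_le_cnd (hH : LinB w H) (hg : BPot g) (z : Fin k → Z) :
    exp (dVal γ μ H g 0 z) ≤ cnd γ μ H (fun z x => exp (g z x)) 0 z := by
  have h := exp_dVal_le (γ := γ) (μ := μ) hH hg (p := 1) le_rfl (lev_le_one (Nat.le_succ k))
    (Nat.zero_le k) z
  simp only [one_mul, exp_dVal_top hH hg le_rfl] at h
  exact h.trans_eq (cnd_tower hH (Nat.zero_le k) z)

end Vale.Agent.P166.Rsb.Energy
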