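import Vale.Agent.P157.Cube2.AuxField
import Vale.Agent.P166.Rsb.Energy.Collapse

/-!
# P166: expectations of two leaves along a path of Hamiltonians

An expectation of bounded observables moves by at most four times their bound times the mean of a
bound on the velocity. For a nonnegative velocity this mean is the derivative of the value.
-/

open MeasureTheory ProbabilityTheory Real Finset
open Vale.Agent.P157.Rsb

namespace Vale.Agent.P166.Rsb.Energy

variable {k : ℕ} {Z X : Type} [MeasurableSpace Z] [MeasurableSpace X]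
  {γ : Measure Z} {μ : Measure X} {w : Size γ}
  {H dH : ℝ → (Fin k → Z) → X → ℝ} {A : Type} [Fintype A]
  {b φ : A → (Fin k → Z) → X → ℝ} {R : ℝ}

/-- A differentiable path of Hamiltonians. -/
def HPath (w : Size γ) (H dH : ℝ → (Fin k → Z) → X → ℝ) : Prop :=
  ∀ s₀, Family w H (fun _ _ _ => (0 : ℝ)) dH (fun _ _ _ => 0) s₀ 1

/-- Bounded coefficients and observables of a product of two leaves. -/
structure PairData (b φ : A → (Fin k → Z) → X → ℝ) (R : ℝ) : Prop where
  b_meas : ∀ a, Measurable (Function.uncurry (b a))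
  φ_meas : ∀ a, Measurable (Function.uncurry (φ a))
  b_bdd : ∃ C, ∀ a z x, |b a z x| ≤ C
  φ_bound : ∀ a z x, |φ a z x| ≤ 1
  joint : ∀ z x z' x', |∑ a, b a z x * φ a z' x'| ≤ R

theorem PairData.of_abs (hb : ∀ a, Measurable (Function.uncurry (b a)))
    (hφ : ∀ a, Measurable (Function.uncurry (φ a))) (hR : ∀ z x, ∑ a, |b a z x| ≤ R)
    (h1 : ∀ a z x, |φ a z x| ≤ 1) : PairData b φ R where
  b_meas := hb
  φ_meas := hφ
  b_bdd := ⟨R, fun a z x =>
    (single_le_sum (f := fun a => |b a z x|) (fun _ _ => abs_nonneg _) (mem_univ a)).trans (hR z x)⟩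
  φ_bound := h1
  joint z x z' x' := (abs_sum_le_sum_abs _ _).trans ((sum_le_sum fun a _ => by
    rw [abs_mul]; exact mul_le_of_le_one_right (abs_nonneg _) (h1 a z' x')).trans (hR z x))

variable (γ μ) in
/-- The first leaf keeps `b`, the second is averaged from level `j` on. -/
noncomputable def pairObs (H : (Fin k → Z) → X → ℝ) (b φ : A → (Fin k → Z) → X → ℝ) (j : ℕ)
    (z : Fin k → Z) (x : X) : ℝ :=
  ∑ a, b a z x * cnd γ μ H (φ a) j z

variable [IsProbabilityMeasure γ] [IsFiniteMeasure μ] [NeZero μ]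

omit [IsProbabilityMeasure γ] [IsFiniteMeasure μ] [NeZero μ] in
theorem HPath.linB (hF : HPath w H dH) (s : ℝ) : LinB w (H s) :=
  (hF s).linB (by simp)

omit [IsProbabilityMeasure γ] [IsFiniteMeasure μ] [NeZero μ] in
theorem HPath.tame_dH (hF : HPath w H dH) (s : ℝ) : Tame w (dH s) :=
  ((hF s).tames (by simp : |s - s| < 1)).1

omit [IsProbabilityMeasure γ] [IsFiniteMeasure μ] [NeZero μ] in
theorem HPath.obs (hF : HPath w H dH) {ψ : (Fin k → Z) → X → ℝ} (hm : Measurable (Function.uncurry ψ))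
    (h1 : ∀ z x, |ψ z x| ≤ 1) (s₀ : ℝ) :
    Family w H (fun _ => ψ) dH (fun _ _ _ => 0) s₀ 1 := by
  obtain ⟨A, hA, hb⟩ := (hF s₀).bound
  refine ⟨one_pos, (hF s₀).measH, (hF s₀).measdH, fun _ => hm, fun _ => measurable_const,
    ⟨A + 1, by linarith, fun s hs z x => ?_⟩, (hF s₀).derivH, fun s _ z x => hasDerivAt_const _ _⟩
  obtain ⟨p1, p2, -, p4⟩ := hb s hs z x
  have ht := w.tot_nonneg z
  have e : A * exp (A * w.tot z) ≤ (A + 1) * exp ((A + 1) * w.tot z) :=
    mul_le_mul (by linarith) (exp_le_exp.2 (by nlinarith)) (exp_pos _).le (by linarith)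
  exact ⟨p1.trans (mul_le_mul_of_nonneg_right (by linarith) (by linarith)), p2.trans e,
    (h1 z x).trans (one_le_mul_of_one_le_of_one_le (by linarith) (one_le_exp (by positivity))),
    p4.trans e⟩

theorem pairObs_tame {H : (Fin k → Z) → X → ℝ} (hH : LinB w H) (hP : PairData b φ R) (j : ℕ) :
    Tame w (pairObs γ μ H b φ j) :=
  Tame.sum univ fun a _ => (Tame.of_bdd (hP.b_meas a) fun z x =>
    hP.b_bdd.choose_spec a z x).mul (cnd_tame hH (Tame.of_bdd (hP.φ_meas a) (hP.φ_bound a)) j)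

theorem abs_pairObs_le {H : (Fin k → Z) → X → ℝ} (hH : LinB w H) (hP : PairData b φ R) (j : ℕ)
    (z : Fin k → Z) (x : X) : |pairObs γ μ H b φ j z x| ≤ R := by
  have e : pairObs γ μ H b φ j z x = cnd γ μ H (fun z' x' => ∑ a, b a z x * φ a z' x') j z := by
    rw [cnd_finsum hH univ fun a _ => (Tame.of_bdd (hP.φ_meas a) (hP.φ_bound a)).const_mul _]
    simp only [cnd_const_mul]
    rfl
  rw [e]
  exact cnd_abs_le (φ := fun z' x' => ∑ a, b a z x * φ a z' x') hH
    (Finset.measurable_sum univ fun a _ => (hP.φ_meas a).const_mul (b a z x))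
    (fun z' x' => hP.joint z x z' x') j z

/-- The derivative of the expectation of two leaves. -/
theorem pair_deriv (hF : HPath w H dH) (hR : 0 < R) (hP : PairData b φ R) {dom : (Fin k → Z) → X → ℝ}
    (hdom : Tame w dom) {s : ℝ} (hd : ∀ z x, |dH s z x| ≤ dom z x) {j : ℕ} (hj : j ≤ k)
    (z₀ : Fin k → Z) :
    ∃ E, HasDerivAt (fun t => cnd γ μ (H t) (pairObs γ μ (H t) b φ j) 0 z₀) E s ∧
      |E| ≤ 4 * R * cnd γ μ (H s) dom 0 z₀ := by
  have hH := fun t => hF.linB t
  have F1 := fun a => hF.obs (hP.φ_meas a) (hP.φ_bound a) s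
  have t0 : Tame w fun (_ : Fin k → Z) (_ : X) => (0 : ℝ) :=
    Tame.of_bdd measurable_const (B := 0) fun _ _ => by simp
  have tφ := fun a => Tame.of_bdd (w := w) (hP.φ_meas a) (hP.φ_bound a)
  set dM : A → ℝ → (Fin k → Z) → ℝ := fun a t z => cndDer γ μ (H t) (φ a) (dH t) (fun _ _ => 0) j z
  set ψ : ℝ → (Fin k → Z) → X → ℝ := fun t z x => R⁻¹ * pairObs γ μ (H t) b φ j z x with hψ
  set dψ : ℝ → (Fin k → Z) → X → ℝ := fun t z x => R⁻¹ * ∑ a, b a z x * dM a t z with hdψ
  have hdMm : ∀ a t, Measurable (Function.uncurry fun z (_ : X) => dM a t z) := fun a t =>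
    (cndDer_measurable (hH t) (tφ a) (hF.tame_dH t) t0 j).comp measurable_fst
  have hψ1 : ∀ t z x, |ψ t z x| ≤ 1 := fun t z x => by
    rw [hψ, abs_mul, abs_inv, abs_of_pos hR, inv_mul_le_iff₀ hR, mul_one]
    exact abs_pairObs_le (hH t) hP j z x
  have mdψ : ∀ t, Measurable (Function.uncurry (dψ t)) := fun t =>
    (Finset.measurable_sum _ fun a _ => (hP.b_meas a).mul (hdMm a t)).const_mul _
  have hB : ∀ a, ∃ B, 0 ≤ B ∧ ∀ t, |t - s| < 1 → ∀ z, |dM a t z| ≤ B * exp (B * w.tot z) := fun a => by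
    obtain ⟨B, hB, hb⟩ := (F1 a).der_bound (μ := μ)
    exact ⟨B, hB, fun t ht z => (hb t ht j hj z).2.2.2⟩
  choose B hB0 hB using hB
  obtain ⟨A0, hA0, hFb⟩ := (hF s).bound
  obtain ⟨Cb, hCb⟩ := hP.b_bdd
  have hlin : ∀ z x, |∑ a, b a z x * dM a s z| ≤ R * (2 * cnd γ μ (H s) dom j z) := fun z x => by
    set φ' : (Fin k → Z) → X → ℝ := fun z' x' => R⁻¹ * ∑ a, b a z x * φ a z' x'
    have m' : Measurable (Function.uncurry φ') :=
      (Finset.measurable_sum _ fun a _ => (hP.φ_meas a).const_mul _).const_mul _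
    have b' : ∀ z' x', |φ' z' x'| ≤ 1 := fun z' x' => by
      rw [abs_mul, abs_inv, abs_of_pos hR, inv_mul_le_iff₀ hR, mul_one]
      exact hP.joint z x z' x'
    have ts : ∀ a, Tame w fun z' x' => b a z x * φ a z' x' := fun a => (tφ a).const_mul _
    have e : (fun t => cnd γ μ (H t) φ' j z) = fun t => R⁻¹ * ∑ a, b a z x * cnd γ μ (H t) (φ a) j z := by
      funext t
      simp only [φ', cnd_const_mul]
      rw [cnd_finsum (hH t) univ fun a _ => ts a]
      simp only [cnd_const_mul]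
    have d1 : HasDerivAt (fun t => cnd γ μ (H t) φ' j z) (R⁻¹ * ∑ a, b a z x * dM a s z) s := by
      rw [e]
      exact (HasDerivAt.fun_sum fun a _ => (hasDerivAt_cnd (F1 a) hj z).const_mul (b a z x)).const_mul R⁻¹
    have h := P157.Cube2.AuxF.abs_cndDer_le_dom (μ := μ) (hH s) (Tame.of_bdd m' b') (hF.tame_dH s) t0
      hdom t0 b' hd (fun _ _ => by simp) hj z
    rw [cnd_const (hH s), zero_add] at h
    calc |∑ a, b a z x * dM a s z| = R * |R⁻¹ * ∑ a, b a z x * dM a s z| := by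
          rw [abs_mul, abs_inv, abs_of_pos hR]; field_simp
      _ ≤ _ := by
          rw [d1.unique (hasDerivAt_cnd (hF.obs m' b' s) hj z)]
          exact mul_le_mul_of_nonneg_left h hR.le
  have F2 : Family w H ψ dH dψ s 1 := by
    refine ⟨one_pos, fun t => (hH t).meas, (hF s).measdH,
      fun t => ((pairObs_tame (hH t) hP j).meas).const_mul _, mdψ,
      ⟨A0 + 1 + (1 + max Cb 0 / R) * ∑ a, B a, add_nonneg (by linarith) (mul_nonneg (by positivity)
        (sum_nonneg fun a _ => hB0 a)), fun t ht z x => ?_⟩, (hF s).derivH, fun t ht z x => ?_⟩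
    · obtain ⟨p1, p2, -, -⟩ := hFb t ht z x
      have htot := w.tot_nonneg z
      set C := A0 + 1 + (1 + max Cb 0 / R) * ∑ a, B a with hCdef
      have hBs : 0 ≤ ∑ a, B a := sum_nonneg fun a _ => hB0 a
      have hBr : 0 ≤ max Cb 0 / R * ∑ a, B a := mul_nonneg (by positivity) hBs
      have hCR : max Cb 0 * ∑ a, B a ≤ R * C := by
        rw [hCdef, mul_add, mul_add, add_mul, one_mul, mul_add,
          ← mul_assoc R (max Cb 0 / R), mul_div_cancel₀ _ hR.ne']
        have := mul_nonneg hR.le hA0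
        have := mul_nonneg hR.le hBs
        linarith
      rw [add_mul, one_mul] at hCdef
      have hC : A0 ≤ C := by linarith
      have hC1 : 1 ≤ C := by linarith
      have e : ∀ a, B a * exp (B a * w.tot z) ≤ B a * exp (C * w.tot z) := fun a =>
        mul_le_mul_of_nonneg_left (exp_le_exp.2 (mul_le_mul_of_nonneg_right
          ((single_le_sum (f := B) (fun a _ => hB0 a) (mem_univ a)).trans (by linarith))
          htot)) (hB0 a)
      refine ⟨p1.trans (mul_le_mul_of_nonneg_right hC (by linarith)),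
        p2.trans (mul_le_mul hC (exp_le_exp.2 (mul_le_mul_of_nonneg_right hC htot)) (exp_pos _).le
          (hA0.trans hC)), (hψ1 t z x).trans (one_le_mul_of_one_le_of_one_le hC1
            (one_le_exp (by positivity))), ?_⟩
      rw [hdψ, abs_mul, abs_inv, abs_of_pos hR, inv_mul_le_iff₀ hR]
      refine (abs_sum_le_sum_abs _ _).trans ?_
      calc ∑ a, |b a z x * dM a t z| ≤ ∑ a, max Cb 0 * (B a * exp (C * w.tot z)) :=
            sum_le_sum fun a _ => by
              rw [abs_mul]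
              exact mul_le_mul ((hCb a z x).trans (le_max_left Cb 0)) ((hB a t ht z).trans (e a))
                (abs_nonneg _) (le_max_right _ _)
        _ ≤ _ := by
            rw [← mul_sum, ← sum_mul, ← mul_assoc, ← mul_assoc]
            exact mul_le_mul_of_nonneg_right hCR (exp_pos _).le
    · refine (HasDerivAt.fun_sum fun a _ => ((hasDerivAt_cnd (hF.obs (hP.φ_meas a) (hP.φ_bound a) t) hj z).const_mul
        (b a z x))).const_mul R⁻¹
  refine ⟨R * cndDer γ μ (H s) (ψ s) (dH s) (dψ s) 0 z₀, ?_, ?_⟩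
  · refine ((hasDerivAt_cnd F2 (Nat.zero_le k) z₀).const_mul R).congr_of_eventuallyEq
      (Filter.Eventually.of_forall fun t => ?_)
    simp only [hψ, cnd_const_mul]
    field_simp
  · rw [abs_mul, abs_of_pos hR, show 4 * R * cnd γ μ (H s) dom 0 z₀
      = R * (4 * cnd γ μ (H s) dom 0 z₀) by ring]
    refine mul_le_mul_of_nonneg_left ?_ hR.le
    have tde : Tame w fun z (_ : X) => 2 * cnd γ μ (H s) dom j z :=
      (cnd_tame (μ := μ) (hH s) hdom j).const_mul 2
    have h := P157.Cube2.AuxF.abs_cndDer_le_dom (μ := μ) (hH s) (F2.tames (s := s) (by simp)).2.1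
      (hF.tame_dH s) (F2.tames (s := s) (by simp)).2.2 hdom tde (hψ1 s) hd (fun z x => ?_)
      (Nat.zero_le k) z₀
    · rw [cnd_const_mul, cnd_tower (hH s) (Nat.zero_le j)] at h
      linarith
    · rw [hdψ, abs_mul, abs_inv, abs_of_pos hR, inv_mul_le_iff₀ hR]
      exact hlin z x

/-- Along a path of bounded velocity. -/
theorem pair_lip (hF : HPath w H dH) (hR : 0 < R) (hP : PairData b φ R) {dom : ℝ → (Fin k → Z) → X → ℝ}
    (hdom : ∀ s, Tame w (dom s)) {K : ℝ} (hd : ∀ s ∈ Set.Icc (0 : ℝ) 1, ∀ z x, |dH s z x| ≤ dom s z x)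
    {j : ℕ} (hj : j ≤ k) (z₀ : Fin k → Z)
    (hK : ∀ s ∈ Set.Icc (0 : ℝ) 1, cnd γ μ (H s) (dom s) 0 z₀ ≤ K) :
    |cnd γ μ (H 1) (pairObs γ μ (H 1) b φ j) 0 z₀ - cnd γ μ (H 0) (pairObs γ μ (H 0) b φ j) 0 z₀|
      ≤ 4 * R * K := by
  have h : ∀ s ∈ Set.Icc (0 : ℝ) 1, ∃ E,
      HasDerivAt (fun t => cnd γ μ (H t) (pairObs γ μ (H t) b φ j) 0 z₀) E s ∧ |E| ≤ 4 * R * K := by
    intro s hs
    obtain ⟨E, h1, h2⟩ := pair_deriv (γ := γ) (μ := μ) hF hR hP (hdom s) (hd s hs) hj z₀
    exact ⟨E, h1, h2.trans (mul_le_mul_of_nonneg_left (hK s hs) (by positivity))⟩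
  choose! E hE using h
  have h := (convex_Icc (0 : ℝ) 1).norm_image_sub_le_of_norm_hasDerivWithin_le
    (fun s hs => (hE s hs).1.hasDerivWithinAt) (fun s hs => (hE s hs).2)
    (Set.left_mem_Icc.2 zero_le_one) (Set.right_mem_Icc.2 zero_le_one)
  simpa using h

/-- Along a path of nonnegative velocity. -/
theorem pair_mono (hF : HPath w H dH) (hR : 0 < R) (hP : PairData b φ R) (h0 : ∀ s z x, 0 ≤ dH s z x)
    {j : ℕ} (hj : j ≤ k) (z₀ : Fin k → Z) :
    |cnd γ μ (H 1) (pairObs γ μ (H 1) b φ j) 0 z₀ - cnd γ μ (H 0) (pairObs γ μ (H 0) b φ j) 0 z₀|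
      ≤ 4 * R * (val γ μ (H 1) 0 z₀ - val γ μ (H 0) 0 z₀) := by
  set F := fun t => cnd γ μ (H t) (pairObs γ μ (H t) b φ j) 0 z₀ with hFdef
  set G := fun t => val γ μ (H t) 0 z₀ with hG
  have hd : ∀ s, ∃ E, HasDerivAt F E s ∧ |E| ≤ 4 * R * cnd γ μ (H s) (dH s) 0 z₀ := fun s =>
    pair_deriv (γ := γ) (μ := μ) hF hR hP (hF.tame_dH s)
      (fun z x => (abs_of_nonneg (h0 s z x)).le) hj z₀
  choose E hE using hd
  have hGd : ∀ s, HasDerivAt G (cnd γ μ (H s) (dH s) 0 z₀) s := fun s => hasDerivAt_val (hF s) 0 z₀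
  have key : ∀ c : ℝ, |c| = 1 → c * (F 1 - F 0) ≤ 4 * R * (G 1 - G 0) := fun c hc => by
    have h : ∀ s, HasDerivAt (fun t => 4 * R * G t - c * F t)
        (4 * R * cnd γ μ (H s) (dH s) 0 z₀ - c * E s) s :=
      fun s => ((hGd s).const_mul _).sub ((hE s).1.const_mul c)
    have hm := monotone_of_deriv_nonneg (fun s => (h s).differentiableAt) (fun s => by
      rw [(h s).deriv, sub_nonneg]
      refine (le_abs_self _).trans ?_
      rw [abs_mul, hc, one_mul]
      exact (hE s).2) (zero_le_one' ℝ)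
    simp only at hm
    linarith
  rw [abs_le]
  have h1 := key 1 abs_one
  have h2 := key (-1) (by simp)
  constructor <;> linarith

omit [IsProbabilityMeasure γ] [IsFiniteMeasure μ] [NeZero μ] in
/-- A linear path. -/
theorem hPath_lin {H0 δ : (Fin k → Z) → X → ℝ} (hH : LinB w H0) (hδ : BPot δ) :
    HPath w (fun s z x => H0 z x + s * δ z x) fun _ => δ := by
  intro s₀
  obtain ⟨A, hA, hb⟩ := hH.bound
  obtain ⟨L', hL'⟩ := hδ.2
  set L := |L'|
  set C := A + (|s₀| + 1) * L + L with hC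
  have hC0 : 0 ≤ C := by positivity
  refine ⟨one_pos, fun s => hH.meas.add (hδ.1.const_mul s), fun _ => hδ.1, fun _ => measurable_const,
    fun _ => measurable_const, ⟨C, hC0, fun s hs z x => ?_⟩,
    fun s _ z x => by simpa using ((hasDerivAt_id s).mul_const (δ z x)).const_add (H0 z x),
    fun s _ z x => hasDerivAt_const _ _⟩
  have ht := w.tot_nonneg z
  have hδL : |δ z x| ≤ L := (hL' z x).trans (le_abs_self _)
  have hs' : |s| ≤ |s₀| + 1 := by linarith [abs_sub_abs_le_abs_sub s s₀]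
  have h2 : |s * δ z x| ≤ (|s₀| + 1) * L := by
    rw [abs_mul]; exact mul_le_mul hs' hδL (abs_nonneg _) (by positivity)
  have hx : 1 ≤ exp (C * w.tot z) := one_le_exp (by positivity)
  refine ⟨?_, ?_, ?_, ?_⟩
  · refine (abs_add_le _ _).trans ((add_le_add (hb z x) h2).trans ?_)
    rw [hC]
    nlinarith [abs_nonneg L', mul_nonneg (by positivity : 0 ≤ (|s₀| + 1) * L + L) ht]
  · refine hδL.trans (le_trans ?_ (le_mul_of_one_le_right hC0 hx))
    rw [hC]; nlinarith [abs_nonneg s₀, abs_nonneg L']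
  all_goals rw [abs_zero]; positivity

end Vale.Agent.P166.Rsb.Energy
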