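import Vale.Agent.P166.Rsb.Slot.Main
import Vale.Agent.P166.Rsb.Energy.Path
import Vale.Agent.P166.Rsb.Energy.GaussKer

/-!
# P166: cut-offs

A quadratic tilt is cut off at height `M`, an observable at height `L`. The recursion of a field with
a cut-off tilt differs from the Gaussian one by an amount that vanishes with `M`, uniformly in the
number of levels.
-/

open MeasureTheory ProbabilityTheory Real Filter Topology Finset
open Vale.Agent.P157.Rsb (val cnd lev LinB Tame Size lineSize val_top cnd_top val_step cnd_step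
  levels_induction val_of_le cnd_of_le lev_pos integrable_exp_leaf integrable_val_step
  cnd_upto cnd_pull cnd_tower cnd_const_mul cnd_mono)
open Vale.Agent.P166.Rsb.Slot (IsKer kerFld kerFld_le gamQ GoodObs exists_cpt)

namespace Vale.Agent.P166.Rsb.Energy

section Shift

variable {k : ℕ} {Z X : Type} [MeasurableSpace Z] [MeasurableSpace X]
  {γ : Measure Z} {μ : Measure X} {w : Size γ} [IsProbabilityMeasure γ]
  [IsFiniteMeasure μ] [NeZero μ]

/-- A constant added to the Hamiltonian. -/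
theorem shift_const {H : (Fin k → Z) → X → ℝ} (hH : LinB w H) (C : ℝ) (φ : (Fin k → Z) → X → ℝ)
    (j : ℕ) : ∀ z, val γ μ (fun z x => H z x + C) j z = val γ μ H j z + C ∧
      cnd γ μ (fun z x => H z x + C) φ j z = cnd γ μ H φ j z := by
  induction j using levels_induction (k := k) with
  | htop j hj =>
    intro z
    simp only [val_of_le hj, cnd_of_le hj, val_top, cnd_top, exp_add, ← mul_assoc, integral_mul_const]
    have h := integral_exp_pos (integrable_exp_leaf (μ := μ) hH z)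
    exact ⟨by rw [log_mul h.ne' (exp_pos C).ne', log_exp], mul_div_mul_right _ _ (exp_pos C).ne'⟩
  | hstep j hj hjk ih =>
    intro z
    have hm := lev_pos (k := k) hj
    obtain ⟨-, h⟩ := integrable_val_step (γ := γ) (μ := μ) hH (j := j) z (j - 1)
    simp only [val_step hj hjk, cnd_step hj hjk, fun z => (ih z).1, fun z => (ih z).2, mul_add, exp_add,
      ← mul_assoc, integral_mul_const]
    refine ⟨?_, mul_div_mul_right _ _ (exp_pos _).ne'⟩
    rw [log_mul h.ne' (exp_pos _).ne', log_exp]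
    field_simp

end Shift

/-- A smooth indicator of `[-1, 1]`. -/
noncomputable def chi : ContDiffBump (0 : ℝ) := ⟨1, 2, one_pos, one_lt_two⟩

theorem chi_one {v : ℝ} (h : |v| ≤ 1) : chi v = 1 :=
  chi.one_of_mem_closedBall (by simpa [chi, Metric.mem_closedBall] using h)

theorem chi_zero {v : ℝ} (h : 2 ≤ |v|) : chi v = 0 :=
  chi.zero_of_le_dist (by simpa [chi] using h)

/-- The tilt cut off at height `M`. -/
noncomputable def cutF (M v : ℝ) : ℝ := chi (v / √M) * (M / 2 - v ^ 2 / 2) - M / 2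

/-- An observable cut off at height `L`. -/
noncomputable def cutE (L u : ℝ) : ℝ := u * chi (u / L)

/-- The error of a cut-off, when the mean square of the potential is at most `C`. -/
noncomputable def gap (M C : ℝ) : ℝ := √M * exp (-√M / 4) + (4 / M + 1 / √M) * C

theorem tendsto_gap (C : ℝ) : Tendsto (fun M => gap M C) atTop (𝓝 0) := by
  have hs := tendsto_sqrt_atTop
  have h1 : Tendsto (fun M : ℝ => √M * exp (-√M / 4)) atTop (𝓝 0) := by
    have h := ((tendsto_pow_mul_exp_neg_atTop_nhds_zero 1).comp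
      (hs.atTop_div_const (by norm_num : (0 : ℝ) < 4))).const_mul 4
    simp only [mul_zero] at h
    refine h.congr fun M => ?_
    simp only [Function.comp, pow_one, neg_div]
    ring
  have h2 : Tendsto (fun M : ℝ => (4 / M + 1 / √M) * C) atTop (𝓝 0) := by
    have h := ((tendsto_id.const_div_atTop (4 : ℝ)).add (hs.const_div_atTop 1)).mul_const C
    simpa using h
  simpa [gap] using h1.add h2

section CutF

variable {M : ℝ} (hM : 0 < M)
include hM

theorem cutF_one {v : ℝ} (h : v ^ 2 ≤ M) : cutF M v = -v ^ 2 / 2 := by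
  rw [cutF, chi_one, one_mul]
  · ring
  · rw [abs_div, abs_of_pos (sqrt_pos.2 hM), div_le_one (sqrt_pos.2 hM)]
    exact abs_le_sqrt h

theorem cutF_far {v : ℝ} (h : 4 * M ≤ v ^ 2) : cutF M v = -M / 2 := by
  rw [cutF, chi_zero, zero_mul]
  · ring
  · rw [abs_div, abs_of_pos (sqrt_pos.2 hM), le_div_iff₀ (sqrt_pos.2 hM), ← sqrt_sq_eq_abs]
    refine le_sqrt_of_sq_le ?_
    rw [mul_pow, sq_sqrt hM.le]
    linarith

theorem cutF_mem (v : ℝ) : -v ^ 2 / 2 ≤ cutF M v ∧ cutF M v ≤ 0 ∧ -(2 * M) ≤ cutF M v ∧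
    (M < v ^ 2 → cutF M v ≤ -M / 2) := by
  have h0 := chi.nonneg (x := v / √M)
  have h1 := chi.le_one (x := v / √M)
  rcases le_or_gt (v ^ 2) M with h | h
  · rw [cutF_one hM h]
    exact ⟨le_rfl, by linarith [sq_nonneg v], by linarith, fun h' => absurd h (not_le.2 h')⟩
  · have hle : cutF M v ≤ -M / 2 := by
      rw [cutF]; nlinarith
    refine ⟨by rw [cutF]; nlinarith, hle.trans (by linarith), ?_, fun _ => hle⟩
    rcases le_or_gt (4 * M) (v ^ 2) with h4 | h4
    · rw [cutF_far hM h4]; linarith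
    · rw [cutF]; nlinarith

theorem abs_cutF_le (v : ℝ) : |cutF M v| ≤ 2 * M := by
  obtain ⟨-, h1, h2, -⟩ := cutF_mem hM v
  rw [abs_le]; constructor <;> linarith

theorem exp_cutF_le (v : ℝ) : exp (cutF M v) ≤ exp (-v ^ 2 / 2) + exp (-(M / 2)) := by
  rcases le_or_gt (v ^ 2) M with h | h
  · rw [cutF_one hM h]; linarith [exp_pos (-(M / 2))]
  · refine le_add_of_nonneg_of_le (exp_pos _).le (exp_le_exp.2 ?_)
    linarith [(cutF_mem hM v).2.2.2 h]

theorem cutF_anti {M' : ℝ} (h : 4 * M ≤ M') (v : ℝ) : cutF M' v ≤ cutF M v := by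
  have hM' : 0 < M' := by linarith
  rcases le_or_gt (v ^ 2) M' with h' | h'
  · rw [cutF_one hM' h']; exact (cutF_mem hM v).1
  · rw [cutF_far hM (v := v) (by linarith)]
    exact ((cutF_mem hM' v).2.2.2 h').trans (by linarith)

end CutF

theorem contDiff_cutF (M : ℝ) {n : ℕ∞} : ContDiff ℝ n (cutF M) :=
  ((chi.contDiff.comp (contDiff_id.div_const _)).mul
    (contDiff_const.sub ((contDiff_id.pow 2).div_const 2))).sub contDiff_const

theorem measurable_cutF (M : ℝ) : Measurable (cutF M) :=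
  (contDiff_cutF M (n := 1)).continuous.measurable

theorem compact_scaled {r : ℝ} (hr : r ≠ 0) : HasCompactSupport fun v : ℝ => chi (v / r) := by
  refine HasCompactSupport.intro (isCompact_Icc (a := -(2 * |r|)) (b := 2 * |r|)) fun v hv => chi_zero ?_
  rw [abs_div, le_div_iff₀ (abs_pos.2 hr)]
  by_contra h
  exact hv (abs_le.1 (not_le.1 h).le)

theorem good_cutF {M : ℝ} (hM : 0 < M) : P157.Rsb.Good fun v => cutF M v + M / 2 := by
  refine ⟨(contDiff_cutF M).add contDiff_const, ?_⟩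
  simp only [cutF, sub_add_cancel]
  exact (compact_scaled (sqrt_pos.2 hM).ne').mul_right

theorem cutE_bounds {L : ℝ} (hL : 0 < L) (u : ℝ) :
    |cutE L u| ≤ |u| ∧ |cutE L u - u| ≤ u ^ 2 / L ∧ |cutE L u| ≤ 2 * L := by
  have h0 := chi.nonneg (x := u / L)
  have h1 := chi.le_one (x := u / L)
  refine ⟨?_, ?_, ?_⟩
  · rw [cutE, abs_mul, abs_of_nonneg h0]; exact mul_le_of_le_one_right (abs_nonneg _) h1
  · rcases le_or_gt |u| L with h | h
    · rw [cutE, chi_one (by rwa [abs_div, abs_of_pos hL, div_le_one hL]), mul_one, sub_self, abs_zero]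
      positivity
    · rw [cutE, show u * chi (u / L) - u = -(u * (1 - chi (u / L))) by ring, abs_neg, abs_mul,
        abs_of_nonneg (by linarith : (0 : ℝ) ≤ 1 - chi (u / L)), le_div_iff₀ hL, ← sq_abs u]
      nlinarith [mul_le_mul_of_nonneg_left h.le (abs_nonneg u),
        mul_nonneg (mul_nonneg (abs_nonneg u) h0) hL.le]
  · rcases le_or_gt (2 * L) |u| with h | h
    · rw [cutE, chi_zero (by rwa [abs_div, abs_of_pos hL, le_div_iff₀ hL]), mul_zero, abs_zero]
      positivity
    · rw [cutE, abs_mul, abs_of_nonneg h0]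
      exact (mul_le_of_le_one_right (abs_nonneg _) h1).trans h.le

theorem contDiff_cutE (L : ℝ) {n : ℕ∞} : ContDiff ℝ n (cutE L) :=
  contDiff_id.mul (chi.contDiff.comp (contDiff_id.div_const _))

theorem compact_cutE {L : ℝ} (hL : L ≠ 0) : HasCompactSupport (cutE L) :=
  (compact_scaled hL).mul_left

theorem goodObs_cutE {L : ℝ} (hL : L ≠ 0) : GoodObs (cutE L) :=
  ⟨contDiff_cutE L, (compact_cutE hL).deriv⟩

theorem goodObs_sq {L : ℝ} (hL : L ≠ 0) (r : ℝ) : GoodObs fun u => cutE L u ^ 2 + r := by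
  refine ⟨((contDiff_cutE L).pow 2).add contDiff_const, ?_⟩
  rw [deriv_add_const']
  have h : HasCompactSupport fun u => cutE L u ^ 2 :=
    (compact_cutE hL).comp_left (g := fun x : ℝ => x ^ 2) (by norm_num)
  exact h.deriv

/-- A good observable is Lipschitz in the scale of its argument. -/
theorem exists_scale_lip {e : ℝ → ℝ} (he : GoodObs e) {B : ℝ} (hB : ∀ u, |e u| ≤ B) :
    ∃ K, 0 ≤ K ∧ ∀ r, 0 ≤ r → ∀ v, |e (r * v) - e v| ≤ K * |r - 1| := by
  have hB0 : 0 ≤ B := (abs_nonneg _).trans (hB 0)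
  have e1 : ContDiff ℝ 1 (deriv e) := by simpa using he.1.iterate_deriv' 1 1
  obtain ⟨K, hK⟩ := (he.2.mul_left (f := fun u : ℝ => u)).exists_bound_of_continuous
    (continuous_id.mul e1.continuous)
  have hK0 : 0 ≤ K := (norm_nonneg _).trans (hK 0)
  refine ⟨2 * K + 4 * B, by positivity, fun r hr v => ?_⟩
  rcases lt_or_ge r (1 / 2) with h | h
  · refine (abs_sub _ _).trans ((add_le_add (hB _) (hB _)).trans ?_)
    have : (1 / 2 : ℝ) ≤ |r - 1| := by rw [abs_of_neg (by linarith)]; linarith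
    nlinarith [mul_nonneg hK0 (abs_nonneg (r - 1))]
  · have hd : ∀ s ∈ Set.Ici (1 / 2 : ℝ), HasDerivWithinAt (fun s => e (s * v)) (deriv e (s * v) * v)
        (Set.Ici (1 / 2)) s := fun s _ =>
      ((he.1.differentiable (by norm_num) _).hasDerivAt.comp s (by simpa using (hasDerivAt_id s).mul_const v)).hasDerivWithinAt
    have hbd : ∀ s ∈ Set.Ici (1 / 2 : ℝ), ‖deriv e (s * v) * v‖ ≤ 2 * K := fun s hs => by
      have hs : (1 / 2 : ℝ) ≤ s := hs
      have h := hK (s * v)
      simp only [Pi.mul_apply, Real.norm_eq_abs, abs_mul] at h ⊢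
      rw [abs_of_nonneg (by linarith : 0 ≤ s)] at h
      nlinarith [mul_le_mul_of_nonneg_right hs (mul_nonneg (abs_nonneg v) (abs_nonneg (deriv e (s * v))))]
    have h := (convex_Ici (1 / 2 : ℝ)).norm_image_sub_le_of_norm_hasDerivWithin_le hd hbd
      (show (1 : ℝ) ∈ Set.Ici (1 / 2) by norm_num) h
    rw [Real.norm_eq_abs, Real.norm_eq_abs, one_mul] at h
    refine h.trans (mul_le_mul_of_nonneg_right (by linarith) (abs_nonneg _))

/-- The target of a pair of leaves: overlap `q`, diagonal `Q`. -/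
noncomputable def gTgt (e : ℝ → ℝ) (q Q : ℝ) : ℝ :=
  ∫ y, (∫ x, e (√q * y + √(Q - q) * x) ∂gaussianReal 0 1) ^ 2 ∂gaussianReal 0 1

theorem linB_field {k : ℕ} (q : ℕ → ℝ) (Q : ℝ) {g : ℝ → ℝ} (hg : Measurable g) {B : ℝ}
    (hB : ∀ u, |g u| ≤ B) : LinB lineSize fun (z : Fin k → ℝ) x => g (kerFld k q Q z x) :=
  linB_fldH (q := q) (Q := Q) (k := k) (f := fun _ => g) (fun _ => hg) (fun _ => ⟨B, hB⟩) 0

theorem bpot_field {k : ℕ} (q : ℕ → ℝ) (Q : ℝ) {g : ℝ → ℝ} (hg : Measurable g) {B : ℝ}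
    (hB : ∀ u, |g u| ≤ B) : BPot fun (z : Fin k → ℝ) x => g (kerFld k q Q z x) :=
  ⟨hg.comp (kerFld_le q Q), B, fun _ _ => hB _⟩

/-- The fourth moment of a standard normal variable. -/
noncomputable def mom4 : ℝ := ∫ x : ℝ, x ^ 4 ∂gaussianReal 0 1

theorem mom4_nonneg : 0 ≤ mom4 :=
  integral_nonneg fun x => by positivity

/-- The value of a cut-off tilt on a field changes little if the cut is moved out. -/
theorem field_gap {k : ℕ} {q : ℕ → ℝ} {Q Qm : ℝ} (hq : IsKer k q Q) (hQ : Q ≤ Qm) {M M' : ℝ}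
    (hM : 1 ≤ M) (hM' : 4 * M ≤ M') :
    val (k := k) (gaussianReal 0 1) (gaussianReal 0 1) (fun z x => 0 + cutF M (kerFld k q Q z x)) 0
        (fun _ => 0)
      - val (k := k) (gaussianReal 0 1) (gaussianReal 0 1) (fun z x => 0 + cutF M' (kerFld k q Q z x)) 0
        (fun _ => 0) ≤ gap M (Qm ^ 2 * mom4) := by
  have hM0 : 0 < M := by linarith
  have hM0' : 0 < M' := by linarith
  have hs : 1 ≤ √M := one_le_sqrt.2 hM
  have hsM : 0 < √M := by linarith
  have h0 : LinB lineSize fun (z : Fin k → ℝ) (x : ℝ) => (0 : ℝ) :=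
    linB_field q Q (g := fun _ => (0 : ℝ)) measurable_const (B := 0) fun _ => by simp
  have h := val_gap (γ := gaussianReal 0 1) (μ := gaussianReal 0 1) h0
    (bpot_field q Q (measurable_cutF M') (abs_cutF_le hM0'))
    (bpot_field q Q (measurable_cutF M) (abs_cutF_le hM0))
    (fun z x => cutF_anti hM0 hM' _) (fun z x => (cutF_mem hM0 _).2.1) (M := M / 2)
    (fun z x => (exp_cutF_le hM0 _).trans (add_le_add (exp_le_exp.2 (cutF_mem hM0' _).1) le_rfl))
    (p := 1 / √M) (by positivity) (by rw [div_le_one hsM]; exact hs) (X0 := M / 4) (by positivity)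
    fun _ => 0
  refine h.trans ?_
  have e1 : exp (1 / √M * (M / 4 - M / 2)) / (1 / √M) = √M * exp (-√M / 4) := by
    rw [show 1 / √M * (M / 4 - M / 2) = -√M / 4 from by
      field_simp; nlinarith [sq_sqrt hM0.le]]
    field_simp
  rw [e1, show 1 / (M / 4) = 4 / M by field_simp]
  refine add_le_add le_rfl (mul_le_mul_of_nonneg_left ?_ (by positivity))
  set e : ℝ → ℝ := fun u => cutF M' u ^ 2 with he
  have hec : Continuous e := (contDiff_cutF M' (n := 1)).continuous.pow 2
  have heb : ∀ u, |e u| ≤ (2 * M') ^ 2 := fun u => by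
    rw [he, abs_pow]; exact pow_le_pow_left₀ (abs_nonneg _) (abs_cutF_le hM0' u) 2
  have hl := mean_limit (q := q) (Q := Q) (k := k) (t := 0) (f := fun _ _ => 0) le_rfl hq
    (fun _ => measurable_const) (fun _ => ⟨0, fun _ => by simp⟩) (fun _ _ => le_rfl)
    (fun u => by simp) hec heb
  have heq := tendsto_nhds_unique tendsto_const_nhds hl
  simp only [he] at heq ⊢
  rw [heq]
  have hQ0 : 0 ≤ kQ 0 k q Q :=
    (by simpa [kq_zero] using kq_mono le_rfl hq (Nat.zero_le k) le_rfl : (0 : ℝ) ≤ kq 0 k q Q k).trans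
      (kq_le_kQ le_rfl hq le_rfl)
  have i4 : Integrable (fun x : ℝ => x ^ 4) (gaussianReal 0 1) :=
    (integrable_abs_pow 4).congr (ae_of_all _ fun x => by simp [show Even 4 by decide, Even.pow_abs])
  refine (integral_mono_of_nonneg (ae_of_all _ fun x => sq_nonneg _)
    (i4.const_mul (Qm ^ 2 / 4)) (ae_of_all _ fun x => ?_)).trans ?_
  · obtain ⟨a1, a2, -, -⟩ := cutF_mem hM0' (√(kQ 0 k q Q) * x)
    have hk : kQ 0 k q Q ≤ Qm := (kQ_le le_rfl hq).trans hQ
    rw [mul_pow, sq_sqrt hQ0] at a1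
    have : cutF M' (√(kQ 0 k q Q) * x) ^ 2 ≤ (kQ 0 k q Q * x ^ 2 / 2) ^ 2 :=
      sq_le_sq' (by linarith) (a2.trans (by positivity))
    refine this.trans ?_
    have : kQ 0 k q Q ^ 2 ≤ Qm ^ 2 := pow_le_pow_left₀ hQ0 hk 2
    nlinarith [mul_le_mul_of_nonneg_right this (by positivity : (0 : ℝ) ≤ x ^ 4)]
  · rw [integral_const_mul]
    rw [show (∫ x : ℝ, x ^ 4 ∂gaussianReal 0 1) = mom4 from rfl]
    nlinarith [mul_nonneg (sq_nonneg Qm) mom4_nonneg]

/-- The cut-off recursion is close to the Gaussian one. -/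
theorem end_gap {k : ℕ} {q : ℕ → ℝ} {Q Qm : ℝ} (hq : IsKer k q Q) (hQ : Q ≤ Qm) {M : ℝ} (hM : 1 ≤ M)
    {e : ℝ → ℝ} (he : Continuous e) {B : ℝ} (hB0 : 0 < B) (hB : ∀ u, |e u| ≤ B) {j : ℕ} (hj : j ≤ k) :
    |gamQ k (fun v => cutF M v + M / 2) e q Q j - gTgt e (kq 1 k q Q j) (kQ 1 k q Q)|
      ≤ 4 * B ^ 2 * gap M (Qm ^ 2 * mom4) := by
  have hM0 : 0 < M := by linarith
  set Mn : ℕ → ℝ := fun n => 4 * M + n
  have hMn : ∀ n, 4 * M ≤ Mn n := fun n => le_add_of_nonneg_right (Nat.cast_nonneg n)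
  have hMn0 : ∀ n, 0 < Mn n := fun n => by linarith [hMn n]
  have hlim := gamQ_limit (q := q) (Q := Q) (k := k) (t := 1) (f := fun n => cutF (Mn n)) zero_le_one hq
    (fun n => measurable_cutF _) (fun n => ⟨_, abs_cutF_le (hMn0 n)⟩)
    (fun n u => (cutF_mem (hMn0 n) u).2.1)
    (fun u => by
      refine tendsto_const_nhds.congr' ?_
      obtain ⟨n0, hn0⟩ := exists_nat_ge (u ^ 2)
      filter_upwards [eventually_ge_atTop n0] with n hn
      have : (n0 : ℝ) ≤ n := by exact_mod_cast hn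
      rw [cutF_one (hMn0 n) (by simp only [Mn]; linarith), one_mul])
    he hB hj
  have hH : ∀ {M : ℝ}, 0 < M → LinB lineSize fun (z : Fin k → ℝ) x => cutF M (kerFld k q Q z x) :=
    fun h => linB_field q Q (measurable_cutF _) (abs_cutF_le h)
  have hte : Tame lineSize fun (z : Fin k → ℝ) x => e (kerFld k q Q z x) :=
    Tame.of_bdd (he.measurable.comp (kerFld_le q Q)) fun _ _ => hB _
  have hgam : ∀ {M : ℝ}, 0 < M → gamQ k (cutF M) e q Q j
      = B * cnd (gaussianReal 0 1) (gaussianReal 0 1) (fun z x => cutF M (kerFld k q Q z x))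
        (pairObs (gaussianReal 0 1) (gaussianReal 0 1) (fun z x => cutF M (kerFld k q Q z x))
          (fun (_ : Unit) z x => e (kerFld k q Q z x)) (fun _ z x => e (kerFld k q Q z x) / B) j) 0
          (fun _ => 0) := fun {M} hM => by
    unfold gamQ pairObs
    simp only [Fintype.sum_unique, div_eq_inv_mul, cnd_const_mul]
    rw [← cnd_const_mul]
    have e1 : ∀ (z : Fin k → ℝ) x, B * (e (kerFld k q Q z x) * (B⁻¹ * cnd (gaussianReal 0 1)
          (gaussianReal 0 1) (fun z x => cutF M (kerFld k q Q z x)) (fun z x => e (kerFld k q Q z x)) j z))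
        = cnd (gaussianReal 0 1) (gaussianReal 0 1) (fun z x => cutF M (kerFld k q Q z x))
            (fun z x => e (kerFld k q Q z x)) j z * e (kerFld k q Q z x) := fun z x => by
      field_simp
    simp only [e1]
    conv_rhs => rw [← cnd_tower (hH hM) (Nat.zero_le j)]
    simp only [cnd_pull (cnd_upto j), pow_two]
  have hbd : ∀ n, |gamQ k (cutF M) e q Q j - gamQ k (cutF (Mn n)) e q Q j| ≤ 4 * B ^ 2 * gap M (Qm ^ 2 * mom4) := by
    intro n
    set g1 : (Fin k → ℝ) → ℝ → ℝ := fun z x => cutF M (kerFld k q Q z x)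
    set g0 : (Fin k → ℝ) → ℝ → ℝ := fun z x => cutF (Mn n) (kerFld k q Q z x)
    have hδ : BPot fun z x => g1 z x - g0 z x :=
      ⟨((measurable_cutF M).comp (kerFld_le q Q)).sub ((measurable_cutF _).comp (kerFld_le q Q)),
        2 * M + 2 * Mn n, fun z x => (abs_sub _ _).trans
          (add_le_add (abs_cutF_le hM0 _) (abs_cutF_le (hMn0 n) _))⟩
    have hP : PairData (fun (_ : Unit) z x => e (kerFld k q Q z x))
        (fun _ z x => e (kerFld k q Q z x) / B) B :=
      PairData.of_abs (fun _ => he.measurable.comp (kerFld_le q Q))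
        (fun _ => (he.measurable.comp (kerFld_le q Q)).div_const B) (fun z x => by simpa using hB _)
        fun _ z x => by rw [abs_div, abs_of_pos hB0, div_le_one hB0]; exact hB _
    have h := pair_mono (γ := gaussianReal 0 1) (μ := gaussianReal 0 1)
      (hPath_lin (hH (hMn0 n)) hδ) hB0 hP (fun _ z x => sub_nonneg.2 (cutF_anti hM0 (hMn n) _)) hj
      fun _ => 0
    simp only [g0, g1, one_mul, zero_mul, add_zero, add_sub_cancel] at h
    have hg := field_gap hq hQ hM (hMn n)
    simp only [zero_add] at hg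
    rw [hgam hM0, hgam (hMn0 n), ← mul_sub, abs_mul, abs_of_pos hB0]
    refine (mul_le_mul_of_nonneg_left (h.trans (mul_le_mul_of_nonneg_left hg (by positivity))) hB0.le).trans
      (le_of_eq ?_)
    ring
  have hshift : gamQ k (fun v => cutF M v + M / 2) e q Q j = gamQ k (cutF M) e q Q j := by
    unfold gamQ
    simp only [(shift_const (γ := gaussianReal 0 1) (μ := gaussianReal 0 1) (hH hM0) (M / 2) _ _ _).2]
  rw [hshift]
  exact le_of_tendsto ((tendsto_const_nhds.sub hlim).abs) (Eventually.of_forall hbd)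

end Vale.Agent.P166.Rsb.Energy
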