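import Vale.Agent.P166.Rsb.Energy.Rot
import Vale.Agent.P166.Rsb.FieldAux

/-!
# P166: moments of one coordinate, and removing its small field

A coordinate of a block has bounded exponential moments, because it is a uniform direction of the
block. Its field of small amplitude may be switched off at a cost proportional to the amplitudes.
-/

open MeasureTheory ProbabilityTheory Real Finset Matrix
open Vale.Agent.P157 (cubeLaw)
open Vale.Agent.P157.Rsb (stdG val cnd mass LinB Tame gaussSize cnd_mono cnd_add cnd_sub cnd_const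
  cnd_const_mul cnd_nonneg cnd_finsum cnd_exp_le cnd_tame cnd_tower cnd_abs_le)

namespace Vale.Agent.P166.Rsb.Energy

variable {d N k : ℕ} {β : ℝ} {a : Fin (d + 1) → ℝ} {c : Fin N → Fin (d + 1)} {σ τ : ℕ → ℝ}
  {b : Fin (d + 1)} {j : Fin N} {m : Measure (Fin N → Fin N → ℝ)}

/-- An expectation is linear in the observable. -/
theorem sGib_eq_sum (U : Fin N → Fin N → ℝ) (pot φ : (Fin N → Bool) → ℝ) :
    sGib β a c σ τ k U pot φ
      = ∑ r, φ r * sGib β a c σ τ k U pot (fun s => if s = r then 1 else 0) := by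
  classical
  have hH := potH_linB (k := k) c β a σ τ U pot
  unfold sGib
  simp only [← cnd_const_mul]
  rw [← cnd_finsum hH univ fun r _ => (tame_leaf _).const_mul _]
  congr 1
  funext z s
  simp

theorem sGib_nonneg {U : Fin N → Fin N → ℝ} {pot φ : (Fin N → Bool) → ℝ} (h : ∀ s, 0 ≤ φ s) :
    0 ≤ sGib β a c σ τ k U pot φ :=
  cnd_nonneg (fun _ s => h s) 0 _

theorem sGib_mono {U : Fin N → Fin N → ℝ} {pot φ ψ : (Fin N → Bool) → ℝ} (h : ∀ s, φ s ≤ ψ s) :
    sGib β a c σ τ k U pot φ ≤ sGib β a c σ τ k U pot ψ :=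
  cnd_mono (potH_linB c β a σ τ U pot) (tame_leaf φ) (tame_leaf ψ) (fun _ s => h s) 0 _

theorem sGib_one (U : Fin N → Fin N → ℝ) (pot : (Fin N → Bool) → ℝ) :
    sGib β a c σ τ k U pot (fun _ => 1) = 1 :=
  cnd_const (potH_linB c β a σ τ U pot) 1 0 _

/-- The clipped exponential of the square of a linear functional. -/
noncomputable def expSq (u : ℝ) (N : ℕ) (x : ℝ) : ℝ := exp (u * min (x ^ 2) N)

/-- The exponential moment of a coordinate of a block. -/
theorem exp_moment (hm : IsHaarOrth m) (hj : c j = b) {u : ℝ} (hu : 0 ≤ u)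
    (huN : 12 * u * N ≤ (blk c b).card) :
    Integrable (fun U => sGib β a c σ τ k U (fun _ => 0) fun s => expSq u N (rotate U s j)) m ∧
      ∫ U, sGib β a c σ τ k U (fun _ => 0) (fun s => expSq u N (rotate U s j)) ∂m ≤ 3 := by
  classical
  have := hm.1
  set F : (Fin N → Fin N → ℝ) → (Fin N → ℝ) → ℝ := fun U w =>
    sGib β a c σ τ k U (fun _ => 0) fun s => expSq u N (lin U w s) with hF
  have hes : ∀ s, Measurable fun q : (Fin N → Fin N → ℝ) × (Fin N → ℝ) =>
      expSq u N (lin q.1 q.2 s) := fun s => by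
    unfold expSq; exact ((((measurable_lin s).pow_const 2).min measurable_const).const_mul u).exp
  have hFm : Measurable (Function.uncurry F) :=
    sGib_meas (u := fun q : (Fin N → Fin N → ℝ) × (Fin N → ℝ) => q.1) c β a σ τ measurable_fst
      (fun _ => measurable_const) hes
  have heq : ∀ U w, InBlk c b w → F (mul (hh j w) U) (bas j) = F U w := fun U w hw => by
    simp only [hF, lin_rot hw]
    exact (rot_sys (k := k) β a σ τ hj hw U fun _ => 0).2.1 _
  have hb : ∀ x, 0 ≤ expSq u N x ∧ expSq u N x ≤ exp (u * N) := fun x =>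
    ⟨(exp_pos _).le, exp_le_exp.2 (mul_le_mul_of_nonneg_left (min_le_right _ _) hu)⟩
  obtain ⟨h1, h2, h3, h4⟩ := dir_average hm hj hFm heq (C := exp (u * N)) fun U w _ _ =>
    abs_sGib_le c β a σ τ U _ fun s => by rw [abs_of_nonneg (hb _).1]; exact (hb _).2
  simp only [hF, lin_bas] at h1 h4
  refine ⟨h1, ?_⟩
  rw [h4]
  refine (integral_mono_ae h3 (integrable_const 3) (hm.2.1.mono fun U hU => ?_)).trans_eq
    (by rw [integral_const, probReal_univ, one_smul])
  simp only [hF]
  set n : ℝ := ((blk c b).card : ℝ)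
  set g2 : (Fin N → ℝ) → ℝ := fun g => ∑ i ∈ blk c b, g i ^ 2
  have hn : 1 ≤ n := by
    have : j ∈ blk c b := mem_filter.2 ⟨mem_univ _, hj⟩
    simpa [n, Nat.one_le_cast] using card_pos.2 ⟨j, this⟩
  set v : (Fin N → Bool) → Fin N → ℝ := fun s i => if c i = b then rotate U s i else 0
  have hv : ∀ s (g : Fin N → ℝ), ∑ i, v s i * g i = ∑ i ∈ blk c b, g i * rotate U s i := fun s g => by
    simp only [v, ite_mul, zero_mul, ← sum_filter]
    exact sum_congr rfl fun i _ => mul_comm _ _
  have hv2 : ∀ s, ∑ i, v s i ^ 2 ≤ N := fun s => by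
    refine le_trans (sum_le_sum fun i _ => ?_) (sum_sq_rotate hU s).le
    simp only [v]
    split_ifs
    · exact le_rfl
    · rw [zero_pow two_ne_zero]; exact sq_nonneg _
  have key : ∀ s, Integrable (fun g => expSq u N (lin U (dirV c b j g) s)) (stdG (Fin N)) ∧
      ∫ g, expSq u N (lin U (dirV c b j g) s) ∂stdG (Fin N) ≤ 3 := by
    intro s
    have hle : ∀ g, expSq u N (lin U (dirV c b j g) s)
        ≤ exp (2 * u / n * (∑ i, v s i * g i) ^ 2) + exp (u * N + n / 4) * exp (-g2 g / 2) := by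
      intro g
      set l := lin U (dirV c b j g) s
      rcases le_or_gt (n / 2) (g2 g) with h | h
      · refine le_add_of_le_of_nonneg (exp_le_exp.2 ?_) (by positivity)
        rw [hv, lin_dirV U s g (j := j), mul_pow, Real.sq_sqrt (sum_nonneg fun i _ => sq_nonneg _)]
        calc u * min (l ^ 2) (N : ℝ) ≤ u * l ^ 2 := mul_le_mul_of_nonneg_left (min_le_left _ _) hu
          _ = 2 * u / n * (n / 2 * l ^ 2) := by field_simp
          _ ≤ _ := mul_le_mul_of_nonneg_left (mul_le_mul_of_nonneg_right h (sq_nonneg _)) (by positivity)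
      · refine le_add_of_nonneg_of_le (exp_pos _).le ((hb l).2.trans ?_)
        rw [← exp_add, exp_le_exp]
        simp only [g2] at h ⊢
        linarith
    have ha : 2 * u / n * ∑ i, v s i ^ 2 ≤ 1 / 4 := by
      rw [div_mul_eq_mul_div, div_le_iff₀ (by linarith)]
      nlinarith [mul_le_mul_of_nonneg_left (hv2 s) hu]
    obtain ⟨i1, b1⟩ := dot_sq_exp (ι := Fin N) (v := v s) (by positivity) ha
    obtain ⟨i2, b2⟩ := chi_exp (ι := Fin N) (blk c b)
    have hi := i1.add (i2.const_mul (exp (u * N + n / 4)))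
    have hm1 : Measurable fun g : Fin N → ℝ => (U, dirV c b j g) :=
      measurable_const.prodMk measurable_dirV
    have hm2 : Measurable fun g : Fin N → ℝ => expSq u N (lin U (dirV c b j g) s) :=
      Measurable.comp (g := fun q : (Fin N → Fin N → ℝ) × (Fin N → ℝ) => expSq u N (lin q.1 q.2 s))
        (f := fun g : Fin N → ℝ => (U, dirV c b j g)) (hes s) hm1
    refine ⟨Integrable.of_bound hm2.aestronglyMeasurable (exp (u * N))
        (ae_of_all _ fun g => by rw [norm_eq_abs, abs_of_nonneg (hb _).1]; exact (hb _).2), ?_⟩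
    refine (integral_mono_of_nonneg (ae_of_all _ fun g => (hb _).1) hi (ae_of_all _ hle)).trans ?_
    rw [integral_add' i1 (i2.const_mul _), integral_const_mul, b2, ← exp_add]
    have h2 : exp (u * N + n / 4 + -n * log 2 / 2) ≤ 1 := by
      rw [← exp_zero, exp_le_exp]
      nlinarith [log_two_gt_d9]
    linarith
  rw [show (fun g => sGib β a c σ τ k U (fun _ => 0) fun s => expSq u N (lin U (dirV c b j g) s))
      = fun g => ∑ r, expSq u N (lin U (dirV c b j g) r)
          * sGib β a c σ τ k U (fun _ => 0) (fun s => if s = r then 1 else 0) from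
        funext fun g => sGib_eq_sum U _ _,
    integral_finsetSum _ fun r _ => (key r).1.mul_const _]
  simp only [integral_mul_const]
  refine (sum_le_sum fun r _ => mul_le_mul_of_nonneg_right (key r).2
    (sGib_nonneg fun s => by split_ifs <;> norm_num)).trans (le_of_eq ?_)
  rw [← sGib_eq_sum U (fun _ => 0) fun _ => 3]
  exact cnd_const (potH_linB c β a σ τ U _) 3 0 _

/-- Second and fourth moments and the gain of a small quadratic potential. -/
theorem moments (hm : IsHaarOrth m) (hj : c j = b) {u : ℝ} (hu : 0 < u)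
    (huN : 12 * u * N ≤ (blk c b).card) :
    ∫ U, sGib β a c σ τ k U (fun _ => 0) (fun s => rotate U s j ^ 2) ∂m ≤ 3 / u ∧
    ∫ U, sGib β a c σ τ k U (fun _ => 0) (fun s => rotate U s j ^ 4) ∂m ≤ 6 / u ^ 2 ∧
    ∫ U, (sVal β a c σ τ k U (fun s => u * rotate U s j ^ 2) - sVal β a c σ τ k U fun _ => 0) ∂m
      ≤ 2 := by
  have := hm.1
  obtain ⟨hi, hb⟩ := exp_moment (β := β) (a := a) (σ := σ) (τ := τ) (k := k) hm hj hu.le huN
  have hmin : ∀ U, IsOrth U → ∀ s, expSq u N (rotate U s j) = exp (u * rotate U s j ^ 2) := fun U hU s => by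
    unfold expSq
    rw [min_eq_left]
    have h := abs_lin_le hU (inBlk_bas (c := c) hj).1 s
    rwa [lin_bas] at h
  have h2 : ∀ U, IsOrth U → sGib β a c σ τ k U (fun _ => 0) (fun s => rotate U s j ^ 2)
      ≤ 1 / u * sGib β a c σ τ k U (fun _ => 0) fun s => expSq u N (rotate U s j) := fun U hU => by
    rw [sGib, sGib, ← cnd_const_mul]
    refine cnd_mono (potH_linB c β a σ τ U _) (tame_leaf _) ((tame_leaf _).const_mul _) (fun _ s => ?_) 0 _
    rw [hmin U hU, one_div_mul_eq_div, le_div_iff₀ hu]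
    nlinarith [add_one_le_exp (u * rotate U s j ^ 2)]
  have h4 : ∀ U, IsOrth U → sGib β a c σ τ k U (fun _ => 0) (fun s => rotate U s j ^ 4)
      ≤ 2 / u ^ 2 * sGib β a c σ τ k U (fun _ => 0) fun s => expSq u N (rotate U s j) := fun U hU => by
    rw [sGib, sGib, ← cnd_const_mul]
    refine cnd_mono (potH_linB c β a σ τ U _) (tame_leaf _) ((tame_leaf _).const_mul _) (fun _ s => ?_) 0 _
    rw [hmin U hU, div_mul_eq_mul_div, le_div_iff₀ (by positivity)]
    have h := quadratic_le_exp_of_nonneg (mul_nonneg hu.le (sq_nonneg (rotate U s j)))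
    nlinarith [mul_nonneg hu.le (sq_nonneg (rotate U s j))]
  have hgain : ∀ U, IsOrth U →
      sVal β a c σ τ k U (fun s => u * rotate U s j ^ 2) - sVal β a c σ τ k U (fun _ => 0)
        ≤ (sGib β a c σ τ k U (fun _ => 0) fun s => expSq u N (rotate U s j)) - 1 := fun U hU => by
    have h := exp_dVal_le_cnd (γ := stdG (Fld N)) (μ := cubeLaw N)
      (potH_linB (k := k) c β a σ τ U fun _ => 0) (bpot_leaf fun s => u * rotate U s j ^ 2) fun _ _ => 0
    simp only [hmin U hU]
    refine le_trans (le_of_eq ?_) (sub_le_sub_right ((add_one_le_exp _).trans h) 1)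
    have e : potH (k := k) β a c σ τ U (fun s => u * rotate U s j ^ 2)
        = fun z x => potH (k := k) β a c σ τ U (fun _ => 0) z x + u * rotate U x j ^ 2 := by
      funext z x; simp [potH]
    simp only [dVal, sVal, e]; ring
  have hint : ∀ r : ℝ, Integrable (fun U => r * sGib β a c σ τ k U (fun _ => 0)
      fun s => expSq u N (rotate U s j)) m := fun r => hi.const_mul r
  have hrot : ∀ s, Measurable fun U : Fin N → Fin N → ℝ => rotate U s j := fun s => by
    unfold rotate; fun_prop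
  have hpow : ∀ {p : ℕ} U, IsOrth U → ∀ s, |rotate U s j ^ p| ≤ (1 + N : ℝ) ^ p := fun {p} U hU s => by
    rw [abs_pow]
    refine pow_le_pow_left₀ (abs_nonneg _) ?_ p
    have h := abs_lin_le hU (inBlk_bas (c := c) hj).1 s
    rw [lin_bas] at h
    nlinarith [sq_abs (rotate U s j), abs_nonneg (rotate U s j), sq_nonneg (|rotate U s j| - 1)]
  refine ⟨?_, ?_, ?_⟩
  · refine (integral_mono_of_nonneg (ae_of_all _ fun U => sGib_nonneg fun s => sq_nonneg _) (hint _)
      (hm.2.1.mono h2)).trans ?_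
    rw [integral_const_mul, div_eq_mul_inv 3 u, one_div, mul_comm]
    exact mul_le_mul_of_nonneg_right hb (by positivity)
  · refine (integral_mono_of_nonneg (ae_of_all _ fun U => sGib_nonneg fun s => by positivity) (hint _)
      (hm.2.1.mono h4)).trans ?_
    rw [integral_const_mul, show 6 / u ^ 2 = 2 / u ^ 2 * 3 by ring]
    exact mul_le_mul_of_nonneg_left hb (by positivity)
  · have hI : Integrable (fun U => sVal β a c σ τ k U (fun s => u * rotate U s j ^ 2)
        - sVal β a c σ τ k U fun _ => 0) m := by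
      refine Integrable.of_bound ((sVal_meas (u := fun U => U) c β a σ τ measurable_id
        fun s => ((hrot s).pow_const 2).const_mul u).sub
        (sVal_meas (u := fun U => U) c β a σ τ measurable_id
          (pot := fun _ _ => 0) fun _ => measurable_const)).aestronglyMeasurable (u * (1 + N) ^ 2)
        (hm.2.1.mono fun U hU => ?_)
      rw [norm_eq_abs]
      exact P157.Rsb.val_close (γ := stdG (Fld N)) (μ := cubeLaw N)
        (potH_linB (k := k) c β a σ τ U fun _ => 0)
        (potH_linB (k := k) c β a σ τ U fun s => u * rotate U s j ^ 2)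
        (fun z s => by
          simp only [potH, add_zero, add_sub_cancel_left, abs_mul, abs_of_pos hu]
          exact mul_le_mul_of_nonneg_left (hpow U hU s) hu.le) 0 _
    refine (integral_mono_ae hI (hi.sub (integrable_const 1)) (hm.2.1.mono hgain)).trans ?_
    rw [integral_sub' hi (integrable_const 1), integral_const, probReal_univ, one_smul]
    linarith

/-! ### removing the field of one coordinate -/

variable (β a c σ τ)

/-- The tilt against the last block. -/
noncomputable def tilt (b : Fin (d + 1)) : ℝ := β * (a (Fin.last d) - a b)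

/-- The counts with one coordinate moved to the last block. -/
def moved (i : Fin N) : Fin N → Fin (d + 1) := Function.update c i (Fin.last d)

/-- The potential that undoes the move. -/
noncomputable def undo (i : Fin N) (U : Fin N → Fin N → ℝ) (s : Fin N → Bool) : ℝ :=
  -(tilt β a (c i)) / 2 * rotate U s i ^ 2

/-- The amplitudes without the field of the coordinate. -/
noncomputable def ampOff (i : Fin N) (l : ℕ) (p : Fld N) : ℝ :=
  if p = .inr i then 0 else ampV σ τ l p

/-- The amplitudes of the coordinate alone. -/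
noncomputable def ampOn (i : Fin N) (l : ℕ) (p : Fld N) : ℝ := if p = .inr i then τ l else 0

variable {β a c σ τ}

theorem gham_det_add {D D' : FData (Fld N) (Fin N → Bool)} (s : ℕ → Fld N → ℝ) (hv : D'.v = D.v)
    {g : (Fin N → Bool) → ℝ} (hd : ∀ x, D'.det x = D.det x + g x) (z : Fin k → Fld N → ℝ)
    (x : Fin N → Bool) : gham D' s z x = gham D s z x + g x := by
  simp only [gham, hv, hd]; ring

variable {i : Fin N} (hi : c i ≠ Fin.last d)
include hi

theorem hamU_off (U : Fin N → Fin N → ℝ) (z : Fin k → Fld N → ℝ) (s : Fin N → Bool) :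
    gham (fdata β a (moved c i) U) (ampOff σ τ i) z s + undo β a c i U s
      = hamU β a c σ τ U z s := by
  have e1 : enV a (moved c i) U s
      = enV a c U s + (a (Fin.last d) - a (c i)) * rotate U s i ^ 2 := by
    simp only [enV, moved, ← add_sum_erase _ _ (mem_univ i), Function.update_self]
    rw [sum_congr rfl fun l hl => by rw [Function.update_of_ne (ne_of_mem_erase hl)]]
    ring
  rw [hamU_eq]
  simp only [gham, fdata, undo, tilt, e1]
  have e2 : ∀ (l : Fin k) p, ampOff σ τ i ((l : ℕ) + 1) p * z l p * fldV (moved c i) U s p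
      - ampOff σ τ i ((l : ℕ) + 1) p ^ 2 / 2 * fldV (moved c i) U s p ^ 2
      = ampV σ τ ((l : ℕ) + 1) p * z l p * fldV c U s p
      - ampV σ τ ((l : ℕ) + 1) p ^ 2 / 2 * fldV c U s p ^ 2 := fun l p => by
    rcases p with p | p
    · simp [ampOff, fldV]
    · rcases eq_or_ne p i with h | h
      · subst h; simp [ampOff, fldV, topMask, hi]
      · simp [ampOff, fldV, topMask, moved, h]
  simp only [e2]
  ring

omit hi in
theorem hamU_on (U : Fin N → Fin N → ℝ) :
    gham (k := k) (fdata β a (moved c i) U) (lineAmp (ampOff σ τ i) (ampOn τ i) 1)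
      = hamU β a (moved c i) σ τ U := by
  rw [hamU_eq]
  congr 1
  funext l p
  rcases p with p | p
  · simp [lineAmp, ampOff, ampOn]
  · rcases eq_or_ne p i with h | h
    · subst h; simp [lineAmp, ampOff, ampOn, ampV]
    · simp [lineAmp, ampOff, ampOn, h]

/-- Switching off the field of one coordinate. -/
theorem field_off {A : Type} [Fintype A] {f g : A → (Fin N → Bool) → ℝ} {R : ℝ} (hR : 0 < R)
    (hf : ∀ s s', |∑ p, f p s * g p s'| ≤ R) (hg : ∀ p s, |g p s| ≤ 1) {l : ℕ} (hl : l ≤ k) {u : ℝ} (hu : 0 < u)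
    {ρ : ℝ} (hρ : ∀ l, |τ l| ≤ ρ) (hρ2 : ρ ≤ 1 / 2) (U : Fin N → Fin N → ℝ) :
    |sPair β a (moved c i) σ τ k U (undo β a c i U) l f g - sPair β a c σ τ k U (fun _ => 0) l f g|
      ≤ 4 * R * (k * ρ) * (1 + 2 / u *
          (sVal β a c σ τ k U (fun s => u * rotate U s i ^ 2) - sVal β a c σ τ k U (fun _ => 0)
            + k * ρ ^ 2 / 2 * sGib β a c σ τ k U (fun _ => 0) fun s => rotate U s i ^ 2)) := by
  classical
  have hρ0 : 0 ≤ ρ := (abs_nonneg _).trans (hρ 0)
  set sq : (Fin N → Bool) → ℝ := fun s => rotate U s i ^ 2 with hsq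
  have hBM : ∀ r : ℝ, BMeas fun s => undo β a c i U s + r * sq s := fun r =>
    ⟨measurable_of_countable _, ∑ s, |undo β a c i U s + r * sq s|,
      fun s => single_le_sum (f := fun s => |undo β a c i U s + r * sq s|) (fun _ _ => abs_nonneg _)
        (mem_univ s)⟩
  set D : ℝ → FData (Fld N) (Fin N → Bool) := fun r =>
    (fdata β a (moved c i) U).shift _ (hBM r) 1 with hD
  set s0 := ampOff σ τ i
  set d0 := ampOn τ i
  set H : ℝ → ℝ → (Fin k → Fld N → ℝ) → (Fin N → Bool) → ℝ := fun r θ =>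
    gham ((D r).shift _ bmeas_zero θ) (lineAmp s0 d0 θ) with hH
  have hL : ∀ r θ, LinB (gaussSize (Fld N)) (H r θ) := fun r θ => gham_linB _ _
  have eH : ∀ r θ z x, H r θ z x
      = gham (fdata β a (moved c i) U) (lineAmp s0 d0 θ) z x + (undo β a c i U x + r * sq x) :=
    fun r θ z x => gham_det_add (D := fdata β a (moved c i) U) (D' := (D r).shift _ bmeas_zero θ)
      (g := fun x => undo β a c i U x + r * sq x) (lineAmp s0 d0 θ) rfl
      (fun y => by simp [D, FData.shift]) z x
  have e0 : ∀ r, H r 0 = potH β a c σ τ U fun x => r * sq x := fun r => by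
    funext z x
    rw [eH, show lineAmp s0 d0 0 = s0 by funext l p; simp [lineAmp]]
    simp only [potH, ← hamU_off hi (σ := σ) (τ := τ) U z x, s0]
    ring
  have e1 : ∀ r, H r 1 = potH β a (moved c i) σ τ U fun x => undo β a c i U x + r * sq x := fun r => by
    funext z x
    rw [eH, hamU_on]
    rfl
  have e00 : H 0 0 = potH β a c σ τ U fun _ => 0 := by rw [e0]; simp
  have e10 : H 0 1 = potH β a (moved c i) σ τ U (undo β a c i U) := by rw [e1]; simp
  have hv : ∀ r x, (D r).v x (.inr i) = rotate U x i := fun r x => by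
    simp [D, FData.shift, fdata, fldV, topMask, moved]
  have hamp : ∀ θ (l : Fin k), lineAmp s0 d0 θ ((l : ℕ) + 1) (.inr i) = θ * τ ((l : ℕ) + 1) :=
    fun θ l => by simp [lineAmp, s0, d0, ampOff, ampOn]
  have hd0 : ∀ (F : Fld N → ℝ) (l : Fin k),
      ∑ p, d0 ((l : ℕ) + 1) p * F p = τ ((l : ℕ) + 1) * F (.inr i) := fun F l => by
    simp [d0, ampOn, ite_mul]
  set G : ℝ → ℝ → ℝ := fun r θ => val (stdG (Fld N)) (cubeLaw N) (H r θ) 0 fun _ _ => 0 with hG
  set X : ℝ → ℝ := fun θ => cnd (stdG (Fld N)) (cubeLaw N) (H 0 θ) (fun _ x => sq x) 0 fun _ _ => 0 with hX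
  have hanti : ∀ r, AntitoneOn (G r) (Set.Icc 0 1) := fun r => by
    have hd : ∀ θ, HasDerivAt (G r) _ θ := fun θ =>
      gval_line_deriv (k := k) (cubeLaw N) (D r) s0 d0 bmeas_zero θ
    refine antitoneOn_of_deriv_nonpos (convex_Icc 0 1)
      (fun θ _ => (hd θ).continuousAt.continuousWithinAt) (fun θ _ => (hd θ).differentiableAt.differentiableWithinAt)
      fun θ hθ => ?_
    rw [(hd θ).deriv, groot, cnd_const (gham_linB _ _), zero_sub, neg_nonpos]
    refine sum_nonneg fun l _ => ?_
    simp only [mul_assoc]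
    rw [hd0, hamp]
    rw [interior_Icc] at hθ
    calc (0 : ℝ) ≤ θ * τ ((l : ℕ) + 1) ^ 2 * gtail (cubeLaw N) k ((D r).shift _ bmeas_zero θ)
          (lineAmp s0 d0 θ) (.inr i) ((l : ℕ) + 1) :=
        mul_nonneg (mul_nonneg hθ.1.le (sq_nonneg _)) (mul_nonneg P157.Rsb.mass_pos.le
          (sum_nonneg fun _ _ => gq_nonneg _ _ _ _ _))
      _ = _ := by ring
  have hlow : G 0 0 - k * ρ ^ 2 / 2 * X 0 ≤ G 0 1 := by
    have h := gval_support (k := k) (cubeLaw N) ((D 0).shift _ bmeas_zero 0) ((D 0).shift _ bmeas_zero 1)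
      rfl (lineAmp s0 d0 0) (lineAmp s0 d0 1)
    have ed : ∀ x, ((D 0).shift _ bmeas_zero 1).det x - ((D 0).shift _ bmeas_zero 0).det x = 0 :=
      fun x => by simp [FData.shift]
    simp only [ed] at h
    rw [groot, cnd_const (gham_linB _ _), add_zero] at h
    have hs : -(k * ρ ^ 2 / 2 * X 0) ≤ ∑ l : Fin k, ∑ p,
        ((lineAmp s0 d0 1 ((l : ℕ) + 1) p - lineAmp s0 d0 0 ((l : ℕ) + 1) p) *
            (-lineAmp s0 d0 0 ((l : ℕ) + 1) p * gtail (cubeLaw N) k ((D 0).shift _ bmeas_zero 0)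
              (lineAmp s0 d0 0) p ((l : ℕ) + 1))
          - (lineAmp s0 d0 1 ((l : ℕ) + 1) p - lineAmp s0 d0 0 ((l : ℕ) + 1) p) ^ 2 / 2 *
            groot (k := k) (cubeLaw N) ((D 0).shift _ bmeas_zero 0) (lineAmp s0 d0 0)
              (fun _ x => ((D 0).shift _ bmeas_zero 0).v x p ^ 2)) := by
      have hone : ∀ l : Fin k, ∑ p, ((lineAmp s0 d0 1 ((l : ℕ) + 1) p - lineAmp s0 d0 0 ((l : ℕ) + 1) p) *
            (-lineAmp s0 d0 0 ((l : ℕ) + 1) p * gtail (cubeLaw N) k ((D 0).shift _ bmeas_zero 0)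
              (lineAmp s0 d0 0) p ((l : ℕ) + 1))
          - (lineAmp s0 d0 1 ((l : ℕ) + 1) p - lineAmp s0 d0 0 ((l : ℕ) + 1) p) ^ 2 / 2 *
            groot (k := k) (cubeLaw N) ((D 0).shift _ bmeas_zero 0) (lineAmp s0 d0 0)
              (fun _ x => ((D 0).shift _ bmeas_zero 0).v x p ^ 2)) = -(τ ((l : ℕ) + 1) ^ 2 / 2 * X 0) := by
        intro l
        rw [sum_eq_single (.inr i) (fun p _ hp => by simp [lineAmp, d0, ampOn, hp]) (by simp)]
        simp only [hamp]
        simp [X, H, groot, FData.shift, hv, sq]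
      simp only [hone, sum_neg_distrib, ← sum_mul, ← sum_div, neg_le_neg_iff]
      have hX0 : 0 ≤ X 0 := cnd_nonneg (fun _ x => sq_nonneg _) 0 _
      refine mul_le_mul_of_nonneg_right (div_le_div_of_nonneg_right ?_ zero_le_two) hX0
      refine (sum_le_card_nsmul univ _ (ρ ^ 2) fun l _ => ?_).trans_eq (by simp)
      rw [← sq_abs]; exact pow_le_pow_left₀ (abs_nonneg _) (hρ _) 2
    simp only [G, H] at hs ⊢
    linarith
  set Y := (G u 0 - G 0 0 + k * ρ ^ 2 / 2 * X 0) / u
  have hXle : ∀ θ ∈ Set.Icc (0 : ℝ) 1, X θ ≤ Y := fun θ hθ => by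
    have h := cnd_exp_le (γ := stdG (Fld N)) (μ := cubeLaw N) (hL 0 θ) (hL u θ) 0 fun _ _ => 0
    have e : (fun z x => H u θ z x - H 0 θ z x) = fun (_ : Fin k → Fld N → ℝ) x => u * sq x := by
      funext z x; rw [eH, eH]; ring
    rw [e, cnd_const_mul] at h
    have h1 := hanti u (Set.left_mem_Icc.2 zero_le_one) hθ hθ.1
    have h2 := hanti 0 hθ (Set.right_mem_Icc.2 zero_le_one) hθ.2
    simp only [Y]
    rw [le_div_iff₀ hu]
    simp only [G, X] at h1 h2 hlow ⊢
    linarith
  have hF : HPath (gaussSize (Fld N)) (H 0)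
      (fun θ => gDer ((D 0).shift _ bmeas_zero θ) (lineAmp s0 d0 θ) d0 fun _ => 0) := fun θ =>
    gfamily (D 0) s0 d0 bmeas_zero (Tame.of_bdd measurable_const (B := 0) fun _ _ => by simp) θ
  set dom : ℝ → (Fin k → Fld N → ℝ) → (Fin N → Bool) → ℝ := fun _ z x =>
    ∑ l : Fin k, ρ * (z l (.inr i) * z l (.inr i) / 2 + (1 / 2 + ρ) * sq x)
  have tz : ∀ l : Fin k, Tame (gaussSize (Fld N)) fun (z : Fin k → Fld N → ℝ) (_ : Fin N → Bool) =>
      z l (.inr i) * z l (.inr i) := fun l => (tame_coord l _).mul (tame_coord l _)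
  have tdom1 : ∀ l : Fin k, Tame (gaussSize (Fld N)) fun (z : Fin k → Fld N → ℝ) x =>
      ρ * (z l (.inr i) * z l (.inr i) / 2 + (1 / 2 + ρ) * sq x) := fun l =>
    (((tz l).const_mul (1 / 2)).add ((tame_leaf sq).const_mul (1 / 2 + ρ))).const_mul ρ
      |>.congr fun z x => by ring
  have tdom : ∀ θ, Tame (gaussSize (Fld N)) (dom θ) := fun θ =>
    Tame.sum univ fun l _ => tdom1 l
  have hdle : ∀ θ ∈ Set.Icc (0 : ℝ) 1, ∀ z x,
      |gDer ((D 0).shift _ bmeas_zero θ) (lineAmp s0 d0 θ) d0 (fun _ => 0) z x| ≤ dom θ z x := by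
    intro θ hθ z x
    simp only [gDer, add_zero]
    refine (abs_sum_le_sum_abs _ _).trans (sum_le_sum fun l _ => ?_)
    rw [hd0, hamp, abs_mul, show ((D 0).shift _ bmeas_zero θ).v x (.inr i) = rotate U x i from hv 0 x]
    refine mul_le_mul (hρ _) ((abs_sub _ _).trans ?_) (abs_nonneg _) hρ0
    have h2 : |θ * τ ((l : ℕ) + 1) * rotate U x i ^ 2| ≤ ρ * sq x := by
      rw [abs_mul, abs_of_nonneg (sq_nonneg (rotate U x i))]
      refine mul_le_mul_of_nonneg_right ?_ (sq_nonneg _)
      rw [abs_mul, abs_of_nonneg hθ.1]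
      exact (mul_le_of_le_one_left (abs_nonneg _) hθ.2).trans (hρ _)
    have h3 : |z l (.inr i) * rotate U x i| ≤ z l (.inr i) * z l (.inr i) / 2 + sq x / 2 := by
      rw [abs_mul]
      simp only [sq]
      nlinarith [sq_nonneg (|z l (.inr i)| - |rotate U x i|), sq_abs (z l (.inr i)), sq_abs (rotate U x i)]
    linarith
  have hY : ∀ θ ∈ Set.Icc (0 : ℝ) 1,
      cnd (stdG (Fld N)) (cubeLaw N) (H 0 θ) (dom θ) 0 (fun _ _ => 0) ≤ k * ρ * (1 + 2 * Y) := by
    intro θ hθ
    rw [cnd_finsum (hL 0 θ) _ fun l _ => tdom1 l]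
    refine (sum_le_card_nsmul univ _ (ρ * (1 + 2 * Y)) fun l _ => ?_).trans_eq
      (by rw [card_univ, Fintype.card_fin, nsmul_eq_mul]; ring)
    rw [cnd_const_mul]
    refine mul_le_mul_of_nonneg_left ?_ hρ0
    have ez : (fun (z : Fin k → Fld N → ℝ) (x : Fin N → Bool) =>
        z l (.inr i) * z l (.inr i) / 2 + (1 / 2 + ρ) * sq x)
        = fun z x => 1 / 2 * (z l (.inr i) * z l (.inr i)) + (1 / 2 + ρ) * sq x := by
      funext z x; ring
    rw [ez, cnd_add (hL 0 θ) ((tz l).const_mul _) ((tame_leaf sq).const_mul _), cnd_const_mul,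
      cnd_const_mul]
    have hz : cnd (stdG (Fld N)) (cubeLaw N) (H 0 θ) (fun z _ => z l (.inr i) * z l (.inr i)) 0
        (fun _ _ => 0) ≤ 2 + X θ := by
      set r := θ * τ ((l : ℕ) + 1)
      have hr : |r| ≤ 1 / 2 := by
        rw [abs_mul, abs_of_nonneg hθ.1]
        exact (mul_le_of_le_one_left (abs_nonneg _) hθ.2).trans ((hρ _).trans hρ2)
      set Z := cnd (stdG (Fld N)) (cubeLaw N) (H 0 θ) (fun z _ => z l (.inr i) * z l (.inr i)) 0
        (fun _ _ => 0)
      have tv : Tame (gaussSize (Fld N)) fun (_ : Fin k → Fld N → ℝ) x => r * rotate U x i :=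
        (tame_leaf fun x => rotate U x i).const_mul r
      have tzl : Tame (gaussSize (Fld N)) fun (z : Fin k → Fld N → ℝ) (_ : Fin N → Bool) => z l (.inr i) :=
        tame_coord l _
      have t1 : Tame (gaussSize (Fld N)) fun (_ : Fin k → Fld N → ℝ) (_ : Fin N → Bool) => (1 : ℝ) :=
        Tame.of_bdd measurable_const (B := 1) fun _ _ => by simp
      have tsum : Tame (gaussSize (Fld N)) fun (z : Fin k → Fld N → ℝ) x =>
          |r| / 2 * (z l (.inr i) * z l (.inr i) + sq x) :=
        ((tz l).add (tame_leaf sq)).const_mul _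
      have h := P157.Rsb.cnd_ibp (μ := cubeLaw N) (.inr i) l (hL 0 θ) tzl tv t1
        (fun z x => by
          have h := gham_upd_deriv ((D 0).shift _ bmeas_zero θ) (lineAmp s0 d0 θ) l (.inr i) z x
          rw [hamp, show ((D 0).shift _ bmeas_zero θ).v x (.inr i) = rotate U x i from hv 0 x] at h
          exact h)
        (fun z x => by simpa using hasDerivAt_id' (z l (Sum.inr i)))
        (Nat.zero_le _) fun _ _ => 0
      set E : ℝ := |r| / 2 * (Z + X θ)
      have hab : ∀ (z : Fin k → Fld N → ℝ) x,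
          |z l (.inr i) * (r * rotate U x i)| ≤ |r| / 2 * (z l (.inr i) * z l (.inr i) + sq x) := fun z x => by
        rw [abs_mul, abs_mul, show |r| / 2 * (z l (.inr i) * z l (.inr i) + sq x)
          = |r| * ((z l (.inr i) * z l (.inr i) + sq x) / 2) by ring,
          mul_left_comm]
        refine mul_le_mul_of_nonneg_left ?_ (abs_nonneg r)
        simp only [sq]
        nlinarith [sq_nonneg (|z l (.inr i)| - |rotate U x i|), sq_abs (z l (.inr i)), sq_abs (rotate U x i)]
      have hE : cnd (stdG (Fld N)) (cubeLaw N) (H 0 θ)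
          (fun z x => |r| / 2 * (z l (.inr i) * z l (.inr i) + sq x)) 0 (fun _ _ => 0) = E := by
        rw [cnd_const_mul, cnd_add (hL 0 θ) (tz l) (tame_leaf sq)]
      have hA : cnd (stdG (Fld N)) (cubeLaw N) (H 0 θ)
          (fun z x => 1 + z l (.inr i) * (r * rotate U x i)) 0 (fun _ _ => 0) ≤ 1 + E := by
        rw [cnd_add (hL 0 θ) t1 (tzl.mul tv), cnd_const (hL 0 θ), ← hE]
        refine add_le_add le_rfl (cnd_mono (hL 0 θ) (tzl.mul tv) tsum (fun z x =>
          (le_abs_self _).trans (hab z x)) 0 _)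
      have hB : -E ≤ P157.Rsb.mass k * ∑ n ∈ Icc ((l : ℕ) + 1) k, cnd (stdG (Fld N)) (cubeLaw N) (H 0 θ)
          (fun z _ => cnd (stdG (Fld N)) (cubeLaw N) (H 0 θ) (fun z _ => z l (.inr i)) n z
            * cnd (stdG (Fld N)) (cubeLaw N) (H 0 θ) (fun _ x => r * rotate U x i) n z) 0 (fun _ _ => 0) := by
        have hn : ∀ n ∈ Icc ((l : ℕ) + 1) k, -E ≤ cnd (stdG (Fld N)) (cubeLaw N) (H 0 θ)
            (fun z _ => cnd (stdG (Fld N)) (cubeLaw N) (H 0 θ) (fun z _ => z l (.inr i)) n z
              * cnd (stdG (Fld N)) (cubeLaw N) (H 0 θ) (fun _ x => r * rotate U x i) n z) 0 (fun _ _ => 0) := by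
          intro n _
          rw [← hE, ← cnd_tower (φ := fun (z : Fin k → Fld N → ℝ) (x : Fin N → Bool) => |r| / 2 * (z l (.inr i) * z l (.inr i) + sq x))
            (hL 0 θ) (Nat.zero_le n) _]
          have e : ∀ z : Fin k → Fld N → ℝ, cnd (stdG (Fld N)) (cubeLaw N) (H 0 θ)
              (fun z x => |r| / 2 * (z l (.inr i) * z l (.inr i) + sq x)) n z
              = |r| / 2 * (cnd (stdG (Fld N)) (cubeLaw N) (H 0 θ) (fun z _ => z l (.inr i) * z l (.inr i)) n z
                + cnd (stdG (Fld N)) (cubeLaw N) (H 0 θ) (fun _ x => sq x) n z) := fun z => by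
            rw [cnd_const_mul, cnd_add (hL 0 θ) (tz l) (tame_leaf sq)]
          have tm := (cnd_tame (μ := cubeLaw N) (hL 0 θ) tzl n).mul (cnd_tame (μ := cubeLaw N) (hL 0 θ) tv n)
          have h := cnd_mono (γ := stdG (Fld N)) (μ := cubeLaw N) (hL 0 θ)
            ((cnd_tame (μ := cubeLaw N) (hL 0 θ) tsum n).const_mul (-1)) tm (fun z x => ?_) 0 (fun _ _ => 0)
          · rw [cnd_const_mul] at h
            linarith
          · have ha := P157.Rsb.cnd_sq_le (μ := cubeLaw N) (hL 0 θ) tzl n z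
            have hb2 := P157.Rsb.cnd_sq_le (μ := cubeLaw N) (hL 0 θ) (tame_leaf fun x => rotate U x i) n z
            rw [show (fun (z : Fin k → Fld N → ℝ) (_ : Fin N → Bool) => z l (.inr i) ^ 2)
              = fun z _ => z l (.inr i) * z l (.inr i) from funext fun _ => funext fun _ => pow_two _] at ha
            rw [e, cnd_const_mul]
            set A := cnd (stdG (Fld N)) (cubeLaw N) (H 0 θ) (fun z _ => z l (.inr i)) n z
            set B := cnd (stdG (Fld N)) (cubeLaw N) (H 0 θ) (fun _ x => rotate U x i) n z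
            simp only [sq] at hb2 ⊢
            have h1 : |A * B| ≤ (A ^ 2 + B ^ 2) / 2 := by
              rw [abs_mul]; nlinarith [sq_nonneg (|A| - |B|), sq_abs A, sq_abs B]
            have h3 : |r| * |A * B| ≤ |r| * ((A ^ 2 + B ^ 2) / 2) :=
              mul_le_mul_of_nonneg_left h1 (abs_nonneg r)
            have h4 : -(A * (r * B)) ≤ |r| * |A * B| := by
              rw [← abs_mul, show r * (A * B) = A * (r * B) by ring]; exact neg_le_abs _
            have h5 := mul_le_mul_of_nonneg_left (add_le_add ha hb2) (abs_nonneg r)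
            linarith
        have hE0 : 0 ≤ E := by
          have hZ0 : 0 ≤ Z := cnd_nonneg (fun z _ => mul_self_nonneg _) 0 _
          have hX0 : 0 ≤ X θ := cnd_nonneg (fun _ x => sq_nonneg _) 0 _
          positivity
        have h1 := mul_le_mul_of_nonneg_left (sum_le_sum hn) (P157.Rsb.mass_pos (k := k)).le
        refine le_trans ?_ h1
        rw [sum_const, nsmul_eq_mul, ← mul_assoc, mul_neg, neg_le_neg_iff]
        refine mul_le_of_le_one_left hE0 ?_
        rw [Nat.card_Icc, P157.Rsb.mass, div_mul_eq_mul_div, one_mul, div_le_one (by positivity)]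
        exact_mod_cast Nat.sub_le _ _
      have hEle : E ≤ 1 / 4 * (Z + X θ) :=
        mul_le_mul_of_nonneg_right (by linarith)
          (add_nonneg (cnd_nonneg (fun z _ => mul_self_nonneg _) 0 _)
            (cnd_nonneg (fun _ x => sq_nonneg _) 0 _))
      linarith
    have hX0 : 0 ≤ X θ := cnd_nonneg (fun _ x => sq_nonneg _) 0 _
    have hρX : ρ * X θ ≤ 1 / 2 * X θ := mul_le_mul_of_nonneg_right hρ2 hX0
    have := hXle θ hθ
    simp only [X] at hz hρX hX0 this ⊢
    linarith
  have h := pair_lip (γ := stdG (Fld N)) (μ := cubeLaw N) hF hR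
    (pairData_leaf (k := k) hf hg)
    tdom hdle hl (fun _ _ => 0) hY
  simp only [e00, e10] at h
  refine h.trans (le_of_eq ?_)
  have q1 : G u 0 = sVal β a c σ τ k U fun s => u * sq s := by simp only [G, e0]; rfl
  have q2 : G 0 0 = sVal β a c σ τ k U fun _ => 0 := by simp only [G, e00]; rfl
  have q3 : X 0 = sGib β a c σ τ k U (fun _ => 0) sq := by simp only [X, e00]; rfl
  simp only [Y, q1, q2, q3, hsq]
  ring

end Vale.Agent.P166.Rsb.Energy
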