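import Vale.Agent.P166.Rsb.Pins
import Vale.Agent.P166.Rsb.Energy.Moment
import Vale.Agent.P166.Rsb.Energy.Cut
import Vale.Agent.P166.Rsb.Energy.KerAlg

/-!
# P166: interfaces inside module F

`DirStmt`: a cut-off tilt by one coordinate of the last block gives the Gaussian recursion.
`PointStmt`: at a given perturbation the spin overlaps and the energy are those of the tilted kernels
of the last block, up to the errors of the systems with one coordinate moved to that block.
-/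

open MeasureTheory ProbabilityTheory Real Finset
open Vale.Agent.P157 (cubeLaw)
open Vale.Agent.P157.Rsb (stdG)
open Vale.Agent.P157.Rsb.Slot (rootPair)
open Vale.Agent.P166.Rsb.Slot (GoodObs)

namespace Vale.Agent.P166.Rsb.Energy

variable {d N : ℕ}

/-- The mean of two leaves of the system with a potential. -/
noncomputable def sP (β : ℝ) (a : Fin (d + 1) → ℝ) (c : Fin N → Fin (d + 1)) (σ τ : ℕ → ℝ) (k : ℕ)
    (U : Fin N → Fin N → ℝ) (pot : (Fin N → Bool) → ℝ) (j : ℕ)
    (ψ : (Fin N → Bool) → (Fin N → Bool) → ℝ) : ℝ :=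
  rootPair (stdG (Fld N)) (cubeLaw N) (potH (k := k) β a c σ τ U pot) ψ j fun _ _ => 0

variable (m : Measure (Fin N → Fin N → ℝ)) (k : ℕ) (β : ℝ) (a : Fin (d + 1) → ℝ)
  (c : Fin N → Fin (d + 1)) (σ τ : ℕ → ℝ)

/-- The overlaps of one coordinate of the last block. -/
noncomputable def topK (l : ℕ) : ℝ := qTop m k β a c σ τ l * N / (blk c (Fin.last d)).card

/-- The mean square of one coordinate of the last block. -/
noncomputable def topP : ℝ := pTop m k β a c σ τ * N / (blk c (Fin.last d)).card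

/-- The error of the overlaps inside the last block at level `j`. -/
noncomputable def pairErr (j : ℕ) : ℝ :=
  pairU m k β a c σ τ j fun U x y => |topOv c U x y - qTop m k β a c σ τ j|

/-- The errors of the systems with one coordinate moved to the last block. -/
noncomputable def movedErr : ℝ :=
  (∑ i ∈ univ.filter (fun i => c i ≠ Fin.last d), topErr m k β a (moved c i) σ τ) / N

end Vale.Agent.P166.Rsb.Energy

namespace Vale.Agent.P166.Rsb.Energy

/-- A cut-off tilt by one coordinate of the last block gives the Gaussian recursion. -/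
def DirStmt : Prop :=
  ∀ e : ℝ → ℝ, GoodObs e → ∀ B : ℝ, 0 < B → (∀ u, |e u| ≤ B) → ∀ M : ℝ, 1 ≤ M → ∀ T L₀ : ℝ,
    ∃ C : ℝ, 0 ≤ C ∧ ∀ (d N k : ℕ) (β : ℝ) (a : Fin (d + 1) → ℝ) (c : Fin N → Fin (d + 1))
      (σ τ : ℕ → ℝ) (m : Measure (Fin N → Fin N → ℝ)), IsHaarOrth m → ∀ i, c i = Fin.last d →
      (N : ℝ) ≤ L₀ * (blk c (Fin.last d)).card → ∀ t : ℝ, 0 ≤ t → t ≤ T → ∀ j : ℕ, 1 ≤ j → j ≤ k →
        let q : ℕ → ℝ := fun l => t * topK m k β a c σ τ l
        let Q : ℝ := t * topP m k β a c σ τ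
        |(∫ U, sP β a c σ τ k U (fun s => cutF M (√t * rotate U s i)) j
              (fun x y => e (√t * rotate U x i) * e (√t * rotate U y i)) ∂m)
            - gTgt e (kq 1 k q Q j) (kQ 1 k q Q)|
          ≤ C * (pairErr m k β a c σ τ j + topErr m k β a c σ τ)
            + C / √((blk c (Fin.last d)).card : ℝ) + 4 * B ^ 2 * gap M ((T * L₀) ^ 2 * mom4)

/-- At a given perturbation the tilted kernels of the last block give overlaps and energy. -/
def PointStmt : Prop :=
  ∀ (d : ℕ) (A : Atoms d) (β₀ B ε : ℝ), 0 < β₀ → 0 < ε → ∃ C : ℝ, 0 ≤ C ∧ ∀ k : ℕ, 1 ≤ k →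
    ∃ ρ : ℝ, 0 < ρ ∧ ρ ≤ 1 ∧ ∃ θ : ℝ, 0 < θ ∧ ∃ N₀ : ℕ, ∀ N : ℕ, N₀ ≤ N →
      ∀ (c : Fin N → Fin (d + 1)), Fits A c θ → ∀ (m : Measure (Fin N → Fin N → ℝ)), IsHaarOrth m →
        ∀ β : ℝ, β₀ ≤ β → β ≤ B → ∀ h : ℝ, 0 ≤ h → h ≤ 1 → ∀ σ τ : ℕ → ℝ, (∀ l, |τ l| ≤ ρ) →
          let a := raise A.a h
          let t : Fin (d + 1) → ℝ := fun e => tilt β a e
          let q := topK m k β a c σ τ
          let Q := topP m k β a c σ τ
          let err := ε + C * movedErr m k β a c σ τ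
          IsKer k q Q (2 / A.w (Fin.last d)) ∧
            |1 - ∑ e, A.w e * kQ (t e) k q Q| ≤ err ∧
            P157.Rsb.mass k * ∑ j ∈ Icc 1 k, |qSpin m k β a c σ τ j - ∑ e, A.w e * kq (t e) k q Q j| ≤ err ∧
            |enU m k β a c σ τ - (∑ e, a e * (A.w e * kQ (t e) k q Q)) / 2| ≤ err

end Vale.Agent.P166.Rsb.Energy
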