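import Vale.Agent.P166.Rsb.Cav.KerFacts
import Vale.Agent.P166.Rsb.Energy.Defs

/-!
# P166: a tilt by one coordinate of the last block

A coordinate of the last block is a uniform direction of the block, and this is a row with
independent Gaussian entries, up to its length.  The row may be replaced by a Gaussian field with
the kernel of the overlaps inside the block.
-/

open MeasureTheory ProbabilityTheory Real Finset
open Vale.Agent.P157 (cubeLaw)
open Vale.Agent.P157.Rsb (stdG cnd LinB Tame gaussSize cnd_sub cnd_const cnd_const_mul cnd_tame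
  cnd_abs_le)
open Vale.Agent.P157.Rsb.Slot (rootPair rootPair_eq)
open Vale.Agent.P157.Rsb (sdot)
open Vale.Agent.P166.Rsb.Slot (GoodObs gamQ)

namespace Vale.Agent.P166.Rsb.Energy

variable {d N k : ℕ} {β : ℝ} {a : Fin (d + 1) → ℝ} {c : Fin N → Fin (d + 1)} {σ τ : ℕ → ℝ}
  {m : Measure (Fin N → Fin N → ℝ)}

/-- The overlaps of one coordinate of the last block form a kernel. -/
theorem topK_isKer (hm : IsHaarOrth m) (hn : 0 < (blk c (Fin.last d)).card) :
    IsKer k (topK m k β a c σ τ) (topP m k β a c σ τ) ((N : ℝ) / (blk c (Fin.last d)).card) := by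
  have hN : 1 ≤ N := hn.trans_le (card_finset_fin_le _)
  obtain ⟨h0, h1, -⟩ := isPath_qTop (k := k) β a c hm hN σ τ
  have hn0 : (0 : ℝ) ≤ (blk c (Fin.last d)).card := Nat.cast_nonneg _
  refine ⟨by simp [topK, h0], fun l hl => ?_, ?_, ?_⟩
  · exact div_le_div_of_nonneg_right (mul_le_mul_of_nonneg_right (h1 l hl) (Nat.cast_nonneg N)) hn0
  · exact div_le_div_of_nonneg_right
      (mul_le_mul_of_nonneg_right (qTop_le_pTop β a c hm hN σ τ) (Nat.cast_nonneg N)) hn0
  · exact div_le_div_of_nonneg_right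
      (mul_le_of_le_one_left (Nat.cast_nonneg N) (Syn.pTop_mem β c σ hm τ a).2) hn0

theorem dirP_eq (U : Fin N → Fin N → ℝ) (pot : (Fin N → Bool) → ℝ) (j : ℕ)
    (ψ : (Fin N → Bool) → (Fin N → Bool) → ℝ) :
    sP β a c σ τ k U pot j ψ = cnd (stdG (Fld N)) (cubeLaw N) (potH (k := k) β a c σ τ U pot)
      (fun z x => cnd (stdG (Fld N)) (cubeLaw N) (potH (k := k) β a c σ τ U pot) (fun _ y => ψ x y) j z)
      0 fun _ _ => 0 :=
  rootPair_eq (potH_linB c β a σ τ U pot) ψ j _

theorem sP_eq_sPair (U : Fin N → Fin N → ℝ) (pot : (Fin N → Bool) → ℝ) (j : ℕ)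
    (f g : (Fin N → Bool) → ℝ) :
    sP β a c σ τ k U pot j (fun x y => f x * g y)
      = sPair β a c σ τ k U pot j (fun _ : Unit => f) fun _ => g := by
  rw [dirP_eq]
  simp only [cnd_const_mul, sPair]
  congr 1
  funext z x
  simp [pairObs]

theorem abs_dirP_le (U : Fin N → Fin N → ℝ) (pot : (Fin N → Bool) → ℝ) (j : ℕ)
    {ψ : (Fin N → Bool) → (Fin N → Bool) → ℝ} {R : ℝ} (h : ∀ x y, |ψ x y| ≤ R) :
    |sP β a c σ τ k U pot j ψ| ≤ R :=
  P157.Rsb.abs_root_pair_le (potH_linB c β a σ τ U pot) (measurable_of_countable _) h j _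

theorem dirP_sub (U : Fin N → Fin N → ℝ) (pot : (Fin N → Bool) → ℝ) (j : ℕ)
    (ψ ψ' : (Fin N → Bool) → (Fin N → Bool) → ℝ) :
    sP β a c σ τ k U pot j (fun x y => ψ x y - ψ' x y)
      = sP β a c σ τ k U pot j ψ - sP β a c σ τ k U pot j ψ' := by
  have hH := potH_linB (k := k) c β a σ τ U pot
  have ht : ∀ ψ : (Fin N → Bool) → (Fin N → Bool) → ℝ, Tame (gaussSize (Fld N)) fun z x =>
      cnd (stdG (Fld N)) (cubeLaw N) (potH (k := k) β a c σ τ U pot) (fun _ y => ψ x y) j z := fun ψ =>
    Tame.of_bdd (measurable_from_prod_countable_left fun x =>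
        (cnd_tame hH (tame_leaf (ψ x)) j).meas.comp (f := fun z : Fin k → Fld N → ℝ => (z, x)) (measurable_id.prodMk measurable_const))
      (B := ∑ x, ∑ y, |ψ x y|) fun z x => cnd_abs_le (φ := fun (_ : Fin k → Fld N → ℝ) y => ψ x y) hH
        ((measurable_of_countable _).comp measurable_snd)
        (fun _ y => (single_le_sum (f := fun y => |ψ x y|) (fun _ _ => abs_nonneg _) (mem_univ y)).trans
          (single_le_sum (f := fun x => ∑ y, |ψ x y|) (fun _ _ => sum_nonneg fun _ _ => abs_nonneg _)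
            (mem_univ x))) j z
  simp only [dirP_eq]
  rw [← cnd_sub hH (ht ψ) (ht ψ')]
  congr 1
  funext z x
  exact cnd_sub hH (tame_leaf (ψ x)) (tame_leaf (ψ' x)) j z

/-- The system with a potential and two leaves of an observable of one functional. -/
noncomputable def dirSys (β : ℝ) (a : Fin (d + 1) → ℝ) (c : Fin N → Fin (d + 1)) (σ τ : ℕ → ℝ) (k : ℕ)
    (f e : ℝ → ℝ) (j : ℕ) (U : Fin N → Fin N → ℝ) (v : (Fin N → Bool) → ℝ) : ℝ :=
  sP β a c σ τ k U (fun s => f (v s)) j fun x y => e (v x) * e (v y)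

variable {f e : ℝ → ℝ} {j : ℕ}

theorem dirSys_meas {P : Type} [MeasurableSpace P] (hf : Measurable f) (he : Measurable e)
    {u : P → Fin N → Fin N → ℝ} (hu : Measurable u) {v : P → (Fin N → Bool) → ℝ}
    (hv : ∀ s, Measurable fun p => v p s) :
    Measurable fun p => dirSys β a c σ τ k f e j (u p) (v p) := by
  simp only [dirSys, sP_eq_sPair]
  exact sPair_meas c β a σ τ hu (fun s => hf.comp (hv s)) j (fun _ s => he.comp (hv s))
    fun _ s => he.comp (hv s)

theorem abs_dirSys_le {B : ℝ} (hB : ∀ u, |e u| ≤ B) (U : Fin N → Fin N → ℝ) (v : (Fin N → Bool) → ℝ) :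
    |dirSys β a c σ τ k f e j U v| ≤ B * B :=
  abs_dirP_le U _ j fun x y => by
    rw [abs_mul]
    exact mul_le_mul (hB _) (hB _) (abs_nonneg _) ((abs_nonneg _).trans (hB 0))

/-- A constant in the potential does not matter. -/
theorem dirSys_shift (M : ℝ) (U : Fin N → Fin N → ℝ) (v : (Fin N → Bool) → ℝ) :
    dirSys β a c σ τ k (fun u => f u + M) e j U v = dirSys β a c σ τ k f e j U v := by
  have hH := potH_linB (k := k) c β a σ τ U fun s => f (v s)
  have h : potH (k := k) β a c σ τ U (fun s => f (v s) + M)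
      = fun z x => potH (k := k) β a c σ τ U (fun s => f (v s)) z x + M := by
    funext z x; simp only [potH]; ring
  simp only [dirSys, dirP_eq, h]
  simp only [(shift_const (γ := stdG (Fld N)) (μ := cubeLaw N) hH M _ _ _).2]

/-- A change of scale of the functional. -/
theorem dirSys_scale {B Kf Ke : ℝ} (hB0 : 0 < B) (hB : ∀ u, |e u| ≤ B) (hj : j ≤ k) {r : ℝ}
    (hf : ∀ v, |f (r * v) - f v| ≤ Kf * |r - 1|) (he : ∀ v, |e (r * v) - e v| ≤ Ke * |r - 1|)
    (U : Fin N → Fin N → ℝ) (v : (Fin N → Bool) → ℝ) :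
    |dirSys β a c σ τ k f e j U (fun s => r * v s) - dirSys β a c σ τ k f e j U v|
      ≤ (2 * B * Ke + 4 * B ^ 2 * Kf) * |r - 1| := by
  set p1 : (Fin N → Bool) → ℝ := fun s => f (r * v s)
  set p0 : (Fin N → Bool) → ℝ := fun s => f (v s)
  set ψ0 : (Fin N → Bool) → (Fin N → Bool) → ℝ := fun x y => e (v x) * e (v y)
  set ψ1 : (Fin N → Bool) → (Fin N → Bool) → ℝ := fun x y => e (r * v x) * e (r * v y)
  have h1 : |sP β a c σ τ k U p1 j ψ1 - sP β a c σ τ k U p1 j ψ0| ≤ 2 * B * Ke * |r - 1| := by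
    rw [← dirP_sub]
    refine abs_dirP_le U p1 j fun x y => ?_
    simp only [ψ0, ψ1]
    rw [show e (r * v x) * e (r * v y) - e (v x) * e (v y)
      = e (r * v x) * (e (r * v y) - e (v y)) + (e (r * v x) - e (v x)) * e (v y) by ring]
    refine (abs_add_le _ _).trans ?_
    rw [abs_mul, abs_mul]
    have := mul_le_mul (hB (r * v x)) (he (v y)) (abs_nonneg _) hB0.le
    have := mul_le_mul (he (v x)) (hB (v y)) (abs_nonneg _) ((abs_nonneg _).trans (he (v x)))
    linarith
  have h2 : |sP β a c σ τ k U p1 j ψ0 - sP β a c σ τ k U p0 j ψ0| ≤ 4 * B ^ 2 * Kf * |r - 1| := by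
    have hd : BPot fun (_ : Fin k → Fld N → ℝ) s => p1 s - p0 s := bpot_leaf fun s => p1 s - p0 s
    have hP : PairData (fun (_ : Unit) (_ : Fin k → Fld N → ℝ) s => e (v s))
        (fun _ _ s => e (v s) / B) B :=
      pairData_leaf (fun x y => by
        rw [Fintype.sum_unique, abs_mul, abs_div, abs_of_pos hB0]
        exact (mul_le_mul_of_nonneg_right (hB _) (div_nonneg (abs_nonneg _) hB0.le)).trans
          (by rw [mul_div_cancel₀ _ hB0.ne']; exact hB _))
        fun _ s => by rw [abs_div, abs_of_pos hB0, div_le_one hB0]; exact hB _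
    have h := pair_lip (γ := stdG (Fld N)) (μ := cubeLaw N)
      (hPath_lin (potH_linB (k := k) c β a σ τ U p0) hd) hB0 hP
      (dom := fun _ _ _ => Kf * |r - 1|)
      (fun _ => Tame.of_bdd measurable_const (B := |(Kf * |r - 1|)|) fun _ _ => le_rfl)
      (K := Kf * |r - 1|) (fun s _ z x => hf _) hj (fun _ _ => 0)
      (fun s _ => (cnd_const ((hPath_lin (potH_linB (k := k) c β a σ τ U p0) hd).linB s) _ _ _).le)
    have e1 : (fun z x => potH (k := k) β a c σ τ U p0 z x + 1 * (p1 x - p0 x))
        = potH (k := k) β a c σ τ U p1 := by funext z x; simp only [potH]; ring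
    have e0 : (fun z x => potH (k := k) β a c σ τ U p0 z x + 0 * (p1 x - p0 x))
        = potH (k := k) β a c σ τ U p0 := by funext z x; ring
    simp only [e0, e1] at h
    have es : ∀ p, sP β a c σ τ k U p j ψ0 = B * cnd (stdG (Fld N)) (cubeLaw N)
        (potH (k := k) β a c σ τ U p) (pairObs (stdG (Fld N)) (cubeLaw N) (potH (k := k) β a c σ τ U p)
          (fun (_ : Unit) _ s => e (v s)) (fun _ _ s => e (v s) / B) j) 0 fun _ _ => 0 := fun p => by
      simp only [ψ0, dirP_eq, cnd_const_mul]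
      rw [← cnd_const_mul]
      congr 1
      funext z x
      simp only [pairObs, Fintype.sum_unique, div_eq_inv_mul, cnd_const_mul]
      field_simp
    rw [es, es, ← mul_sub, abs_mul, abs_of_pos hB0]
    refine (mul_le_mul_of_nonneg_left h hB0.le).trans (le_of_eq ?_)
    ring
  have h3 := abs_sub_le (sP β a c σ τ k U p1 j ψ1) (sP β a c σ τ k U p1 j ψ0) (sP β a c σ τ k U p0 j ψ0)
  simp only [dirSys]
  linarith

theorem pairR_nonneg {U : Fin N → Fin N → ℝ} {ψ : (Fin N → Bool) → (Fin N → Bool) → ℝ} {l : ℕ}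
    (h : ∀ x y, 0 ≤ ψ x y) : 0 ≤ pairR β a c U k σ τ l ψ :=
  P157.Rsb.cnd_nonneg (fun _ _ => P157.Rsb.cnd_nonneg
    (fun _ _ => P157.Rsb.cnd_nonneg (fun _ _ => h _ _) _ _) _ _) _ _

theorem dirStmt : DirStmt := by
  intro e he B hB0 hB M hM T L₀
  have hM0 : 0 < M := by linarith
  have hg := good_cutF hM0
  set f : ℝ → ℝ := fun v => cutF M v + M / 2
  have hfb : ∀ v, |f v| ≤ 3 * M := fun v => (abs_add_le _ _).trans (by
    rw [abs_of_pos (half_pos hM0)]; linarith [abs_cutF_le hM0 v])
  obtain ⟨Kf, hKf0, hKf⟩ := exists_scale_lip (e := f) ⟨hg.1.of_le (by norm_num), hg.2.deriv⟩ hfb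
  obtain ⟨Ke, hKe0, hKe⟩ := exists_scale_lip he hB
  obtain ⟨Cp, hCp0, hCp⟩ := Slot.tilt_pair hg he hB
  obtain ⟨Cc, hCc0, hCc⟩ := exists_chi_dev
  set C1 := 2 * B * Ke + 4 * B ^ 2 * Kf
  set C2 := Cp * (2 * (|T| * |L₀|))
  refine ⟨C1 * Cc + C2, by positivity,
    fun d N k β a c σ τ m hm i hi hNL t ht htT j hj1 hjk => ?_⟩
  intro q Q
  have := hm.1
  set n : ℝ := ((blk c (Fin.last d)).card : ℝ) with hn
  have hcard : 0 < (blk c (Fin.last d)).card := card_pos.2 ⟨i, mem_filter.2 ⟨mem_univ _, hi⟩⟩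
  have hn0 : 0 < n := Nat.cast_pos.2 hcard
  have hN : 1 ≤ N := hcard.trans_le (card_finset_fin_le _)
  have hN0 : (0 : ℝ) < N := by exact_mod_cast hN
  set c0 : ℝ := t * N / n with hc0def
  have hc0 : 0 ≤ c0 := by positivity
  have hTL : t * (N / n) ≤ T * L₀ :=
    mul_le_mul htT ((div_le_iff₀ hn0).2 hNL) (by positivity) (ht.trans htT)
  have hc0le : c0 ≤ |T| * |L₀| := by
    rw [hc0def, mul_div_assoc, ← abs_mul]; exact hTL.trans (le_abs_self _)
  obtain ⟨k0, k1, k2, k3⟩ := topK_isKer (k := k) (β := β) (a := a) (σ := σ) (τ := τ) hm hcard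
  have hker : Slot.IsKer k q Q := ⟨by simp [q, k0],
    fun l hl => mul_le_mul_of_nonneg_left (k1 l hl) ht, mul_le_mul_of_nonneg_left k2 ht⟩
  have hQle : Q ≤ T * L₀ := (mul_le_mul_of_nonneg_left k3 ht).trans hTL
  set F : (Fin N → Fin N → ℝ) → (Fin N → ℝ) → ℝ := fun U w =>
    dirSys β a c σ τ k (cutF M) e j U fun s => √t * lin U w s with hF
  have hFm : Measurable (Function.uncurry F) :=
    dirSys_meas (measurable_cutF M) he.1.continuous.measurable measurable_fst
      fun s => (measurable_lin s).const_mul _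
  have heq : ∀ U w, InBlk c (Fin.last d) w → F (mul (hh i w) U) (bas i) = F U w := fun U w hw => by
    simp only [hF, dirSys, lin_rot hw, sP_eq_sPair]
    exact (rot_sys (k := k) β a σ τ hi hw U _).2.2 Unit j _ _
  obtain ⟨-, i2, i3, h4⟩ := dir_average hm hi hFm heq (C := B * B) fun U w _ _ => abs_dirSys_le hB _ _
  have hlhs : ∫ U, F U (bas i) ∂m = ∫ U, sP β a c σ τ k U (fun s => cutF M (√t * rotate U s i)) j
      (fun x y => e (√t * rotate U x i) * e (√t * rotate U y i)) ∂m := by
    simp only [hF, dirSys, lin_bas]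
  rw [← hlhs, h4]
  set Γ := gamQ k f e q Q j
  set E1 : (Fin N → Fin N → ℝ) → ℝ := fun U =>
    pairR β a c U k σ τ j fun x y => |topOv c U x y - qTop m k β a c σ τ j|
  set El : ℕ → (Fin N → Fin N → ℝ) → ℝ := fun l U =>
    pairR β a c U k σ τ l fun x y => |topOv c U x y - qTop m k β a c σ τ l|
  set Ed : (Fin N → Fin N → ℝ) → ℝ := fun U =>
    gibR β a c U k σ τ fun s => |topSq c U s / N - pTop m k β a c σ τ|
  have key : ∀ U, IsOrth U → |∫ g, F U (dirV c (Fin.last d) i g) ∂stdG (Fin N) - Γ|
      ≤ C1 * (Cc / √n) + Cp * c0 * (E1 U + (P157.Rsb.mass k * ∑ l ∈ Icc 0 k, El l U + 2 * Ed U)) := by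
    intro U hU
    set p : (Fin N → Bool) → Fin N → ℝ := fun s l => topMask c l * (√t * rotate U s l / √n)
    let S : Slot.Sys k N (Fld N) (Fin N → Bool) :=
      { H := potH β a c σ τ U fun _ => 0
        H_lin := potH_linB c β a σ τ U _
        p := p
        p_meas := measurable_of_countable _
        p_bdd := ⟨∑ s, ∑ l, |p s l|, sum_nonneg fun _ _ => sum_nonneg fun _ _ => abs_nonneg _,
          fun s l => (single_le_sum (f := fun l => |p s l|) (fun _ _ => abs_nonneg _) (mem_univ l)).trans
            (single_le_sum (f := fun s => ∑ l, |p s l|) (fun _ _ => sum_nonneg fun _ _ => abs_nonneg _)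
              (mem_univ s))⟩
        off := fun _ => 0
        off_meas := measurable_const
        off_bdd := ⟨0, le_rfl, fun _ => by simp⟩ }
    set G : (Fin N → ℝ) → ℝ := fun g => dirSys β a c σ τ k f e j U (S.rowFld g) with hG
    set ρ : (Fin N → ℝ) → ℝ := fun g => √(∑ l ∈ blk c (Fin.last d), g l ^ 2) / √n with hρ
    have hrow : ∀ g s, S.rowFld g s = ρ g * (√t * lin U (dirV c (Fin.last d) i g) s) := fun g s => by
      have e1 : ∑ l, g l * p s l = √t / √n * ∑ l ∈ blk c (Fin.last d), g l * rotate U s l := by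
        rw [mul_sum, blk, sum_filter]
        refine sum_congr rfl fun l _ => ?_
        simp only [p, topMask]
        split_ifs <;> ring
      show ∑ l, g l * p s l + 0 = _
      rw [e1, lin_dirV U s g (j := i), hρ]
      ring
    have hd : ∀ g, |F U (dirV c (Fin.last d) i g) - G g|
        ≤ C1 / n * |∑ l ∈ blk c (Fin.last d), g l ^ 2 - n| := fun g => by
      have h := dirSys_scale (β := β) (a := a) (c := c) (σ := σ) (τ := τ) (f := f) hB0 hB hjk
        (r := ρ g) (hKf _ (by positivity)) (hKe _ (by positivity)) U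
        fun s => √t * lin U (dirV c (Fin.last d) i g) s
      have e1 : F U (dirV c (Fin.last d) i g)
          = dirSys β a c σ τ k f e j U fun s => √t * lin U (dirV c (Fin.last d) i g) s :=
        (dirSys_shift (f := cutF M) (M / 2) U _).symm
      have e2 : G g = dirSys β a c σ τ k f e j U
          fun s => ρ g * (√t * lin U (dirV c (Fin.last d) i g) s) := by
        simp only [hG, ← hrow]
      rw [e1, e2, abs_sub_comm]
      refine h.trans ?_
      have h0 : 0 ≤ ρ g := by positivity
      have hsq : ρ g ^ 2 - 1 = (∑ l ∈ blk c (Fin.last d), g l ^ 2 - n) / n := by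
        rw [hρ]
        simp only [div_pow, Real.sq_sqrt (sum_nonneg fun l _ => sq_nonneg (g l)), Real.sq_sqrt hn0.le]
        field_simp
      have h1 : |ρ g - 1| ≤ |ρ g ^ 2 - 1| := by
        rw [show ρ g ^ 2 - 1 = (ρ g - 1) * (ρ g + 1) by ring, abs_mul]
        exact le_mul_of_one_le_right (abs_nonneg _) (by rw [abs_of_nonneg (by linarith)]; linarith)
      rw [hsq, abs_div, abs_of_pos hn0] at h1
      exact (mul_le_mul_of_nonneg_left h1 (by positivity)).trans (le_of_eq (by ring))
    have hGm : Measurable G := dirSys_meas hg.1.continuous.measurable he.1.continuous.measurable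
      measurable_const fun s => ((Finset.measurable_sum _ fun l _ =>
        (measurable_pi_apply l).mul_const _).add measurable_const)
    have hGi : Integrable G (stdG (Fin N)) :=
      Integrable.of_bound hGm.aestronglyMeasurable (B * B)
        (ae_of_all _ fun g => by rw [norm_eq_abs]; exact abs_dirSys_le hB _ _)
    obtain ⟨ci, cb⟩ := hCc (Fin N) inferInstance (blk c (Fin.last d))
    have hA : |∫ g, F U (dirV c (Fin.last d) i g) ∂stdG (Fin N) - ∫ g, G g ∂stdG (Fin N)|
        ≤ C1 * (Cc / √n) := by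
      rw [← integral_sub (i2 U hU) hGi]
      refine abs_integral_le_integral_abs.trans ((integral_mono ((i2 U hU).sub hGi).abs
        (ci.const_mul (C1 / n)) hd).trans ?_)
      rw [integral_const_mul]
      refine (mul_le_mul_of_nonneg_left cb (by positivity)).trans (le_of_eq ?_)
      rw [← hn]
      field_simp
      rw [Real.sq_sqrt hn0.le]
      ring
    have hend : S.endPair (cubeLaw N) f e q Q (fun _ => 1) (fun _ => 1) j = Γ := by
      obtain ⟨R, Bf, hcpt⟩ := Slot.exists_cpt hg.1.continuous hg.2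
      rw [Slot.Sys.endPair_zero S (cubeLaw N) hcpt (fun _ => rfl) he.1.continuous.measurable hB q Q
        measurable_const measurable_const (R0 := 1) (fun _ => by simp) (fun _ => by simp) j,
        rootPair_eq S.H_lin]
      simp only [mul_one, cnd_const S.H_lin, one_mul]
      rfl
    have hrp : ∀ g, rootPair (stdG (Fld N)) (cubeLaw N) (S.startH f g)
        (fun x y => 1 * e (S.rowFld g x) * (1 * e (S.rowFld g y))) j (fun _ _ => 0) = G g := fun g => by
      simp only [hG, dirSys, sP, one_mul]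
      congr 1
      funext z x
      simp [Slot.Sys.startH, potH, S]
    have hT := hCp k N (Fld N) (Fin N → Bool) inferInstance inferInstance S (cubeLaw N) inferInstance
      q Q hker (fun _ => 1) (fun _ => 1) 1 measurable_const measurable_const (fun _ => by simp)
      (fun _ => by simp) j hjk
    simp only [hrp, hend] at hT
    have hpot : potH (k := k) β a c σ τ U (fun _ => 0) = hamU β a c σ τ U := by
      funext z s; simp [potH]
    have hdot : ∀ x y, sdot (p x) (p y) = c0 * topOv c U x y := fun x y => by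
      have e : c0 * topOv c U x y = t / n * ∑ l, topMask c l * rotate U x l * rotate U y l := by
        rw [hc0def, topOv]; field_simp
      rw [e, sdot, mul_sum]
      refine sum_congr rfl fun l _ => ?_
      simp only [p, topMask]
      split_ifs
      · field_simp
        rw [Real.sq_sqrt ht, Real.sq_sqrt hn0.le]
        ring
      · ring
    have hke : ∀ l, S.kerErr (cubeLaw N) q l
        = c0 * pairR β a c U k σ τ l fun x y => |topOv c U x y - qTop m k β a c σ τ l| := fun l => by
      have e1 : ∀ x y, |sdot (S.p x) (S.p y) - q l| = c0 * |topOv c U x y - qTop m k β a c σ τ l| :=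
        fun x y => by
          rw [show sdot (S.p x) (S.p y) = c0 * topOv c U x y from hdot x y, show q l = c0 * qTop m k β a c σ τ l by
            simp only [q, hc0def, topK, hn]; ring, ← mul_sub, abs_mul, abs_of_nonneg hc0]
      show rootPair _ _ (potH (k := k) β a c σ τ U fun _ => 0) _ _ _ = _
      simp only [e1, hpot]
      exact pairR_mul β a c U σ τ l c0 _
    have hde : S.diagErr (cubeLaw N) Q = c0 * Ed U := by
      have e1 : ∀ x, |sdot (p x) (p x) - Q| = c0 * |topSq c U x / N - pTop m k β a c σ τ| := fun x => by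
        rw [hdot, show topOv c U x x = topSq c U x / N by
            simp only [topOv, topSq]; congr 1; exact sum_congr rfl fun l _ => by ring,
          show Q = c0 * pTop m k β a c σ τ by simp only [Q, hc0def, topP, hn]; ring,
          ← mul_sub, abs_mul, abs_of_nonneg hc0]
      show cnd _ _ (potH (k := k) β a c σ τ U fun _ => 0) (fun _ x => |sdot (p x) (p x) - Q|) _ _ = _
      simp only [e1, hpot, Ed, gibR, cnd_const_mul]
    have hE : S.kerErr (cubeLaw N) q j + S.totK (cubeLaw N) q Q
        = c0 * (E1 U + (P157.Rsb.mass k * ∑ l ∈ Icc 0 k, El l U + 2 * Ed U)) := by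
      simp only [Slot.Sys.totK, hke, hde, ← mul_sum, E1, El]
      ring
    rw [hE] at hT
    have h3 := abs_sub_le (∫ g, F U (dirV c (Fin.last d) i g) ∂stdG (Fin N)) (∫ g, G g ∂stdG (Fin N)) Γ
    rw [one_pow, mul_one, ← mul_assoc] at hT
    linarith
  have iE : ∀ l, Integrable (El l) m := fun l => integrable_of_ae hm
    (pairR_meas β a c σ τ l fun x y => by unfold topOv rotate; fun_prop)
    (C := 1 + |qTop m k β a c σ τ l|) fun U hU => abs_pairR_le β a c U σ τ l fun x y => by
      rw [abs_abs]; exact (abs_sub _ _).trans (add_le_add (abs_topOv_le c U hU x y) le_rfl)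
  have iD : Integrable Ed m := integrable_of_ae hm
    (gibR_meas β a c σ τ fun s => (((continuous_topSq c s).measurable.div_const _).sub_const _).abs)
    (C := 1 + |pTop m k β a c σ τ|) fun U hU => abs_gibR_le β a c U σ τ fun s => by
      rw [abs_abs]
      refine (abs_sub _ _).trans (add_le_add ?_ le_rfl)
      rw [abs_div, Nat.abs_cast, abs_of_nonneg (topSq_nonneg c U s), div_le_one hN0]
      exact topSq_le c U hU s
  have iE1 : Integrable E1 m := iE j
  have iA : Integrable (fun U => P157.Rsb.mass k * ∑ l ∈ Icc 0 k, El l U) m :=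
    (integrable_finsetSum _ fun l _ => iE l).const_mul _
  have iB : Integrable (fun U => 2 * Ed U) m := iD.const_mul 2
  have iAB : Integrable (fun U => P157.Rsb.mass k * ∑ l ∈ Icc 0 k, El l U + 2 * Ed U) m := iA.add iB
  have iS : Integrable (fun U => E1 U + (P157.Rsb.mass k * ∑ l ∈ Icc 0 k, El l U + 2 * Ed U)) m :=
    iE1.add iAB
  have hint : |∫ U, ∫ g, F U (dirV c (Fin.last d) i g) ∂stdG (Fin N) ∂m - Γ|
      ≤ C1 * (Cc / √n) + Cp * c0 * (pairErr m k β a c σ τ j + 2 * topErr m k β a c σ τ) := by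
    have e : ∫ U, ∫ g, F U (dirV c (Fin.last d) i g) ∂stdG (Fin N) ∂m - Γ
        = ∫ U, (∫ g, F U (dirV c (Fin.last d) i g) ∂stdG (Fin N) - Γ) ∂m := by
      rw [integral_sub i3 (integrable_const _), integral_const, probReal_univ, one_smul]
    rw [e]
    refine abs_integral_le_integral_abs.trans ((integral_mono_ae (i3.sub (integrable_const _)).abs
      ((integrable_const _).add (iS.const_mul _)) (hm.2.1.mono key)).trans ?_)
    rw [integral_add' (integrable_const _) (iS.const_mul _), integral_const, probReal_univ, one_smul,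
      integral_const_mul]
    refine add_le_add le_rfl (mul_le_mul_of_nonneg_left ?_ (by positivity))
    rw [integral_add iE1 iAB, integral_add iA iB,
      integral_const_mul, integral_const_mul, integral_finsetSum _ fun l _ => iE l]
    simp only [pairErr, topErr, pairU_eq, gibU_eq, El, Ed, E1]
    have : 0 ≤ P157.Rsb.mass k * ∑ l ∈ Icc 0 k, ∫ U, El l U ∂m := mul_nonneg P157.Rsb.mass_pos.le
      (sum_nonneg fun l _ => integral_nonneg fun U => pairR_nonneg fun _ _ => abs_nonneg _)
    simp only [El] at this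
    linarith
  have hgap : |Γ - gTgt e (kq 1 k q Q j) (kQ 1 k q Q)| ≤ 4 * B ^ 2 * gap M ((T * L₀) ^ 2 * mom4) :=
    end_gap hker hQle hM he.1.continuous hB0 hB hjk
  have p1 : 0 ≤ pairErr m k β a c σ τ j := by
    rw [pairErr, pairU_eq]
    exact integral_nonneg fun U => pairR_nonneg fun _ _ => abs_nonneg _
  have p2 : 0 ≤ topErr m k β a c σ τ := by
    rw [topErr]
    refine add_nonneg (mul_nonneg P157.Rsb.mass_pos.le (sum_nonneg fun l _ => ?_)) ?_
    · rw [pairU_eq]
      exact integral_nonneg fun U => pairR_nonneg fun _ _ => abs_nonneg _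
    · exact integral_nonneg fun U => P157.Rsb.cnd_nonneg (fun _ _ => abs_nonneg _) _ _
  have hfin : C1 * (Cc / √n) + Cp * c0 * (pairErr m k β a c σ τ j + 2 * topErr m k β a c σ τ)
      ≤ (C1 * Cc + C2) * (pairErr m k β a c σ τ j + topErr m k β a c σ τ) + (C1 * Cc + C2) / √n := by
    have a1 : C1 * Cc / √n ≤ (C1 * Cc + C2) / √n :=
      div_le_div_of_nonneg_right (le_add_of_nonneg_right (by positivity)) (Real.sqrt_nonneg _)
    have a2 : Cp * c0 * (pairErr m k β a c σ τ j + 2 * topErr m k β a c σ τ)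
        ≤ C2 * (pairErr m k β a c σ τ j + topErr m k β a c σ τ) :=
      calc _ ≤ Cp * (|T| * |L₀|) * (2 * (pairErr m k β a c σ τ j + topErr m k β a c σ τ)) :=
            mul_le_mul (mul_le_mul_of_nonneg_left hc0le hCp0) (by linarith) (by positivity) (by positivity)
        _ = _ := by ring
    have a3 : 0 ≤ C1 * Cc * (pairErr m k β a c σ τ j + topErr m k β a c σ τ) := by positivity
    rw [← mul_div_assoc]
    linarith
  have := abs_sub_le (∫ U, ∫ g, F U (dirV c (Fin.last d) i g) ∂stdG (Fin N) ∂m) Γ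
    (gTgt e (kq 1 k q Q j) (kQ 1 k q Q))
  linarith

end Vale.Agent.P166.Rsb.Energy
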