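import Vale.Agent.P166.Rsb.Energy.Coord
import Vale.Agent.P166.Rsb.Energy.Dir
import Vale.Agent.P166.Rsb.Energy.Main

/-!
# P166: overlaps and energy at a given perturbation

Coordinates outside the last block are read from the tilted kernel of that block; summing over the
coordinates gives the spin overlaps, the energy and the normalisation.
-/

open MeasureTheory ProbabilityTheory Real Finset Matrix
open Vale.Agent.P157 (cubeLaw)
open Vale.Agent.P157.Rsb (stdG cnd cnd_finsum cnd_const_mul)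

namespace Vale.Agent.P166.Rsb.Energy

variable {d N k : ℕ} {β : ℝ} {a : Fin (d + 1) → ℝ} {c : Fin N → Fin (d + 1)} {σ τ : ℕ → ℝ}
  {U : Fin N → Fin N → ℝ} {pot : (Fin N → Bool) → ℝ} {j : ℕ} {m : Measure (Fin N → Fin N → ℝ)}

/-- The coordinates outside the last block. -/
def offTop (c : Fin N → Fin (d + 1)) : Finset (Fin N) := univ.filter fun i => c i ≠ Fin.last d

theorem sum_split_top (F : Fin N → ℝ) :
    ∑ i, F i = ∑ i ∈ offTop c, F i + ∑ i, topMask c i * F i := by
  rw [offTop, sum_filter, ← sum_add_distrib]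
  refine sum_congr rfl fun i _ => ?_
  rcases eq_or_ne (c i) (Fin.last d) with h | h <;> simp [topMask, h]

theorem spinOv_split {U : Fin N → Fin N → ℝ} (hU : IsOrth U) (x y : Fin N → Bool) :
    spinOv x y = (N : ℝ)⁻¹ * ∑ i ∈ offTop c, rotate U x i * rotate U y i + topOv c U x y := by
  have e : ∑ i, spin (x i) * spin (y i) = ∑ i, rotate U x i * rotate U y i :=
    (app_dot hU (fun i => spin (x i)) fun i => spin (y i)).symm
  rw [spinOv, topOv, e, sum_split_top (c := c) fun i => rotate U x i * rotate U y i, add_div,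
    div_eq_inv_mul]
  simp only [mul_assoc]

theorem sum_sq_split (U : Fin N → Fin N → ℝ) (b : Fin (d + 1) → ℝ) (s : Fin N → Bool) :
    ∑ i, b (c i) * rotate U s i ^ 2
      = ∑ i ∈ offTop c, b (c i) * rotate U s i ^ 2 + b (Fin.last d) * topSq c U s := by
  rw [sum_split_top (c := c) fun i => b (c i) * rotate U s i ^ 2, topSq, mul_sum]
  congr 1
  refine sum_congr rfl fun i _ => ?_
  rcases eq_or_ne (c i) (Fin.last d) with h | h <;> simp [topMask, h]

theorem sP_finsum {ι : Type} (S : Finset ι) (ψ : ι → (Fin N → Bool) → (Fin N → Bool) → ℝ) :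
    sP β a c σ τ k U pot j (fun x y => ∑ p ∈ S, ψ p x y) = ∑ p ∈ S, sP β a c σ τ k U pot j (ψ p) := by
  have hH := potH_linB (k := k) c β a σ τ U pot
  simp only [sP_eq]
  rw [← cnd_finsum hH S fun p _ => tame_inner (ψ p)]
  congr 1
  funext z x
  exact cnd_finsum hH S (fun p _ => tame_leaf (ψ p x)) j z

theorem int_rot_pair (hm : IsHaarOrth m) (i : Fin N) (j : ℕ) :
    Integrable (fun U => sP β a c σ τ k U (fun _ => 0) j fun x y => rotate U x i * rotate U y i) m :=
  int_sP hm (fun _ => measurable_const) (fun x y => (meas_rot x i).mul (meas_rot y i)) (B := N)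
    fun U hU x y => by
      rw [abs_mul]
      nlinarith [sq_rotate_le hU x i, sq_rotate_le hU y i, sq_abs (rotate U x i), sq_abs (rotate U y i),
        sq_nonneg (|rotate U x i| - |rotate U y i|)]

/-- The spin overlaps are the sum over the coordinates. -/
theorem qSpin_split (hm : IsHaarOrth m) (hj : 1 ≤ j) :
    qSpin m k β a c σ τ j = (N : ℝ)⁻¹ * (∑ i ∈ offTop c, ∫ U, sP β a c σ τ k U (fun _ => 0) j
        (fun x y => rotate U x i * rotate U y i) ∂m) + qTop m k β a c σ τ j := by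
  have := hm.1
  have i1 : Integrable (fun U => sP β a c σ τ k U (fun _ => 0) j (topOv c U)) m :=
    int_sP hm (fun _ => measurable_const) (fun x y => by simp only [topOv, rotate]; fun_prop)
      fun U hU x y => abs_topOv_le c U hU x y
  rw [qSpin, if_neg (by omega), qTop, if_neg (by omega), pairU_sP, pairU_sP,
    ← integral_finsetSum _ fun i _ => int_rot_pair hm i j, ← integral_const_mul,
    ← integral_add ((integrable_finsetSum _ fun i _ => int_rot_pair hm i j).const_mul _) i1]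
  refine integral_congr_ae (hm.2.1.mono fun U hU => ?_)
  beta_reduce
  rw [← sP_finsum, ← sP_const_mul]
  have e : (fun x y => spinOv x y) = fun x y =>
      (N : ℝ)⁻¹ * (∑ i ∈ offTop c, rotate U x i * rotate U y i) + topOv c U x y :=
    funext₂ fun x y => spinOv_split hU x y
  rw [e]
  have h := sP_sub (β := β) (a := a) (c := c) (σ := σ) (τ := τ) (k := k) (U := U) (pot := fun _ => 0)
    (j := j) (fun x y => (N : ℝ)⁻¹ * (∑ i ∈ offTop c, rotate U x i * rotate U y i) + topOv c U x y)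
    fun x y => topOv c U x y
  simp only [add_sub_cancel_right] at h
  linarith

/-- An energy is the sum over the coordinates. -/
theorem energy_split (hm : IsHaarOrth m) (b : Fin (d + 1) → ℝ) :
    (∫ U, sGib β a c σ τ k U (fun _ => 0) (fun s => (∑ i, b (c i) * rotate U s i ^ 2) / N) ∂m)
      = (N : ℝ)⁻¹ * (∑ i ∈ offTop c, b (c i) *
          ∫ U, sGib β a c σ τ k U (fun _ => 0) (fun s => rotate U s i ^ 2) ∂m)
        + b (Fin.last d) * pTop m k β a c σ τ := by
  have := hm.1
  have ii : ∀ i, Integrable (fun U => b (c i) *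
      sGib β a c σ τ k U (fun _ => 0) fun s => rotate U s i ^ 2) m :=
    fun i => (int_pow_le hm rfl 2).const_mul _
  have it : Integrable (fun U => b (Fin.last d) *
      sGib β a c σ τ k U (fun _ => 0) fun s => topSq c U s / N) m := by
    refine (Integrable.of_bound (sGib_meas (u := fun U => U) c β a σ τ measurable_id
      (pot := fun _ _ => 0) (fun _ => measurable_const) (φ := fun U s => topSq c U s / N)
      fun s => (continuous_topSq c s).measurable.div_const _).aestronglyMeasurable 1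
      (hm.2.1.mono fun U hU => ?_)).const_mul _
    rw [norm_eq_abs]
    refine abs_sGib_le c β a σ τ U _ fun s => ?_
    rw [abs_of_nonneg (div_nonneg (topSq_nonneg c U s) (Nat.cast_nonneg N))]
    exact div_le_one_of_le₀ (topSq_le c U hU s) (Nat.cast_nonneg N)
  rw [pTop, gibU_sGib]
  simp only [← integral_const_mul]
  rw [← integral_finsetSum _ fun i _ => ii i, ← integral_const_mul,
    ← integral_add ((integrable_finsetSum _ fun i _ => ii i).const_mul _) it]
  refine integral_congr_ae (hm.2.1.mono fun U _ => ?_)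
  have hH := potH_linB (k := k) c β a σ τ U fun _ => 0
  simp only [sGib]
  rw [← cnd_const_mul]
  simp only [← cnd_const_mul]
  rw [← cnd_finsum hH _ fun i _ => (tame_leaf _).const_mul _, ← cnd_const_mul,
    ← P157.Rsb.cnd_add hH ((P157.Rsb.Tame.sum _ fun i _ => (tame_leaf _).const_mul _).const_mul _)
      ((tame_leaf _).const_mul _)]
  congr 1
  funext z s
  rw [sum_sq_split]
  ring

/-- A sum over coordinates against the mixture of the targets. -/
theorem mix_bound {A : Atoms d} {θ Gm : ℝ} (hθ : 0 ≤ θ) (hN : 1 ≤ N) (hF : Fits A c θ)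
    (b G : Fin (d + 1) → ℝ) (hG : ∀ e, |G e| ≤ Gm) (X : Fin N → ℝ) :
    |(N : ℝ)⁻¹ * (∑ i ∈ offTop c, b (c i) * X i)
        + b (Fin.last d) * (((blk c (Fin.last d)).card : ℝ) / N * G (Fin.last d))
        - ∑ e, b e * (A.w e * G e)|
      ≤ (N : ℝ)⁻¹ * (∑ i ∈ offTop c, |b (c i)| * |X i - G (c i)|) + (∑ e, |b e|) * (θ * Gm) := by
  have hN0 : (0 : ℝ) < N := by exact_mod_cast hN
  have h1 : ∑ i, b (c i) * G (c i) = ∑ e, ((blk c e).card : ℝ) * (b e * G e) := by
    rw [← sum_fiberwise_of_maps_to (g := c) (t := univ) (fun _ _ => mem_univ _)]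
    refine sum_congr rfl fun e _ => ?_
    rw [sum_congr rfl fun i hi => by rw [(mem_filter.1 hi).2], sum_const, nsmul_eq_mul]
    rfl
  have h2 : ∑ i ∈ offTop c, b (c i) * G (c i) = ∑ e, ((blk c e).card : ℝ) * (b e * G e)
      - ((blk c (Fin.last d)).card : ℝ) * (b (Fin.last d) * G (Fin.last d)) := by
    rw [← h1, sum_split_top (c := c) fun i => b (c i) * G (c i)]
    have : ∑ i, topMask c i * (b (c i) * G (c i))
        = ((blk c (Fin.last d)).card : ℝ) * (b (Fin.last d) * G (Fin.last d)) := by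
      simp only [topMask, ite_mul, one_mul, zero_mul]
      rw [← sum_filter, sum_congr rfl fun i hi => by rw [(mem_filter.1 hi).2], sum_const, nsmul_eq_mul]
      rfl
    linarith
  have e : (N : ℝ)⁻¹ * (∑ i ∈ offTop c, b (c i) * X i)
        + b (Fin.last d) * (((blk c (Fin.last d)).card : ℝ) / N * G (Fin.last d))
        - ∑ e, b e * (A.w e * G e)
      = (N : ℝ)⁻¹ * (∑ i ∈ offTop c, b (c i) * (X i - G (c i)))
        + ∑ e, b e * ((((blk c e).card : ℝ) - A.w e * N) / N * G e) := by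
    simp only [mul_sub, sum_sub_distrib, h2, sub_div, sub_mul]
    rw [mul_sum (s := univ) (a := (N : ℝ)⁻¹)]
    have q1 : ∀ e, b e * (A.w e * N / N * G e) = b e * (A.w e * G e) := fun e => by field_simp
    have q2 : ∀ e, b e * (((blk c e).card : ℝ) / N * G e) = (N : ℝ)⁻¹ * (((blk c e).card : ℝ) * (b e * G e)) :=
      fun e => by ring
    simp only [q1, q2]
    ring
  rw [e]
  refine (abs_add_le _ _).trans (add_le_add ?_ ?_)
  · rw [abs_mul, abs_inv, Nat.abs_cast]
    refine mul_le_mul_of_nonneg_left ((abs_sum_le_sum_abs _ _).trans (sum_le_sum fun i _ => ?_))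
      (by positivity)
    rw [abs_mul]
  · refine (abs_sum_le_sum_abs _ _).trans ?_
    rw [sum_mul]
    refine sum_le_sum fun e _ => ?_
    rw [abs_mul]
    refine mul_le_mul_of_nonneg_left ?_ (abs_nonneg _)
    rw [abs_mul, abs_div, Nat.abs_cast]
    exact mul_le_mul ((div_le_iff₀ hN0).2 (hF e)) (hG e) (abs_nonneg _) hθ

theorem abs_kq_le {t Q Qm : ℝ} {q : ℕ → ℝ} (ht : 0 ≤ t) (h : IsKer k q Q Qm) (hj : j ≤ k) :
    |kq t k q Q j| ≤ Qm ∧ |kQ t k q Q| ≤ Qm := by
  have hS : Slot.IsKer k q Q := ⟨h.1, h.2.1, h.2.2.1⟩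
  have h0 : 0 ≤ kq t k q Q j := by simpa [kq_zero] using kq_mono ht hS (Nat.zero_le j) hj
  have h1 := kq_le_kQ ht hS hj
  have h2 := (kQ_le ht hS).trans h.2.2.2
  rw [abs_of_nonneg h0, abs_of_nonneg (h0.trans h1)]
  exact ⟨h1.trans h2, h2⟩

/-- The kernel of the enlarged block against that of the block. -/
theorem ker_move {L₀ : ℝ} {n n' X X' : ℝ} (hN : (0 : ℝ) < N) (hn : 0 < n) (hn' : n' = n + 1)
    (hL : (N : ℝ) ≤ L₀ * n) (hX : 0 ≤ X) (hX1 : X ≤ 1) :
    |X' * N / n' - X * N / n| ≤ L₀ * |X - X'| + L₀ ^ 2 / N := by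
  have h1 : 0 < n' := by linarith
  have hL0 : 0 ≤ L₀ := nonneg_of_mul_nonneg_left (hN.le.trans hL) hn
  have hb : (N : ℝ) / n ≤ L₀ := (div_le_iff₀ hn).2 hL
  have hb' : (N : ℝ) / n' ≤ L₀ := (div_le_div_of_nonneg_left hN.le hn (by linarith)).trans hb
  have e : X' * N / n' - X * N / n = -((N / n') * (X - X') + X * ((N / n) * (N / n')) / N) := by
    field_simp
    rw [hn']
    ring
  rw [e, abs_neg]
  refine (abs_add_le _ _).trans (add_le_add ?_ ?_)
  · rw [abs_mul, abs_of_nonneg (by positivity : (0 : ℝ) ≤ N / n')]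
    exact mul_le_mul_of_nonneg_right hb' (abs_nonneg _)
  · rw [abs_of_nonneg (by positivity)]
    refine div_le_div_of_nonneg_right ?_ hN.le
    rw [pow_two]
    exact (mul_le_of_le_one_left (by positivity) hX1).trans
      (mul_le_mul hb hb' (by positivity) hL0)

/-- Module F at a given perturbation. -/
theorem pointStmt : PointStmt := by
  intro d A β₀ B ε hβ₀ hε
  obtain ⟨e₀, -, he₀⟩ := exists_min_image (univ : Finset (Fin (d + 1))) A.w univ_nonempty
  set w₀ := A.w e₀
  have hw₀ : 0 < w₀ := A.w_pos e₀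
  obtain ⟨g, hg, hgap⟩ : ∃ g : ℝ, 0 < g ∧ ∀ e, e ≠ Fin.last d → g ≤ A.top - A.a e := by
    obtain ⟨e₁, -, he₁⟩ := exists_min_image (univ : Finset (Fin (d + 1)))
      (fun e => if e = Fin.last d then 1 else A.top - A.a e) univ_nonempty
    refine ⟨if e₁ = Fin.last d then 1 else A.top - A.a e₁, ?_, fun e he => ?_⟩
    · split_ifs with h
      · exact one_pos
      · exact sub_pos.2 (A.mono (lt_of_le_of_ne (Fin.le_last e₁) h))
    · simpa [he] using he₁ e (mem_univ e)
  set T := max B 0 * (A.top + 1 - A.a 0)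
  have hspan : 0 ≤ A.top + 1 - A.a 0 := by linarith [A.mono.monotone (Fin.zero_le (Fin.last d)), show A.top = A.a (Fin.last d) from rfl]
  have hT : 0 ≤ T := mul_nonneg (le_max_right _ _) hspan
  set u := w₀ / 24 with hu
  set L₀ := 2 / w₀ with hL₀
  have hL₀p : 0 < L₀ := by positivity
  obtain ⟨Cs, hCs, hstab⟩ := exists_tilt_stable T L₀ hT hL₀p.le
  set K := 1 + Cs * (L₀ + L₀ ^ 2) with hKd
  have hK : 1 ≤ K := le_add_of_nonneg_right (by positivity)
  set Wb := (∑ e, |A.a e|) + 2 with hWb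
  have hWb2 : 2 ≤ Wb := le_add_of_nonneg_left (sum_nonneg fun e _ => abs_nonneg _)
  set ε' := ε / (4 * (K * Wb)) with hε'
  have hε'0 : 0 < ε' := by positivity
  obtain ⟨C, hC, hcoord⟩ := coord_est dirStmt (fun d N k β a c σ τ m hm _ hn => topK_isKer hm hn)
    (T := T) (t₀ := β₀ * g) (u := u) (L₀ := L₀) (mul_pos hβ₀ hg) (by positivity) hL₀p hε'0
  refine ⟨K * Wb * C, by positivity, fun k hk => ?_⟩
  obtain ⟨ρ, hρ, hρ2, N₁, hN₁⟩ := hcoord k hk
  set θ := min (w₀ / 2) (ε / (4 * (L₀ * (Wb * (d + 1))))) with hθd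
  have hθ : 0 < θ := lt_min (by positivity) (by positivity)
  obtain ⟨N₂, hN₂⟩ := exists_nat_ge (max 1 (1 / ε'))
  refine ⟨ρ, hρ, hρ2.trans (by norm_num), θ, hθ, max N₁ N₂,
    fun N hN c hF m hm β hβ hβB h hh hh1 σ τ hτ => ?_⟩
  intro a t q Q err
  have hN2 := hN₂.trans (Nat.cast_le.2 ((le_max_right _ _).trans hN) : (N₂ : ℝ) ≤ N)
  have hNr : (1 : ℝ) ≤ N := (le_max_left _ _).trans hN2
  have hN1 : 1 ≤ N := by exact_mod_cast hNr
  have hN0 : (0 : ℝ) < N := by linarith
  have hNε : 1 / (N : ℝ) ≤ ε' := by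
    have := (le_max_right _ _).trans hN2
    rw [div_le_iff₀ hN0]
    rw [div_le_iff₀ hε'0] at this
    linarith
  have hcard : ∀ e, w₀ / 2 * N ≤ ((blk c e).card : ℝ) := fun e => by
    have h1 := (abs_le.1 (hF e)).1
    have h2 := mul_le_mul_of_nonneg_right (min_le_left (w₀ / 2) (ε / (4 * (L₀ * (Wb * (d + 1)))))) hN0.le
    have h3 := mul_le_mul_of_nonneg_right (he₀ e (mem_univ e)) hN0.le
    rw [← hθd] at h2
    simp only [blk]
    linarith
  set nT : ℝ := ((blk c (Fin.last d)).card : ℝ) with hnT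
  have hnT0 : 0 < nT := (mul_pos (by positivity) hN0).trans_le (hcard _)
  have hLn : (N : ℝ) ≤ L₀ * nT := by
    have := mul_le_mul_of_nonneg_left (hcard (Fin.last d)) hL₀p.le
    rw [← mul_assoc, show L₀ * (w₀ / 2) = 1 by rw [hL₀]; field_simp, one_mul] at this
    exact this
  have hker : IsKer k q Q (N / nT) := topK_isKer hm (Nat.cast_pos.1 hnT0)
  have hkerL : IsKer k q Q L₀ :=
    ⟨hker.1, hker.2.1, hker.2.2.1, hker.2.2.2.trans ((div_le_iff₀ hnT0).2 hLn)⟩
  have hkerW : IsKer k q Q (2 / A.w (Fin.last d)) := by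
    refine ⟨hker.1, hker.2.1, hker.2.2.1, hker.2.2.2.trans ?_⟩
    rw [div_le_div_iff₀ hnT0 (A.w_pos _)]
    have h1 := (abs_le.1 (hF (Fin.last d))).1
    have h2 : θ * N ≤ A.w (Fin.last d) / 2 * N := mul_le_mul_of_nonneg_right
      ((min_le_left _ _).trans (by linarith [he₀ (Fin.last d) (mem_univ _)])) hN0.le
    rw [hnT, blk]
    linarith
  have htop : t (Fin.last d) = 0 := by simp [t, tilt]
  have ht : ∀ e, e ≠ Fin.last d → β₀ * g ≤ t e ∧ t e ≤ T := fun e he => by
    simp only [t, a, tilt, raise, if_neg he, if_pos, add_zero]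
    have hge := hgap e he
    have hA : A.top = A.a (Fin.last d) := rfl
    refine ⟨mul_le_mul hβ (by linarith) hg.le (hβ₀.le.trans hβ), ?_⟩
    refine mul_le_mul (hβB.trans (le_max_left _ _)) ?_ (by linarith) (le_max_right _ _)
    linarith [A.mono.monotone (Fin.zero_le e)]
  have ht0 : ∀ e, 0 ≤ t e := fun e => by
    rcases eq_or_ne e (Fin.last d) with he | he
    · rw [he, htop]
    · exact le_trans (by positivity) (ht e he).1
  set Ei : Fin N → ℝ := fun i => K * (ε' + C * topErr m k β a (moved c i) σ τ + 1 / N)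
  have hqT : ∀ j ∈ Icc 1 k, qTop m k β a c σ τ j = nT / N * kq (t (Fin.last d)) k q Q j := fun j hj => by
    rw [htop, kq_tilt_zero hker.1 (mem_Icc.1 hj).2]
    simp only [q, topK, ← hnT]
    field_simp
  have hpT : pTop m k β a c σ τ = nT / N * kQ (t (Fin.last d)) k q Q := by
    rw [htop, kQ_tilt_zero hker.1]
    simp only [Q, topP, ← hnT]
    field_simp
  have hone : ∀ i ∈ offTop c, P157.Rsb.mass k * ∑ j ∈ Icc 1 k, |(∫ U, sP β a c σ τ k U (fun _ => 0) j
        (fun x y => rotate U x i * rotate U y i) ∂m) - kq (t (c i)) k q Q j| ≤ Ei i ∧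
      |(∫ U, sGib β a c σ τ k U (fun _ => 0) (fun s => rotate U s i ^ 2) ∂m) - kQ (t (c i)) k q Q| ≤ Ei i := by
    intro i hi
    have hi : c i ≠ Fin.last d := (mem_filter.1 hi).2
    have hmv : ((blk (moved c i) (Fin.last d)).card : ℝ) = nT + 1 := by rw [blk_moved hi]; push_cast; rfl
    have hu12 : 12 * u * N = w₀ / 2 * N := by rw [hu]; ring
    obtain ⟨hk', r1, r2, r3, r4⟩ := hN₁ d N β a c σ τ m i ((le_max_left _ _).trans hN) hm hi (ht _ hi).1
      (ht _ hi).2 (hu12 ▸ hcard (c i)) (by rw [hu12, hmv]; linarith [hcard (Fin.last d)])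
      (by rw [hmv]; nlinarith) hτ
    set err' := ε' + C * topErr m k β a (moved c i) σ τ
    have herr : 0 ≤ err' := (abs_nonneg _).trans r4
    have hpath := isPath_qTop (k := k) β a c hm hN1 σ τ
    have hmk : 0 ≤ P157.Rsb.mass k := P157.Rsb.mass_pos.le
    have hQd : |topP m k β a (moved c i) σ τ - Q| ≤ L₀ * err' + L₀ ^ 2 / N := by
      simp only [Q, topP]
      obtain ⟨p0, p1⟩ := Syn.pTop_mem (k := k) β c σ hm τ a
      exact (ker_move hN0 hnT0 hmv hLn p0 p1).trans
        (add_le_add (mul_le_mul_of_nonneg_left r4 hL₀p.le) le_rfl)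
    have hqd : P157.Rsb.mass k * ∑ j ∈ Icc 1 k, |topK m k β a (moved c i) σ τ j - q j|
        ≤ L₀ * err' + L₀ ^ 2 / N := by
      refine (mul_le_mul_of_nonneg_left (sum_le_sum
        (g := fun j => L₀ * |qTop m k β a c σ τ j - qTop m k β a (moved c i) σ τ j| + L₀ ^ 2 / N)
        fun j hj => ?_) hmk).trans ?_
      · simp only [q, topK]
        obtain ⟨p0, p1⟩ := P157.Rsb.path_mem hpath (mem_Icc.1 hj).2
        exact ker_move hN0 hnT0 hmv hLn p0 p1
      · rw [sum_add_distrib, mul_add, ← mul_sum, mul_left_comm]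
        exact add_le_add (mul_le_mul_of_nonneg_left r3 hL₀p.le) (mass_const (by positivity) k)
    obtain ⟨s1, s2⟩ := hstab k (t (c i)) (t (c i)) (topK m k β a (moved c i) σ τ) q
      (topP m k β a (moved c i) σ τ) Q (L₀ * err' + L₀ ^ 2 / N) (ht0 _) (ht _ hi).2 (ht0 _) (ht _ hi).2
      hk' hkerL hQd hqd
    rw [sub_self, abs_zero, add_zero] at s1 s2
    have hb : Cs * (L₀ * err' + L₀ ^ 2 / N) + err' ≤ Ei i := by
      have e : Ei i = (err' + 1 / N) + Cs * (L₀ * err' + L₀ ^ 2 / N) + Cs * (L₀ ^ 2 * err' + L₀ / N) := by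
        simp only [Ei, hKd, err']; ring
      have : 0 ≤ Cs * (L₀ ^ 2 * err' + L₀ / N) := by positivity
      have : 0 ≤ 1 / (N : ℝ) := by positivity
      linarith
    refine ⟨?_, ((abs_sub_le _ _ _).trans (add_le_add r2 s1)).trans (by linarith)⟩
    refine le_trans ?_ hb
    refine (mul_le_mul_of_nonneg_left (sum_le_sum fun j _ =>
      abs_sub_le _ (kq (t (c i)) k (topK m k β a (moved c i) σ τ) (topP m k β a (moved c i) σ τ) j) _)
      hmk).trans ?_
    rw [sum_add_distrib, mul_add]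
    exact (add_le_add r1 s2).trans (by linarith)
  have hEi : ∀ i, 0 ≤ Ei i := fun i => by
    have : 0 ≤ topErr m k β a (moved c i) σ τ := topErr_nonneg
    positivity
  have hsumE : (N : ℝ)⁻¹ * ∑ i ∈ offTop c, Ei i ≤ 2 * (K * ε') + K * C * movedErr m k β a c σ τ := by
    simp only [Ei, mul_add, sum_add_distrib, sum_const, nsmul_eq_mul, ← mul_sum]
    have hc : ((offTop c).card : ℝ) / N ≤ 1 := by
      rw [div_le_one hN0]
      exact_mod_cast (card_le_univ _).trans_eq (Fintype.card_fin N)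
    rw [show movedErr m k β a c σ τ = (∑ i ∈ offTop c, topErr m k β a (moved c i) σ τ) / N from rfl]
    have h1 := mul_le_mul_of_nonneg_right hc (by positivity : 0 ≤ K * ε')
    have h2 := mul_le_mul_of_nonneg_right hc (by positivity : 0 ≤ K * (1 / N : ℝ))
    have h3 := mul_le_mul_of_nonneg_left hNε (by linarith : (0 : ℝ) ≤ K)
    ring_nf at h1 h2 h3 ⊢
    linarith
  have hsum : ∀ b : Fin (d + 1) → ℝ, ∀ D : Fin N → ℝ, (∀ i ∈ offTop c, D i ≤ Ei i) → (∀ e, |b e| ≤ Wb) →
      (N : ℝ)⁻¹ * (∑ i ∈ offTop c, |b (c i)| * D i) + (∑ e, |b e|) * (θ * L₀) ≤ err := by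
    intro b D hD hb
    have h1 : (N : ℝ)⁻¹ * (∑ i ∈ offTop c, |b (c i)| * D i) ≤ (N : ℝ)⁻¹ * (Wb * ∑ i ∈ offTop c, Ei i) := by
      refine mul_le_mul_of_nonneg_left ?_ (by positivity)
      rw [mul_sum]
      exact sum_le_sum fun i hi => (mul_le_mul_of_nonneg_left (hD i hi) (abs_nonneg _)).trans
        (mul_le_mul_of_nonneg_right (hb _) (hEi i))
    have h2 : (∑ e, |b e|) * (θ * L₀) ≤ ε / 4 := by
      have h := sum_le_card_nsmul univ (fun e => |b e|) Wb fun e _ => hb e
      rw [card_univ, Fintype.card_fin, nsmul_eq_mul] at h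
      push_cast at h
      have hθ2 := min_le_right (w₀ / 2) (ε / (4 * (L₀ * (Wb * (d + 1)))))
      rw [← hθd, le_div_iff₀ (by positivity)] at hθ2
      refine (mul_le_mul_of_nonneg_right h (by positivity)).trans ?_
      linarith
    have h3 := mul_le_mul_of_nonneg_left hsumE (by linarith : (0 : ℝ) ≤ Wb)
    have h4 : K * Wb * ε' = ε / 4 := by rw [hε']; field_simp
    simp only [err]
    rw [mul_left_comm] at h1
    linarith
  have hW1 : ∀ _e : Fin (d + 1), |(1 : ℝ)| ≤ Wb := fun _ => by rw [abs_one]; linarith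
  refine ⟨hkerW, ?_, ?_, ?_⟩
  · have e := energy_split (β := β) (a := a) (c := c) (σ := σ) (τ := τ) (k := k) hm fun _ => (1 : ℝ)
    have e1 : (∫ U, sGib β a c σ τ k U (fun _ => 0)
        (fun s => (∑ i, (1 : ℝ) * rotate U s i ^ 2) / N) ∂m) = 1 := by
      have := hm.1
      refine (integral_congr_ae (g := fun _ => (1 : ℝ)) (hm.2.1.mono fun U hU => ?_)).trans (by simp)
      simp only [one_mul, sum_sq_rotate hU, div_self hN0.ne', sGib_one]
    rw [e1, hpT] at e
    rw [e]
    have h := mix_bound (A := A) hθ.le hN1 hF (fun _ => (1 : ℝ)) (fun e => kQ (t e) k q Q)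
      (fun e => (abs_kq_le (ht0 e) hkerL le_rfl).2)
      (fun i => ∫ U, sGib β a c σ τ k U (fun _ => 0) (fun s => rotate U s i ^ 2) ∂m)
    refine (le_of_eq ?_).trans (h.trans (hsum (fun _ => 1) _ (fun i hi => (hone i hi).2) hW1))
    simp only [one_mul, ← hnT]
  · have hj : ∀ j ∈ Icc 1 k, |qSpin m k β a c σ τ j - ∑ e, A.w e * kq (t e) k q Q j|
        ≤ (N : ℝ)⁻¹ * (∑ i ∈ offTop c, |(∫ U, sP β a c σ τ k U (fun _ => 0) j
            (fun x y => rotate U x i * rotate U y i) ∂m) - kq (t (c i)) k q Q j|)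
          + (∑ _e : Fin (d + 1), (1 : ℝ)) * (θ * L₀) := fun j hj => by
      rw [qSpin_split hm (mem_Icc.1 hj).1, hqT j hj]
      have h := mix_bound (A := A) hθ.le hN1 hF (fun _ => (1 : ℝ)) (fun e => kq (t e) k q Q j)
        (fun e => (abs_kq_le (ht0 e) hkerL (mem_Icc.1 hj).2).1)
        (fun i => ∫ U, sP β a c σ τ k U (fun _ => 0) j (fun x y => rotate U x i * rotate U y i) ∂m)
      simpa [one_mul, ← hnT] using h
    refine (mul_le_mul_of_nonneg_left (sum_le_sum hj) P157.Rsb.mass_pos.le).trans ?_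
    refine le_trans ?_ (hsum (fun _ => 1) _ (fun i hi => (hone i hi).1) hW1)
    simp only [abs_one, one_mul]
    rw [sum_add_distrib, mul_add, ← mul_sum, sum_comm, mul_left_comm, mul_sum (s := offTop c) (a := P157.Rsb.mass k)]
    exact add_le_add le_rfl (mass_const (by positivity) k)
  · have e := energy_split (β := β) (a := a) (c := c) (σ := σ) (τ := τ) (k := k) hm a
    rw [hpT] at e
    have e1 : enU m k β a c σ τ = (∫ U, sGib β a c σ τ k U (fun _ => 0)
        (fun s => (∑ i, a (c i) * rotate U s i ^ 2) / N) ∂m) / 2 := by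
      rw [enU, gibU_sGib, ← integral_div]
      refine integral_congr_ae (Filter.Eventually.of_forall fun U => ?_)
      beta_reduce
      rw [sGib, sGib, div_eq_inv_mul, ← cnd_const_mul]
      congr 1
      funext z s
      ring
    have h := mix_bound (A := A) hθ.le hN1 hF a (fun e => kQ (t e) k q Q)
      (fun e => (abs_kq_le (ht0 e) hkerL le_rfl).2)
      (fun i => ∫ U, sGib β a c σ τ k U (fun _ => 0) (fun s => rotate U s i ^ 2) ∂m)
    have hb : ∀ e, |a e| ≤ Wb := fun e => by
      have h1 := single_le_sum (f := fun e => |A.a e|) (fun e _ => abs_nonneg _) (mem_univ e)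
      simp only [a, raise]
      refine (abs_add_le _ _).trans ?_
      split_ifs
      · rw [abs_of_nonneg hh]; linarith
      · rw [abs_zero]; linarith
    have h2 := h.trans (hsum a _ (fun i hi => (hone i hi).2) hb)
    rw [← hnT, ← e] at h2
    rw [e1, ← sub_div, abs_div, abs_two, div_le_iff₀ two_pos]
    linarith [(abs_nonneg _).trans h2]

end Vale.Agent.P166.Rsb.Energy
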