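import Vale.Agent.P150.Gauss
import Vale.Agent.P157.Rsb.Defs
import Vale.Agent.P157.Rsb.Gauss

/-!
# P166: squared lengths and dot products of Gaussian vectors
-/

open MeasureTheory ProbabilityTheory Real Finset
open Vale.Agent.P157.Rsb (stdG gauss_quad)

namespace Vale.Agent.P166.Rsb.Energy

variable {ι : Type} [Fintype ι]

/-- A squared length inside a set of `n` coordinates is `n` up to a multiple of `√n`. -/
theorem exists_chi_dev : ∃ C : ℝ, 0 ≤ C ∧ ∀ (ι : Type) (_ : Fintype ι) (s : Finset ι),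
    Integrable (fun g : ι → ℝ => |∑ i ∈ s, g i ^ 2 - (s.card : ℝ)|) (stdG ι) ∧
      ∫ g : ι → ℝ, |∑ i ∈ s, g i ^ 2 - (s.card : ℝ)| ∂stdG ι ≤ C * √(s.card : ℝ) := by
  set X : ℝ → ℝ := fun x => x ^ 2 - 1 with hXd
  refine ⟨Var[X; gaussianReal 0 1] + 1, by linarith [variance_nonneg X (gaussianReal 0 1)],
    fun ι _ s => ?_⟩
  set V := Var[X; gaussianReal 0 1]
  have hV0 : 0 ≤ V := variance_nonneg _ _
  have h2 : MemLp X 2 (gaussianReal 0 1) := by
    refine MemLp.sub ?_ (memLp_const 1)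
    rw [memLp_two_iff_integrable_sq (by fun_prop)]
    have h := (memLp_id_gaussianReal (μ := 0) (v := 1) (4 : NNReal)).integrable_norm_pow (p := 4) (by norm_num)
    refine h.congr (ae_of_all _ fun x => ?_)
    simp only [id, Real.norm_eq_abs]
    rw [← pow_mul, Even.pow_abs (by decide)]
  have mp : ∀ i, MeasurePreserving (fun g : ι → ℝ => g i) (stdG ι) (gaussianReal 0 1) := fun i =>
    measurePreserving_eval (fun _ : ι => gaussianReal 0 1) i
  have hS : MemLp (fun g : ι → ℝ => ∑ i ∈ s, X (g i)) 2 (stdG ι) :=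
    memLp_finsetSum _ fun i _ => h2.comp_measurePreserving (mp i)
  have e : ∀ g : ι → ℝ, ∑ i ∈ s, g i ^ 2 - (s.card : ℝ) = ∑ i ∈ s, X (g i) := fun g => by
    simp [X, sum_sub_distrib]
  have hx0 : ∫ x, X x ∂gaussianReal 0 1 = 0 := by
    have h := variance_id_gaussianReal (μ := 0) (v := 1)
    rw [variance_of_integral_eq_zero (by fun_prop) (by simp)] at h
    have hi : Integrable (fun x : ℝ => x ^ 2) (gaussianReal 0 1) :=
      (memLp_id_gaussianReal' (μ := 0) (v := 1) 2 ENNReal.ofNat_ne_top).integrable_sq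
    simp only [X]
    rw [integral_sub hi (integrable_const _)]
    simpa [sub_eq_zero] using h
  have hmean : ∫ g, ∑ i ∈ s, X (g i) ∂stdG ι = 0 := by
    rw [integral_finsetSum _ fun i _ => show Integrable (fun g : ι → ℝ => X (g i)) (stdG ι) from
      (h2.comp_measurePreserving (mp i)).integrable (by norm_num)]
    refine sum_eq_zero fun i _ => ?_
    have h := integral_map (μ := stdG ι) (φ := fun g : ι → ℝ => g i) (mp i).measurable.aemeasurable
      (f := X) (by fun_prop)
    rw [(mp i).map_eq, hx0] at h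
    exact h.symm
  have hvar : ∫ g, (∑ i ∈ s, X (g i)) ^ 2 ∂stdG ι ≤ s.card * V := by
    rw [← variance_of_integral_eq_zero hS.aemeasurable hmean]
    have hm : ∀ i ∈ s, MemLp (fun g : ι → ℝ => X (g i)) 2 (stdG ι) := fun i _ =>
      h2.comp_measurePreserving (mp i)
    have hind : iIndepFun (fun i (g : ι → ℝ) => X (g i)) (stdG ι) :=
      iIndepFun_pi (μ := fun _ : ι => gaussianReal 0 1) (X := fun _ => X) fun _ =>
        (h2.aestronglyMeasurable).aemeasurable
    rw [show (fun g : ι → ℝ => ∑ i ∈ s, X (g i)) = ∑ i ∈ s, fun g : ι → ℝ => X (g i) by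
      funext g; simp, IndepFun.variance_sum hm fun i _ j _ hij => hind.indepFun hij]
    refine le_of_eq ?_
    have : ∀ i, Var[fun g : ι → ℝ => X (g i); stdG ι] = V := fun i => by
      simp only [V]
      have h := variance_map (μ := stdG ι) (X := X) (Y := fun g : ι → ℝ => g i) (by fun_prop)
        (mp i).measurable.aemeasurable
      rw [(mp i).map_eq] at h
      exact h.symm
    simp [this]
  simp only [e]
  have hi : Integrable (fun g : ι → ℝ => ∑ i ∈ s, X (g i)) (stdG ι) := hS.integrable (by norm_num)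
  refine ⟨hi.abs, ?_⟩
  rcases s.eq_empty_or_nonempty with hs | hs
  · subst hs; simp
  have hn0 : 0 < √(s.card : ℝ) := Real.sqrt_pos.2 (by exact_mod_cast hs.card_pos)
  have hp : ∀ d : ℝ, 2 * |d| ≤ d ^ 2 / √(s.card : ℝ) + √(s.card : ℝ) := fun d => by
    rw [div_add' _ _ _ hn0.ne', le_div_iff₀ hn0]
    nlinarith [sq_nonneg (|d| - √(s.card : ℝ)), sq_abs d]
  have hb := integral_mono (hi.abs.const_mul 2) ((hS.integrable_sq.div_const _).add (integrable_const _))
    fun g => hp (∑ i ∈ s, X (g i))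
  simp only [Pi.add_apply] at hb
  rw [integral_const_mul, integral_add (hS.integrable_sq.div_const _) (integrable_const _),
    integral_div, integral_const, probReal_univ, one_smul] at hb
  have : (∫ g, (∑ i ∈ s, X (g i)) ^ 2 ∂stdG ι) / √(s.card : ℝ) ≤ V * √(s.card : ℝ) := by
    rw [div_le_iff₀ hn0, mul_assoc, Real.mul_self_sqrt (Nat.cast_nonneg _)]; linarith
  nlinarith

/-- The exponential moment of a squared length. -/
theorem chi_exp (s : Finset ι) :
    Integrable (fun g => exp (-(∑ i ∈ s, g i ^ 2) / 2)) (stdG ι) ∧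
      ∫ g, exp (-(∑ i ∈ s, g i ^ 2) / 2) ∂stdG ι = exp (-(s.card : ℝ) * log 2 / 2) := by
  classical
  have e : (fun g : ι → ℝ => exp (-(∑ i ∈ s, g i ^ 2) / 2))
      = fun g => ∏ i, exp (if i ∈ s then -(g i ^ 2 / 2) else 0) := by
    funext g
    rw [← exp_sum, sum_ite_mem, univ_inter, sum_neg_distrib, ← sum_div, neg_div]
  have hone : ∫ x, exp (-(x ^ 2 / 2)) ∂gaussianReal 0 1 = exp (-(log 2) / 2) := by
    have h := gauss_quad (fun _ => 1) (two_pos : (0 : ℝ) < 2) 0
    simp only [one_mul, integral_const, probReal_univ, smul_eq_mul, mul_one, zero_mul, zero_sub] at h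
    norm_num at h
    rw [neg_div, exp_neg, show log 2 / 2 = log (√2) by rw [Real.log_sqrt zero_le_two],
      exp_log (Real.sqrt_pos.2 two_pos)]
    simpa [neg_div] using h
  have hv : ∫ g, exp (-(∑ i ∈ s, g i ^ 2) / 2) ∂stdG ι = exp (-(s.card : ℝ) * log 2 / 2) := by
    rw [e, stdG, integral_fintype_prod_eq_prod (fun (i : ι) (x : ℝ) =>
      exp (if i ∈ s then -(x ^ 2 / 2) else 0))]
    have h1 : ∀ i, ∫ x, exp (if i ∈ s then -(x ^ 2 / 2) else 0) ∂gaussianReal 0 1
        = exp (if i ∈ s then -(log 2) / 2 else 0) := fun i => by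
      split_ifs
      · exact hone
      · simp
    simp only [h1]
    rw [← exp_sum, sum_ite_mem, univ_inter, sum_const, nsmul_eq_mul]
    congr 1; ring
  exact ⟨Integrable.of_integral_ne_zero (by rw [hv]; exact (exp_pos _).ne'), hv⟩

/-- The exponential moment of a squared dot product. -/
theorem dot_sq_exp {v : ι → ℝ} {a : ℝ} (ha : 0 ≤ a) (hv : a * ∑ i, v i ^ 2 ≤ 1 / 4) :
    Integrable (fun g => exp (a * (∑ i, v i * g i) ^ 2)) (stdG ι) ∧
      ∫ g, exp (a * (∑ i, v i * g i) ^ 2) ∂stdG ι ≤ 2 := by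
  set F : (ι → ℝ) × ℝ → ℝ := fun p => exp (∑ i, √(2 * a) * p.2 * v i * p.1 i) with hF
  have hy : ∀ g : ι → ℝ, ∫ y, F (g, y) ∂gaussianReal 0 1 = exp (a * (∑ i, v i * g i) ^ 2) := fun g => by
    have e : (fun y => F (g, y)) = fun y => exp (√(2 * a) * (∑ i, v i * g i) * y) := by
      funext y
      simp only [F]
      rw [mul_sum, sum_mul]
      exact congrArg exp (sum_congr rfl fun i _ => by ring)
    rw [e, show (gaussianReal 0 1 : Measure ℝ) = P150.std from rfl, P150.integral_exp_std, mul_pow,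
      Real.sq_sqrt (by positivity)]
    congr 1; ring
  have hg : ∀ y : ℝ, ∫ g, F (g, y) ∂stdG ι = exp (a * y ^ 2 * ∑ i, v i ^ 2) := fun y => by
    show ∫ g, exp (∑ i, √(2 * a) * y * v i * g i) ∂P150.stdPi ι = _
    rw [P150.integral_exp_dot]
    simp only [mul_pow, ← mul_sum]
    rw [Real.sq_sqrt (by positivity)]
    congr 1; ring
  have hm : Measurable F := by fun_prop
  have h4 : Integrable (fun y : ℝ => exp (y ^ 2 / 4)) (gaussianReal 0 1) ∧
      ∫ y, exp (y ^ 2 / 4) ∂gaussianReal 0 1 ≤ 2 := by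
    have h : ∫ y, exp (y ^ 2 / 4) ∂gaussianReal 0 1 = 1 / √(1 / 2) := by
      have h := gauss_quad (fun _ => 1) (by norm_num : (0 : ℝ) < 1 / 2) 0
      rw [show (fun y : ℝ => exp (y ^ 2 / 4))
        = fun y => 1 * exp (0 * y - (1 / 2 - 1) * y ^ 2 / 2) by funext y; ring_nf, h]
      simp
    refine ⟨Integrable.of_integral_ne_zero ?_, ?_⟩
    · rw [h]; positivity
    · rw [h, div_le_iff₀ (by positivity)]
      nlinarith [Real.le_sqrt_of_sq_le (x := (1 / 2 : ℝ)) (y := 1 / 2) (by norm_num)]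
  have hle : ∀ y : ℝ, exp (a * y ^ 2 * ∑ i, v i ^ 2) ≤ exp (y ^ 2 / 4) := fun y =>
    exp_le_exp.2 (by nlinarith [sq_nonneg y])
  have hint : Integrable F ((stdG ι).prod (gaussianReal 0 1)) := by
    refine (integrable_prod_iff' hm.aestronglyMeasurable).2 ⟨ae_of_all _ fun y => ?_, ?_⟩
    · exact P150.integrable_exp_dot fun i => √(2 * a) * y * v i
    · refine h4.1.mono' ?_ (ae_of_all _ fun y => ?_)
      · exact (hm.norm.stronglyMeasurable.integral_prod_left').aestronglyMeasurable
      · simp only [F, norm_of_nonneg (exp_pos _).le] at hg ⊢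
        rw [hg, norm_of_nonneg (exp_pos _).le]
        exact hle y
  refine ⟨by simpa [hy] using hint.integral_prod_left, ?_⟩
  simp only [← hy]
  rw [integral_integral_swap hint]
  refine le_trans (integral_mono hint.integral_prod_right h4.1 fun y => ?_) h4.2
  dsimp only
  rw [hg]
  exact hle y

end Vale.Agent.P166.Rsb.Energy
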