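import Vale.Agent.P166.Rsb.Energy.Move

/-!
# P166: one coordinate outside the last block

Its overlaps and mean square are those of the tilted kernel of the last block enlarged by it, and that
kernel is close to the one of the last block.
-/

open MeasureTheory ProbabilityTheory Real Finset Filter Topology
open Vale.Agent.P157 (cubeLaw)
open Vale.Agent.P157.Rsb (stdG cnd cnd_const cnd_add cnd_tower cnd_tame)
open Vale.Agent.P166.Rsb.Slot (GoodObs)

namespace Vale.Agent.P166.Rsb.Energy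

/-- The kernel of the last block is a kernel. -/
def TopKerStmt : Prop :=
  ∀ (d N k : ℕ) (β : ℝ) (a : Fin (d + 1) → ℝ) (c : Fin N → Fin (d + 1)) (σ τ : ℕ → ℝ)
    (m : Measure (Fin N → Fin N → ℝ)), IsHaarOrth m → 1 ≤ N → 1 ≤ (blk c (Fin.last d)).card →
      IsKer k (topK m k β a c σ τ) (topP m k β a c σ τ) (N / (blk c (Fin.last d)).card)

theorem kv_scale (r : ℝ) (k : ℕ) (q : ℕ → ℝ) (Q : ℝ) (j : ℕ) :
    kv k (fun l => r * q l) (r * Q) j = r * kv k q Q j := by
  simp only [kv, mul_add, mul_sub, mul_sum]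
  congr 1
  exact sum_congr rfl fun i _ => by ring

theorem kq_scale (t : ℝ) (k : ℕ) (q : ℕ → ℝ) (Q : ℝ) (j : ℕ) :
    kq 1 k (fun l => t * q l) (t * Q) j = t * kq t k q Q j ∧
      kQ 1 k (fun l => t * q l) (t * Q) = t * kQ t k q Q := by
  have hv : ∀ v, tiltV 1 (t * v) = t * tiltV t v := fun v => by simp only [tiltV, one_mul, mul_div_assoc]
  have hj : ∀ j, kq 1 k (fun l => t * q l) (t * Q) j = t * kq t k q Q j := fun j => by
    simp only [kq, kv_scale, hv, mul_sum, ← mul_sub, mul_div_assoc]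
  exact ⟨hj j, by simp only [kQ, hj, kv_scale, hv, mul_add]⟩

/-- The mean of a good observable under the target. -/
theorem gTgt_polar {η : ℝ → ℝ} (hη : Continuous η) {B : ℝ} (hB : ∀ u, |η u| ≤ B) {q Q : ℝ} (hq : 0 ≤ q)
    (hQ : q ≤ Q) :
    gTgt (fun u => η u + 1) q Q - gTgt η q Q - 1 = 2 * ∫ x, η (√Q * x) ∂gaussianReal 0 1 := by
  set mn : ℝ → ℝ := fun y => ∫ x, η (√q * y + √(Q - q) * x) ∂gaussianReal 0 1
  have hc : Continuous mn := (continuous_shift_mean hη hB _).comp (continuous_const.mul continuous_id)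
  have hb : ∀ y, |mn y| ≤ B := fun y => abs_shift_mean_le hB _ _
  have i1 : Integrable mn (gaussianReal 0 1) :=
    Integrable.of_bound hc.aestronglyMeasurable B (ae_of_all _ fun y => (norm_eq_abs _).trans_le (hb y))
  have i2 : Integrable (fun y => mn y ^ 2) (gaussianReal 0 1) :=
    Integrable.of_bound (hc.pow 2).aestronglyMeasurable (B ^ 2) (ae_of_all _ fun y => by
      rw [norm_eq_abs, abs_pow]; exact pow_le_pow_left₀ (abs_nonneg _) (hb y) 2)
  have e1 : ∀ y, (∫ x, η (√q * y + √(Q - q) * x) + 1 ∂gaussianReal 0 1) = mn y + 1 := fun y => by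
    have hi : Integrable (fun x => η (√q * y + √(Q - q) * x)) (gaussianReal 0 1) :=
      Integrable.of_bound (hη.comp (continuous_const.add
        (continuous_const.mul continuous_id))).aestronglyMeasurable B
        (ae_of_all _ fun x => (norm_eq_abs _).trans_le (hB _))
    rw [integral_add hi (integrable_const _)]
    simp [mn]
  have e3 : (fun y => (mn y + 1) ^ 2) = fun y => mn y ^ 2 + (2 * mn y + 1) := by funext y; ring
  have i3 : Integrable (fun y => 2 * mn y + 1) (gaussianReal 0 1) :=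
    (i1.const_mul 2).add (integrable_const 1)
  have hm := merge hη hB 0 (√q) (√(Q - q))
  simp only [zero_add, sq_sqrt hq, sq_sqrt (sub_nonneg.2 hQ), add_sub_cancel] at hm
  simp only [gTgt, e1]
  rw [e3, integral_add i2 i3, integral_add (i1.const_mul 2) (integrable_const _), integral_const_mul,
    integral_const, probReal_univ, one_smul, ← hm]
  simp only [mn]
  ring

theorem mass_const {r : ℝ} (hr : 0 ≤ r) (k : ℕ) : P157.Rsb.mass k * ∑ _j ∈ Icc 1 k, r ≤ r := by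
  rw [sum_const, Nat.card_Icc, nsmul_eq_mul, P157.Rsb.mass, Nat.add_sub_cancel, ← mul_assoc,
    one_div_mul_eq_div]
  refine mul_le_of_le_one_left hr ?_
  rw [div_le_one (by positivity)]
  linarith

theorem le_mass_avg {D : ℝ} (hD : 0 ≤ D) {k : ℕ} (hk : 1 ≤ k) :
    D ≤ 2 * (P157.Rsb.mass k * ∑ _j ∈ Icc 1 k, D) := by
  rw [sum_const, Nat.card_Icc, nsmul_eq_mul, P157.Rsb.mass, Nat.add_sub_cancel, ← mul_assoc,
    ← mul_assoc, mul_one_div, div_mul_eq_mul_div, div_mul_eq_mul_div, le_div_iff₀ (by positivity)]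
  have : (1 : ℝ) ≤ k := by exact_mod_cast hk
  nlinarith

theorem swErr_le {u T M ρ δ : ℝ} {k : ℕ} (hu : 0 < u) (hρ : 0 ≤ ρ) (hρ2 : ρ ≤ 1 / 2) (hkρ : k * ρ ≤ δ)
    (hδ1 : δ ≤ 1) :
    swErr u T M k ρ ≤ 4 * δ * (1 + 2 / u * (2 + 3 / u)) + 4 * gap M (T ^ 2 / 4 * (6 / u ^ 2)) := by
  have h0 : 0 ≤ (k : ℝ) * ρ := by positivity
  have h2 : (k : ℝ) * ρ ^ 2 / 2 ≤ 1 := by nlinarith
  rw [swErr, mul_add, mul_assoc 4 δ]
  refine add_le_add (mul_le_mul_of_nonneg_left ?_ (by norm_num)) le_rfl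
  refine mul_le_mul hkρ ?_ (by positivity) (h0.trans hkρ)
  refine add_le_add le_rfl (mul_le_mul_of_nonneg_left (add_le_add le_rfl ?_) (by positivity))
  exact mul_le_of_le_one_left (by positivity) h2

variable {d N k : ℕ} {β : ℝ} {a : Fin (d + 1) → ℝ} {c : Fin N → Fin (d + 1)} {σ τ : ℕ → ℝ}
  {U : Fin N → Fin N → ℝ} {pot : (Fin N → Bool) → ℝ} {j : ℕ} {m : Measure (Fin N → Fin N → ℝ)}
  {i : Fin N}

theorem sP_sep (φ : (Fin N → Bool) → ℝ) :
    sP β a c σ τ k U pot j (fun x y => φ x + φ y) = 2 * sGib β a c σ τ k U pot φ := by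
  have hH := potH_linB (k := k) c β a σ τ U pot
  rw [sP_eq]
  have e : (fun (z : Fin k → Fld N → ℝ) x => cnd (stdG (Fld N)) (cubeLaw N) (potH β a c σ τ U pot)
      (fun _ y => φ x + φ y) j z) = fun z x => φ x + cnd (stdG (Fld N)) (cubeLaw N)
      (potH β a c σ τ U pot) (fun _ y => φ y) j z := by
    funext z x
    rw [cnd_add hH (tame_leaf fun _ => φ x) (tame_leaf φ), cnd_const hH]
  rw [e, cnd_add hH (tame_leaf φ) (cnd_tame hH (tame_leaf φ) j), cnd_tower hH (Nat.zero_le j), sGib]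
  ring

theorem pairErr_nonneg (j : ℕ) : 0 ≤ pairErr m k β a c σ τ j := by
  rw [pairErr, pairU_sP]
  exact integral_nonneg fun U => (sP_const (0 : ℝ)).symm.le.trans (sP_mono fun _ _ => abs_nonneg _)

theorem mass_pairErr_le : P157.Rsb.mass k * ∑ j ∈ Icc 1 k, pairErr m k β a c σ τ j
    ≤ topErr m k β a c σ τ := by
  have h : P157.Rsb.mass k * ∑ j ∈ Icc 1 k, pairErr m k β a c σ τ j
      ≤ P157.Rsb.mass k * ∑ j ∈ Icc 0 k, pairErr m k β a c σ τ j :=
    mul_le_mul_of_nonneg_left (sum_le_sum_of_subset_of_nonneg (Icc_subset_Icc_left (Nat.zero_le 1))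
      fun j _ _ => pairErr_nonneg j) P157.Rsb.mass_pos.le
  refine h.trans (le_add_of_nonneg_right ?_)
  rw [gibU_sGib]
  exact integral_nonneg fun U => sGib_nonneg fun s => abs_nonneg _

theorem topErr_nonneg : 0 ≤ topErr m k β a c σ τ :=
  le_trans (mul_nonneg P157.Rsb.mass_pos.le (sum_nonneg fun j _ => pairErr_nonneg j)) mass_pairErr_le

/-- A bounded observable of one coordinate against its target. -/
theorem coord_obs (hdir : DirStmt) {e : ℝ → ℝ} (he : GoodObs e) {B : ℝ} (hB0 : 0 < B)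
    (hB : ∀ u, |e u| ≤ B) {M : ℝ} (hM : 1 ≤ M) (T L₀ u : ℝ) (hu : 0 < u) :
    ∃ C : ℝ, 0 ≤ C ∧ ∀ (d N k : ℕ) (β : ℝ) (a : Fin (d + 1) → ℝ) (c : Fin N → Fin (d + 1))
      (σ τ : ℕ → ℝ) (m : Measure (Fin N → Fin N → ℝ)) (i : Fin N), IsHaarOrth m → c i ≠ Fin.last d →
      0 ≤ tilt β a (c i) → tilt β a (c i) ≤ T → 12 * u * N ≤ (blk c (c i)).card →
      12 * u * N ≤ (blk (moved c i) (Fin.last d)).card →
      (N : ℝ) ≤ L₀ * (blk (moved c i) (Fin.last d)).card →
      ∀ ρ : ℝ, (∀ l, |τ l| ≤ ρ) → ρ ≤ 1 / 2 → ∀ j : ℕ, 1 ≤ j → j ≤ k →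
        let t := tilt β a (c i)
        let cp := moved c i
        |(∫ U, sP β a c σ τ k U (fun _ => 0) j
              (fun x y => e (√t * rotate U x i) * e (√t * rotate U y i)) ∂m)
            - gTgt e (kq 1 k (fun l => t * topK m k β a cp σ τ l) (t * topP m k β a cp σ τ) j)
                (kQ 1 k (fun l => t * topK m k β a cp σ τ l) (t * topP m k β a cp σ τ))|
          ≤ B ^ 2 * swErr u T M k ρ + (C * (pairErr m k β a cp σ τ j + topErr m k β a cp σ τ)
            + C / √((blk cp (Fin.last d)).card : ℝ) + 4 * B ^ 2 * gap M ((T * L₀) ^ 2 * mom4)) := by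
  obtain ⟨C, hC, hd⟩ := hdir e he B hB0 hB M hM T L₀
  refine ⟨C, hC, fun d N k β a c σ τ m i hm hi ht htT hu1 hu2 hL ρ hρ hρ2 j hj1 hj => ?_⟩
  intro t cp
  have h1 := hd d N k β a cp σ τ m hm i (moved_self c i) hL t ht htT j hj1 hj
  have hem : ∀ s, Measurable fun U : Fin N → Fin N → ℝ => e (√t * rotate U s i) := fun s =>
    he.1.continuous.measurable.comp ((meas_rot s i).const_mul _)
  have hsw := switch_avg (β := β) (a := a) (σ := σ) (τ := τ) (k := k) (j := j)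
    (f := fun U (_ : Unit) x => e (√t * rotate U x i)) (g := fun U _ y => e (√t * rotate U y i) / B)
    hm hi ht htT hM hB0 hu hu1 hu2 hρ hρ2 hj (fun _ s => hem s) (fun _ s => (hem s).div_const B)
    (fun U _ x y => by
      simp only [Fintype.sum_unique]
      rw [abs_mul, abs_div, abs_of_pos hB0]
      exact (mul_le_mul (hB _) (div_le_one_of_le₀ (hB _) hB0.le) (by positivity) hB0.le).trans
        (mul_one B).le)
    (fun U _ _ y => by rw [abs_div, abs_of_pos hB0]; exact div_le_one_of_le₀ (hB _) hB0.le)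
  have e1 : ∀ (cc : Fin N → Fin (d + 1)) (p : (Fin N → Bool) → ℝ) (U : Fin N → Fin N → ℝ),
      sPair β a cc σ τ k U p j (fun (_ : Unit) x => e (√t * rotate U x i))
        (fun _ y => e (√t * rotate U y i) / B)
      = B⁻¹ * sP β a cc σ τ k U p j fun x y => e (√t * rotate U x i) * e (√t * rotate U y i) :=
    fun cc p U => by
    rw [← sP_sum, ← sP_const_mul]
    congr 1
    funext x y
    simp only [Fintype.sum_unique]
    ring
  simp only [e1, integral_const_mul, ← mul_sub, abs_mul, abs_inv, abs_of_pos hB0,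
    inv_mul_le_iff₀ hB0] at hsw
  refine (abs_sub_le _ _ _).trans (add_le_add ?_ h1)
  rw [abs_sub_comm]
  exact hsw.trans (le_of_eq (by ring))

theorem cut_err {L X Y : ℝ} (hL : 0 < L) :
    |X * Y - cutE L X * cutE L Y| ≤ (X ^ 4 + X ^ 2) / L + (Y ^ 4 + Y ^ 2) / L := by
  obtain ⟨a1, a2, -⟩ := cutE_bounds hL X
  obtain ⟨-, b2, -⟩ := cutE_bounds hL Y
  rw [abs_sub_comm] at a2 b2
  have e : X * Y - cutE L X * cutE L Y = (X - cutE L X) * Y + cutE L X * (Y - cutE L Y) := by ring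
  rw [e]
  refine (abs_add_le _ _).trans ?_
  rw [abs_mul, abs_mul, ← add_div]
  refine (add_le_add (mul_le_mul_of_nonneg_right a2 (abs_nonneg Y))
    (mul_le_mul a1 b2 (abs_nonneg _) (abs_nonneg X))).trans ?_
  rw [div_mul_eq_mul_div, mul_div_assoc', ← add_div, div_le_div_iff_of_pos_right hL, ← sq_abs X, ← sq_abs Y,
    show X ^ 4 = (|X| ^ 2) ^ 2 by rw [sq_abs]; ring, show Y ^ 4 = (|Y| ^ 2) ^ 2 by rw [sq_abs]; ring]
  nlinarith [sq_nonneg (|X| ^ 2 - |Y|), sq_nonneg (|Y| ^ 2 - |X|)]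

theorem cut_err_sq {L X : ℝ} (hL : 0 < L) : |X ^ 2 - cutE L X ^ 2| ≤ (X ^ 4 + X ^ 2) / L := by
  obtain ⟨a1, a2, -⟩ := cutE_bounds hL X
  rw [abs_sub_comm] at a2
  rw [sq_sub_sq, abs_mul]
  have h : |X + cutE L X| ≤ 2 * |X| := (abs_add_le _ _).trans (by linarith)
  refine (mul_le_mul h a2 (abs_nonneg _) (by positivity)).trans ?_
  rw [mul_div_assoc', div_le_div_iff_of_pos_right hL, ← sq_abs X,
    show X ^ 4 = (|X| ^ 2) ^ 2 by rw [sq_abs]; ring]
  nlinarith [sq_nonneg (|X| ^ 2 - |X|)]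

/-- The second and fourth moment of a cut coordinate. -/
theorem cut_avg (hm : IsHaarOrth m) {u T L t : ℝ} (hu : 0 < u) (hu1 : 12 * u * N ≤ (blk c (c i)).card)
    (hL : 0 < L) (ht : 0 ≤ t) (htT : t ≤ T) (j : ℕ) :
    |t * (∫ U, sP β a c σ τ k U (fun _ => 0) j (fun x y => rotate U x i * rotate U y i) ∂m)
        - ∫ U, sP β a c σ τ k U (fun _ => 0) j
            (fun x y => cutE L (√t * rotate U x i) * cutE L (√t * rotate U y i)) ∂m|
      ≤ 2 * ((T ^ 2 * (6 / u ^ 2) + T * (3 / u)) / L) ∧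
    |t * (∫ U, sGib β a c σ τ k U (fun _ => 0) (fun s => rotate U s i ^ 2) ∂m)
        - ∫ U, sGib β a c σ τ k U (fun _ => 0) (fun s => cutE L (√t * rotate U s i) ^ 2) ∂m|
      ≤ (T ^ 2 * (6 / u ^ 2) + T * (3 / u)) / L := by
  have := hm.1
  obtain ⟨q2, q4, -⟩ := moments (β := β) (a := a) (c := c) (σ := σ) (τ := τ) (k := k) hm rfl hu hu1
  set φ : (Fin N → Fin N → ℝ) → (Fin N → Bool) → ℝ := fun U s =>
    ((√t * rotate U s i) ^ 4 + (√t * rotate U s i) ^ 2) / L
  have eφ : ∀ U, sGib β a c σ τ k U (fun _ => 0) (φ U)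
      = t ^ 2 / L * sGib β a c σ τ k U (fun _ => 0) (fun s => rotate U s i ^ 4)
        + t / L * sGib β a c σ τ k U (fun _ => 0) fun s => rotate U s i ^ 2 := fun U => by
    have hH := potH_linB (k := k) c β a σ τ U fun _ => 0
    rw [sGib, sGib, sGib, ← P157.Rsb.cnd_const_mul, ← P157.Rsb.cnd_const_mul,
      ← cnd_add hH ((tame_leaf _).const_mul _) ((tame_leaf _).const_mul _)]
    congr 1
    funext z s
    simp only [φ, mul_pow, show (√t) ^ 4 = (√t ^ 2) ^ 2 by ring, sq_sqrt ht]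
    ring
  have iφ : Integrable (fun U => sGib β a c σ τ k U (fun _ => 0) (φ U)) m := by
    simp only [eφ]
    exact ((int_pow_le hm rfl 4).const_mul _).add ((int_pow_le hm rfl 2).const_mul _)
  have bφ : ∫ U, sGib β a c σ τ k U (fun _ => 0) (φ U) ∂m ≤ (T ^ 2 * (6 / u ^ 2) + T * (3 / u)) / L := by
    simp only [eφ]
    rw [integral_add ((int_pow_le hm rfl 4).const_mul _) ((int_pow_le hm rfl 2).const_mul _),
      integral_const_mul, integral_const_mul, add_div, mul_div_right_comm, mul_div_right_comm T]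
    refine add_le_add (mul_le_mul ?_ q4 (integral_nonneg fun U => sGib_nonneg fun s => by positivity)
      (by positivity)) (mul_le_mul ?_ q2 (integral_nonneg fun U => sGib_nonneg fun s => sq_nonneg _)
      (div_nonneg (ht.trans htT) hL.le))
    · exact div_le_div_of_nonneg_right (pow_le_pow_left₀ ht htT 2) hL.le
    · exact div_le_div_of_nonneg_right htT hL.le
  have h0m : ∀ s : Fin N → Bool, Measurable fun _ : Fin N → Fin N → ℝ => (0 : ℝ) := fun _ => measurable_const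
  have hcm : ∀ s, Measurable fun U : Fin N → Fin N → ℝ => cutE L (√t * rotate U s i) := fun s =>
    (contDiff_cutE L (n := 1)).continuous.measurable.comp ((meas_rot s i).const_mul _)
  constructor
  · have i1 : Integrable (fun U => sP β a c σ τ k U (fun _ => 0) j fun x y => rotate U x i * rotate U y i) m :=
      int_sP hm h0m (fun x y => (meas_rot x i).mul (meas_rot y i)) (B := N) fun U hU x y => by
        rw [abs_mul]
        nlinarith [sq_rotate_le hU x i, sq_rotate_le hU y i, sq_abs (rotate U x i), sq_abs (rotate U y i),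
          sq_nonneg (|rotate U x i| - |rotate U y i|)]
    have i2 : Integrable (fun U => sP β a c σ τ k U (fun _ => 0) j
        fun x y => cutE L (√t * rotate U x i) * cutE L (√t * rotate U y i)) m :=
      int_sP hm h0m (fun x y => (hcm x).mul (hcm y)) (B := 2 * L * (2 * L)) fun U _ x y => by
        rw [abs_mul]
        exact mul_le_mul (cutE_bounds hL _).2.2 (cutE_bounds hL _).2.2 (abs_nonneg _) (by positivity)
    rw [← integral_const_mul, ← integral_sub (i1.const_mul t) i2]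
    refine abs_integral_le_integral_abs.trans ((integral_mono ((i1.const_mul t).sub i2).abs
      (iφ.const_mul 2) fun U => ?_).trans (by rw [integral_const_mul]; linarith))
    simp only [Pi.sub_apply]
    rw [← sP_const_mul, ← sP_sub]
    refine sP_le_sq fun x y => ?_
    rw [show t * (rotate U x i * rotate U y i) = (√t * rotate U x i) * (√t * rotate U y i) by
      rw [mul_mul_mul_comm, mul_self_sqrt ht]]
    exact cut_err hL
  · have i1 : Integrable (fun U => sGib β a c σ τ k U (fun _ => 0) fun s => rotate U s i ^ 2) m :=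
      int_pow_le hm rfl 2
    have i2 : Integrable (fun U => sGib β a c σ τ k U (fun _ => 0) fun s => cutE L (√t * rotate U s i) ^ 2) m :=
      Integrable.of_bound (sGib_meas (u := fun U => U) c β a σ τ measurable_id h0m
        (φ := fun U s => cutE L (√t * rotate U s i) ^ 2) fun s => (hcm s).pow_const 2).aestronglyMeasurable
        ((2 * L) ^ 2) (ae_of_all _ fun U => (norm_eq_abs _).trans_le (abs_sGib_le c β a σ τ U _ fun s => by
          rw [abs_pow]; exact pow_le_pow_left₀ (abs_nonneg _) (cutE_bounds hL _).2.2 2))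
    rw [← integral_const_mul, ← integral_sub (i1.const_mul t) i2]
    refine abs_integral_le_integral_abs.trans ((integral_mono ((i1.const_mul t).sub i2).abs iφ
      fun U => ?_).trans bφ)
    have hH := potH_linB (k := k) c β a σ τ U fun _ => 0
    beta_reduce
    rw [Pi.sub_apply, sGib, sGib, ← P157.Rsb.cnd_const_mul,
      ← P157.Rsb.cnd_sub hH ((tame_leaf _).const_mul _) (tame_leaf _)]
    refine P157.Cube2.AuxF.abs_cnd_le hH (((tame_leaf _).const_mul _).sub (tame_leaf _)) (tame_leaf (φ U))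
      (fun z s => ?_) 0 _
    rw [show t * rotate U s i ^ 2 = (√t * rotate U s i) ^ 2 by rw [mul_pow, sq_sqrt ht]]
    exact cut_err_sq hL

/-- From a cut coordinate back to the coordinate. -/
theorem pair_to_xi (hm : IsHaarOrth m) {u T L t Ck X : ℝ} {q : ℕ → ℝ} {Q : ℝ} (hu : 0 < u)
    (hu1 : 12 * u * N ≤ (blk c (c i)).card) (hL : 0 < L) (ht : 0 ≤ t) (htT : t ≤ T)
    (h1 : |(∫ U, sP β a c σ τ k U (fun _ => 0) j
          (fun x y => cutE L (√t * rotate U x i) * cutE L (√t * rotate U y i)) ∂m)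
        - gTgt (cutE L) (kq 1 k (fun l => t * q l) (t * Q) j) (kQ 1 k (fun l => t * q l) (t * Q))| ≤ X)
    (h3 : |gTgt (cutE L) (kq 1 k (fun l => t * q l) (t * Q) j) (kQ 1 k (fun l => t * q l) (t * Q))
        - kq 1 k (fun l => t * q l) (t * Q) j| ≤ Ck / L) :
    t * |(∫ U, sP β a c σ τ k U (fun _ => 0) j (fun x y => rotate U x i * rotate U y i) ∂m) - kq t k q Q j|
      ≤ 2 * ((T ^ 2 * (6 / u ^ 2) + T * (3 / u)) / L) + (X + Ck / L) := by
  have h2 := (cut_avg (β := β) (a := a) (c := c) (σ := σ) (τ := τ) (k := k) (i := i) hm hu hu1 hL ht htT j).1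
  rw [(kq_scale t k q Q j).1] at h1 h3
  calc t * |(∫ U, sP β a c σ τ k U (fun _ => 0) j (fun x y => rotate U x i * rotate U y i) ∂m) - kq t k q Q j|
      = |t * (∫ U, sP β a c σ τ k U (fun _ => 0) j (fun x y => rotate U x i * rotate U y i) ∂m)
          - t * kq t k q Q j| := by rw [← mul_sub, abs_mul, abs_of_nonneg ht]
    _ ≤ _ := (abs_sub_le _ _ _).trans (add_le_add le_rfl (abs_sub_le _ _ _))
    _ ≤ _ := add_le_add h2 (add_le_add h1 h3)

/-- The diagonal by polarisation of the squares of a cut coordinate. -/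
theorem diag_to_xi (hm : IsHaarOrth m) {u T L t Ck : ℝ} {q : ℕ → ℝ} {Q : ℝ} {F : ℕ → ℝ} (hu : 0 < u)
    (hu1 : 12 * u * N ≤ (blk c (c i)).card) (hL : 0 < L) (ht : 0 ≤ t) (htT : t ≤ T) (hk : 1 ≤ k)
    (hKS : Slot.IsKer k (fun l => t * q l) (t * Q))
    (h1 : ∀ r : ℝ, (r = 0 ∨ r = 1) → ∀ j ∈ Icc 1 k, |(∫ U, sP β a c σ τ k U (fun _ => 0) j
          (fun x y => (cutE L (√t * rotate U x i) ^ 2 + r) * (cutE L (√t * rotate U y i) ^ 2 + r)) ∂m)
        - gTgt (fun v => cutE L v ^ 2 + r) (kq 1 k (fun l => t * q l) (t * Q) j)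
            (kQ 1 k (fun l => t * q l) (t * Q))| ≤ F j)
    (h3 : |(∫ x, cutE L (√(kQ 1 k (fun l => t * q l) (t * Q)) * x) ^ 2 ∂gaussianReal 0 1)
        - kQ 1 k (fun l => t * q l) (t * Q)| ≤ Ck / L) :
    t * |(∫ U, sGib β a c σ τ k U (fun _ => 0) (fun s => rotate U s i ^ 2) ∂m) - kQ t k q Q|
      ≤ (T ^ 2 * (6 / u ^ 2) + T * (3 / u)) / L
        + (2 * (P157.Rsb.mass k * ∑ j ∈ Icc 1 k, F j) + Ck / L) := by
  have := hm.1
  have h2 := (cut_avg (β := β) (a := a) (c := c) (σ := σ) (τ := τ) (k := k) (i := i) hm hu hu1 hL ht htT 0).2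
  rw [(kq_scale t k q Q 0).2] at h3
  set η : ℝ → ℝ := fun v => cutE L v ^ 2 with hη
  have hec : Continuous η := (contDiff_cutE L (n := 1)).continuous.pow 2
  have hbη : ∀ v, |η v| ≤ 4 * L ^ 2 := fun v => by
    rw [hη, abs_pow, show 4 * L ^ 2 = (2 * L) ^ 2 by ring]
    exact pow_le_pow_left₀ (abs_nonneg _) (cutE_bounds hL v).2.2 2
  have hcm : ∀ s, Measurable fun U : Fin N → Fin N → ℝ => η (√t * rotate U s i) := fun s =>
    hec.measurable.comp ((meas_rot s i).const_mul _)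
  set S := ∫ U, sGib β a c σ τ k U (fun _ => 0) (fun s => η (√t * rotate U s i)) ∂m with hS
  have key : ∀ j ∈ Icc 1 k, |S - ∫ x, η (√(t * kQ t k q Q) * x) ∂gaussianReal 0 1| ≤ F j := by
    intro j hjm
    have hb1 := h1 1 (Or.inr rfl) j hjm
    have hb0 := h1 0 (Or.inl rfl) j hjm
    simp only [add_zero] at hb0
    have hjk := (mem_Icc.1 hjm).2
    have hq0 : 0 ≤ kq 1 k (fun l => t * q l) (t * Q) j := by
      simpa [kq_zero] using kq_mono zero_le_one hKS (Nat.zero_le j) hjk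
    have hpol := gTgt_polar hec hbη hq0 (kq_le_kQ zero_le_one hKS hjk)
    rw [(kq_scale t k q Q j).2] at hpol hb1 hb0
    have hbr : ∀ r : ℝ, 0 ≤ r → r ≤ 1 → ∀ v, |η v + r| ≤ 4 * L ^ 2 + 1 := fun r h0 h1 v =>
      (abs_add_le _ _).trans (add_le_add (hbη v) (by rwa [abs_of_nonneg h0]))
    have iP : ∀ r : ℝ, 0 ≤ r → r ≤ 1 → Integrable (fun U => sP β a c σ τ k U (fun _ => 0) j
        fun x y => (η (√t * rotate U x i) + r) * (η (√t * rotate U y i) + r)) m := fun r r0 r1 =>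
      int_sP hm (fun _ => measurable_const) (fun x y => ((hcm x).add_const r).mul ((hcm y).add_const r))
        (B := (4 * L ^ 2 + 1) * (4 * L ^ 2 + 1)) fun U _ x y => by
          rw [abs_mul]
          exact mul_le_mul (hbr r r0 r1 _) (hbr r r0 r1 _) (abs_nonneg _) (by positivity)
    have iη : Integrable (fun U => sP β a c σ τ k U (fun _ => 0) j
        fun x y => η (√t * rotate U x i) * η (√t * rotate U y i)) m := by
      simpa using iP 0 le_rfl zero_le_one
    have e : ∀ U, sP β a c σ τ k U (fun _ => 0) j (fun x y => (η (√t * rotate U x i) + 1)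
        * (η (√t * rotate U y i) + 1)) - sP β a c σ τ k U (fun _ => 0) j
        (fun x y => η (√t * rotate U x i) * η (√t * rotate U y i))
        = 2 * sGib β a c σ τ k U (fun _ => 0) (fun s => η (√t * rotate U s i)) + 1 := fun U => by
      rw [← sP_sub, ← sP_sep, ← sub_eq_iff_eq_add',
        ← sP_sub (ψ' := fun x y => η (√t * rotate U x i) + η (√t * rotate U y i))]
      refine (congrArg _ (funext₂ fun x y => ?_)).trans (sP_const (1 : ℝ))
      ring
    have eS : 2 * S = (∫ U, sP β a c σ τ k U (fun _ => 0) j (fun x y => (η (√t * rotate U x i) + 1)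
          * (η (√t * rotate U y i) + 1)) ∂m)
        - (∫ U, sP β a c σ τ k U (fun _ => 0) j
          (fun x y => η (√t * rotate U x i) * η (√t * rotate U y i)) ∂m) - 1 := by
      rw [← integral_sub (iP 1 zero_le_one le_rfl) iη]
      simp only [e]
      rw [integral_add ((Integrable.of_bound (sGib_meas (u := fun U => U) c β a σ τ measurable_id
        (pot := fun _ _ => 0) (fun _ => measurable_const) (φ := fun U s => η (√t * rotate U s i))
        hcm).aestronglyMeasurable (4 * L ^ 2) (ae_of_all _ fun U => (norm_eq_abs _).trans_le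
          (abs_sGib_le c β a σ τ U _ fun s => hbη _))).const_mul 2) (integrable_const _),
        integral_const_mul, integral_const, probReal_univ, one_smul, ← hS]
      ring
    have h4 : ∀ P1 P2 G1 G2 : ℝ, |(P1 - P2 - 1) - (G1 - G2 - 1)| ≤ |P1 - G1| + |P2 - G2| :=
      fun P1 P2 G1 G2 => by
        rw [show (P1 - P2 - 1) - (G1 - G2 - 1) = (P1 - G1) - (P2 - G2) by ring]; exact abs_sub _ _
    have h5 : |2 * S - 2 * ∫ x, η (√(t * kQ t k q Q) * x) ∂gaussianReal 0 1| ≤ F j + F j := by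
      rw [eS, ← hpol]
      exact (h4 _ _ _ _).trans (add_le_add hb1 hb0)
    rw [← mul_sub, abs_mul, abs_two] at h5
    linarith
  have h6 : |S - ∫ x, η (√(t * kQ t k q Q) * x) ∂gaussianReal 0 1|
      ≤ 2 * (P157.Rsb.mass k * ∑ j ∈ Icc 1 k, F j) :=
    (le_mass_avg (abs_nonneg _) hk).trans (mul_le_mul_of_nonneg_left
      (mul_le_mul_of_nonneg_left (sum_le_sum key) P157.Rsb.mass_pos.le) two_pos.le)
  calc t * |(∫ U, sGib β a c σ τ k U (fun _ => 0) (fun s => rotate U s i ^ 2) ∂m) - kQ t k q Q|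
      = |t * (∫ U, sGib β a c σ τ k U (fun _ => 0) (fun s => rotate U s i ^ 2) ∂m) - t * kQ t k q Q| := by
        rw [← mul_sub, abs_mul, abs_of_nonneg ht]
    _ ≤ _ := (abs_sub_le _ _ _).trans (add_le_add le_rfl (abs_sub_le _ _ _))
    _ ≤ _ := add_le_add h2 (add_le_add h6 h3)

theorem mass_err_sum {r C E : ℝ} {p : ℕ → ℝ} (hr : 0 ≤ r) (hC : 0 ≤ C) (hE : 0 ≤ E)
    (hp : P157.Rsb.mass k * ∑ j ∈ Icc 1 k, p j ≤ E) :
    P157.Rsb.mass k * ∑ j ∈ Icc 1 k, (r + C * (p j + E)) ≤ r + 2 * C * E := by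
  have e : ∀ j, r + C * (p j + E) = (r + C * E) + C * p j := fun j => by ring
  simp only [e]
  rw [sum_add_distrib, mul_add, ← mul_sum, mul_left_comm _ C]
  have h1 := mass_const (r := r + C * E) (add_nonneg hr (mul_nonneg hC hE)) k
  have h2 := mul_le_mul_of_nonneg_left hp hC
  linarith

/-- The estimates of one coordinate, at fixed cut-offs. -/
theorem coord_est_at {t T u L₀ L M γ B C0 Ck Ca Cb Cc ρ ε : ℝ} (hker2 : ∀ (q : ℕ → ℝ) (Q : ℝ) (j : ℕ),
      Slot.IsKer k q Q → Q ≤ T * L₀ → j ≤ k →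
      |gTgt (cutE L) (kq 1 k q Q j) (kQ 1 k q Q) - kq 1 k q Q j| ≤ Ck / L ∧
      |(∫ x, cutE L (√(kQ 1 k q Q) * x) ^ 2 ∂gaussianReal 0 1) - kQ 1 k q Q| ≤ Ck / L)
    (hm : IsHaarOrth m) (hk : 1 ≤ k) (hN : 1 ≤ N) (hi : c i ≠ Fin.last d)
    (htd : t = tilt β a (c i)) (ht : 0 ≤ t) (htT : t ≤ T) (hu : 0 < u)
    (hu1 : 12 * u * N ≤ (blk c (c i)).card) (hu2 : 12 * u * N ≤ (blk (moved c i) (Fin.last d)).card)
    (hL0 : (N : ℝ) ≤ L₀ * (blk (moved c i) (Fin.last d)).card)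
    (hK : IsKer k (topK m k β a (moved c i) σ τ) (topP m k β a (moved c i) σ τ)
      (N / (blk (moved c i) (Fin.last d)).card))
    (hρ : ∀ l, |τ l| ≤ ρ) (hρ2 : ρ ≤ 1 / 2) (hL : 0 < L) (hM : 1 ≤ M) (hγ : 0 ≤ γ) (hC0 : 0 ≤ C0)
    (hXL : 2 * ((T ^ 2 * (6 / u ^ 2) + T * (3 / u)) / L) + Ck / L ≤ γ)
    (hbsw : B ^ 2 * swErr u T M k ρ + 4 * B ^ 2 * gap M ((T * L₀) ^ 2 * mom4) ≤ 3 * γ)
    (hsw : swErr u T M k ρ + 3 / u / N ≤ 3 * γ) (hεγ : 16 * γ ≤ t * ε) (hεγ' : 16 * γ ≤ ε)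
    (hCn : ∀ C, C ≤ C0 → C / √((blk (moved c i) (Fin.last d)).card : ℝ) ≤ γ)
    (hC : Ca ≤ C0 ∧ Cb ≤ C0 ∧ Cc ≤ C0)
    (hobs : ∀ x : (ℝ → ℝ) × ℝ, x ∈ [(cutE L, Ca), (fun v => cutE L v ^ 2 + 1, Cb),
        (fun v => cutE L v ^ 2 + 0, Cc)] → ∀ j ∈ Icc 1 k,
      |(∫ U, sP β a c σ τ k U (fun _ => 0) j
            (fun y z => x.1 (√t * rotate U y i) * x.1 (√t * rotate U z i)) ∂m)
        - gTgt x.1 (kq 1 k (fun l => t * topK m k β a (moved c i) σ τ l) (t * topP m k β a (moved c i) σ τ) j)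
            (kQ 1 k (fun l => t * topK m k β a (moved c i) σ τ l) (t * topP m k β a (moved c i) σ τ))|
        ≤ B ^ 2 * swErr u T M k ρ + (x.2 * (pairErr m k β a (moved c i) σ τ j + topErr m k β a (moved c i) σ τ)
          + x.2 / √((blk (moved c i) (Fin.last d)).card : ℝ)
          + 4 * B ^ 2 * gap M ((T * L₀) ^ 2 * mom4))) :
    let cp := moved c i
    let q := topK m k β a cp σ τ
    let Q := topP m k β a cp σ τ
    let E := topErr m k β a cp σ τ
    t * (P157.Rsb.mass k * ∑ j ∈ Icc 1 k, |(∫ U, sP β a c σ τ k U (fun _ => 0) j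
        (fun x y => rotate U x i * rotate U y i) ∂m) - kq t k q Q j|) ≤ t * ε + 4 * C0 * E ∧
    t * |(∫ U, sGib β a c σ τ k U (fun _ => 0) (fun s => rotate U s i ^ 2) ∂m) - kQ t k q Q|
      ≤ t * ε + 4 * C0 * E ∧
    P157.Rsb.mass k * ∑ j ∈ Icc 1 k, |qTop m k β a c σ τ j - qTop m k β a cp σ τ j|
      ≤ ε + exp (4 * M) * exp (4 * M) * E ∧
    |pTop m k β a c σ τ - pTop m k β a cp σ τ| ≤ ε + exp (4 * M) * E := by
  intro cp q Q E
  have hE : 0 ≤ E := topErr_nonneg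
  have hM0 : 0 < M := lt_of_lt_of_le one_pos hM
  set n : ℝ := ((blk cp (Fin.last d)).card : ℝ) with hn
  have hn0 : 0 < n := by
    have : (0 : ℝ) < 12 * u * N := by
      have : (1 : ℝ) ≤ N := by exact_mod_cast hN
      positivity
    exact this.trans_le hu2
  have htQ : t * Q ≤ T * L₀ :=
    mul_le_mul htT (hK.2.2.2.trans ((div_le_iff₀ hn0).2 hL0))
      ((hK.nonneg le_rfl).trans hK.2.2.1) (ht.trans htT)
  have hKS : Slot.IsKer k (fun l => t * q l) (t * Q) :=
    ⟨by simp [q, cp, hK.1], fun l hl => mul_le_mul_of_nonneg_left (hK.2.1 l hl) ht,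
      mul_le_mul_of_nonneg_left hK.2.2.1 ht⟩
  have bnd : ∀ x : (ℝ → ℝ) × ℝ, x ∈ [(cutE L, Ca), (fun v => cutE L v ^ 2 + 1, Cb),
      (fun v => cutE L v ^ 2 + 0, Cc)] → x.2 ≤ C0 → ∀ j ∈ Icc 1 k,
      |(∫ U, sP β a c σ τ k U (fun _ => 0) j
            (fun y z => x.1 (√t * rotate U y i) * x.1 (√t * rotate U z i)) ∂m)
        - gTgt x.1 (kq 1 k (fun l => t * q l) (t * Q) j) (kQ 1 k (fun l => t * q l) (t * Q))|
      ≤ 4 * γ + C0 * (pairErr m k β a cp σ τ j + E) := fun x hx hxC j hj => by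
    have h := hobs x hx j hj
    have h2 := hCn x.2 hxC
    have h3 := mul_le_mul_of_nonneg_right hxC
      (add_nonneg (pairErr_nonneg (m := m) (k := k) (β := β) (a := a) (c := cp) (σ := σ) (τ := τ) j) hE)
    linarith
  have hsum := mass_err_sum (k := k) (r := 4 * γ) (by positivity) hC0 hE
    (mass_pairErr_le (m := m) (β := β) (a := a) (c := cp) (σ := σ) (τ := τ))
  refine ⟨?_, ?_, ?_, ?_⟩
  · rw [mul_left_comm, mul_sum]
    refine (mul_le_mul_of_nonneg_left (sum_le_sum fun j hjm => pair_to_xi (β := β) (a := a) (σ := σ) (τ := τ) (q := q) (Q := Q) hm hu hu1 hL ht htT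
      (bnd _ List.mem_cons_self hC.1 j hjm) (hker2 _ _ j hKS htQ (mem_Icc.1 hjm).2).1)
      P157.Rsb.mass_pos.le).trans ?_
    rw [sum_add_distrib, sum_add_distrib, mul_add, mul_add]
    have h1 := mass_const (r := 2 * ((T ^ 2 * (6 / u ^ 2) + T * (3 / u)) / L))
      (mul_nonneg zero_le_two (div_nonneg (add_nonneg (by positivity)
        (mul_nonneg (ht.trans htT) (by positivity))) hL.le)) k
    have h0 : 0 ≤ Ck / L := (abs_nonneg _).trans (hker2 _ _ 0 hKS htQ (Nat.zero_le k)).1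
    have h2 := mass_const h0 k
    linarith [mul_nonneg hC0 hE]
  · have h := diag_to_xi (β := β) (a := a) (σ := σ) (τ := τ) (q := q) (Q := Q) (F := fun j => 4 * γ + C0 * (pairErr m k β a cp σ τ j + E))
      hm hu hu1 hL ht htT hk hKS (fun r hr j hjm => ?_) (hker2 _ _ 0 hKS htQ (Nat.zero_le k)).2
    · refine h.trans ?_
      have : 0 ≤ (T ^ 2 * (6 / u ^ 2) + T * (3 / u)) / L :=
        div_nonneg (add_nonneg (by positivity) (mul_nonneg (ht.trans htT) (by positivity))) hL.le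
      linarith
    · rcases hr with rfl | rfl
      · exact bnd (fun v => cutE L v ^ 2 + 0, Cc)
          (List.mem_cons_of_mem _ (List.mem_cons_of_mem _ List.mem_cons_self)) hC.2.2 j hjm
      · exact bnd (fun v => cutE L v ^ 2 + 1, Cb) (List.mem_cons_of_mem _ List.mem_cons_self) hC.2.1 j hjm
  · subst htd
    refine (mul_le_mul_of_nonneg_left (sum_le_sum fun j hjm => top_move (u := u) (T := T) (M := M) hm hi ht
      htT hM hu hu1 hu2 hρ hρ2 (mem_Icc.1 hjm).1 (mem_Icc.1 hjm).2) P157.Rsb.mass_pos.le).trans ?_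
    simp only [sum_add_distrib, ← mul_sum, mul_add]
    have hs0 : 0 ≤ swErr u T M k ρ := by
      have : 0 ≤ ρ := (abs_nonneg _).trans (hρ 0)
      unfold swErr gap
      positivity
    have h1 := mass_const hs0 k
    have h3 := mass_const (r := 3 / u / (N : ℝ)) (by positivity) k
    have h2 : exp (4 * M) * (exp (4 * M) * (P157.Rsb.mass k * ∑ j ∈ Icc 1 k, pairErr m k β a cp σ τ j))
        ≤ exp (4 * M) * (exp (4 * M) * E) :=
      mul_le_mul_of_nonneg_left (mul_le_mul_of_nonneg_left mass_pairErr_le (exp_pos _).le) (exp_pos _).le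
    linarith
  · subst htd
    refine (mass_move (u := u) (T := T) (M := M) hm hN hi ht htT hM hu hu1 hu2 hρ hρ2).trans ?_
    linarith

/-- The estimates of one coordinate. -/
theorem coord_est (hdir : DirStmt) (hker : TopKerStmt) {T t₀ u L₀ : ℝ} (ht₀ : 0 < t₀) (hu : 0 < u)
    (hL₀ : 0 < L₀) {ε : ℝ} (hε : 0 < ε) :
    ∃ C : ℝ, 0 ≤ C ∧ ∀ k : ℕ, 1 ≤ k → ∃ ρ : ℝ, 0 < ρ ∧ ρ ≤ 1 / 2 ∧ ∃ N₀ : ℕ,
      ∀ (d N : ℕ) (β : ℝ) (a : Fin (d + 1) → ℝ) (c : Fin N → Fin (d + 1)) (σ τ : ℕ → ℝ)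
        (m : Measure (Fin N → Fin N → ℝ)) (i : Fin N), N₀ ≤ N → IsHaarOrth m → c i ≠ Fin.last d →
        t₀ ≤ tilt β a (c i) → tilt β a (c i) ≤ T → 12 * u * N ≤ (blk c (c i)).card →
        12 * u * N ≤ (blk (moved c i) (Fin.last d)).card →
        (N : ℝ) ≤ L₀ * (blk (moved c i) (Fin.last d)).card → (∀ l, |τ l| ≤ ρ) →
          let t := tilt β a (c i)
          let cp := moved c i
          let q := topK m k β a cp σ τ
          let Q := topP m k β a cp σ τ
          let err := ε + C * topErr m k β a cp σ τ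
          IsKer k q Q L₀ ∧
          P157.Rsb.mass k * ∑ j ∈ Icc 1 k, |(∫ U, sP β a c σ τ k U (fun _ => 0) j
              (fun x y => rotate U x i * rotate U y i) ∂m) - kq t k q Q j| ≤ err ∧
          |(∫ U, sGib β a c σ τ k U (fun _ => 0) (fun s => rotate U s i ^ 2) ∂m) - kQ t k q Q| ≤ err ∧
          P157.Rsb.mass k * ∑ j ∈ Icc 1 k, |qTop m k β a c σ τ j - qTop m k β a cp σ τ j| ≤ err ∧
          |pTop m k β a c σ τ - pTop m k β a cp σ τ| ≤ err := by
  rcases lt_or_ge T t₀ with hT | hT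
  · exact ⟨0, le_rfl, fun k _ => ⟨1 / 2, by norm_num, le_rfl, 0, fun d N β a c σ τ m i _ _ _ h1 h2 =>
      absurd (h1.trans h2) (not_le.2 hT)⟩⟩
  have hT0 : 0 < T := ht₀.trans_le hT
  obtain ⟨Ck, hCk, hker2⟩ := ker_trunc_bound (Qm := T * L₀) (mul_nonneg hT0.le hL₀.le)
  set X2 := T ^ 2 * (6 / u ^ 2) + T * (3 / u) with hX2
  set γ := min ε (t₀ * ε) / 16 with hγd
  have hγ : 0 < γ := by positivity
  have hγε : 16 * γ ≤ ε := by have := min_le_left ε (t₀ * ε); linarith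
  have hγt : 16 * γ ≤ t₀ * ε := by have := min_le_right ε (t₀ * ε); linarith
  set L := (2 * X2 + Ck) / γ + 1 with hLd
  have hX20 : 0 ≤ X2 := by positivity
  have hL : 0 < L := by positivity
  have hXL : 2 * (X2 / L) + Ck / L ≤ γ := by
    rw [mul_div_assoc', ← add_div, div_le_iff₀ hL, hLd, mul_add γ, mul_div_cancel₀ _ hγ.ne']; linarith
  set B := 4 * L ^ 2 + 2 * L + 1
  have hB : 0 < B := by positivity
  set C1 := (T * L₀) ^ 2 * mom4
  set C2 := T ^ 2 / 4 * (6 / u ^ 2)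
  obtain ⟨M, hM1, hg1, hg2, hg3⟩ : ∃ M : ℝ, 1 ≤ M ∧ 4 * B ^ 2 * gap M C1 ≤ γ ∧
      4 * B ^ 2 * gap M C2 ≤ γ ∧ 4 * gap M C2 ≤ γ := by
    have e : ∀ r C : ℝ, ∀ᶠ M in atTop, r * gap M C ≤ γ := fun r C => by
      have h := (tendsto_gap C).const_mul r
      rw [mul_zero] at h
      exact h.eventually (eventually_le_nhds hγ)
    obtain ⟨M, h1, h2, h3, h4⟩ := ((eventually_ge_atTop (1 : ℝ)).and
      ((e (4 * B ^ 2) C1).and ((e (4 * B ^ 2) C2).and (e 4 C2)))).exists
    exact ⟨M, h1, h2, h3, h4⟩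
  set K1 := 1 + 2 / u * (2 + 3 / u)
  have hK1 : 0 < K1 := by positivity
  set δ := min 1 (γ / ((B ^ 2 + 1) * (4 * K1))) with hδd
  have hδ : 0 < δ := lt_min one_pos (by positivity)
  obtain ⟨Ca, hCa, ha⟩ := coord_obs hdir (goodObs_cutE hL.ne') hB
    (fun v => (cutE_bounds hL v).2.2.trans (by simp only [B]; nlinarith)) hM1 T L₀ u hu
  have hbd : ∀ r, 0 ≤ r → r ≤ 1 → ∀ v, |cutE L v ^ 2 + r| ≤ B := fun r h0 h1 v => by
    rw [abs_of_nonneg (add_nonneg (sq_nonneg _) h0)]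
    have := pow_le_pow_left₀ (abs_nonneg _) (cutE_bounds hL v).2.2 2
    rw [sq_abs] at this
    simp only [B]
    linarith
  obtain ⟨Cb, hCb, hb⟩ := coord_obs hdir (goodObs_sq hL.ne' 1) hB (hbd 1 zero_le_one le_rfl) hM1 T L₀ u hu
  obtain ⟨Cc, hCc, hc⟩ := coord_obs hdir (goodObs_sq hL.ne' 0) hB (hbd 0 le_rfl zero_le_one) hM1 T L₀ u hu
  set C0 := Ca + Cb + Cc with hC0
  refine ⟨4 * C0 / t₀ + exp (4 * M) * exp (4 * M) + exp (4 * M), by positivity, fun k hk => ?_⟩
  have hk0 : (0 : ℝ) < k := by exact_mod_cast hk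
  refine ⟨min (1 / 2) (δ / k), lt_min (by norm_num) (by positivity), min_le_left _ _, ?_⟩
  obtain ⟨N₀, hN₀⟩ := exists_nat_ge (max 1 (max ((C0 / γ) ^ 2 * L₀) (3 / u / γ)))
  refine ⟨N₀, fun d N β a c σ τ m i hN hm hi ht0 htT hu1 hu2 hL0 hρ => ?_⟩
  intro t cp q Q err
  have hN1 := hN₀.trans (Nat.cast_le.2 hN : (N₀ : ℝ) ≤ N)
  have hNr : (1 : ℝ) ≤ N := (le_max_left _ _).trans hN1
  have hNn : 1 ≤ N := by exact_mod_cast hNr
  have hN3 : 3 / u / N ≤ γ := by
    have := ((le_max_right _ _).trans (le_max_right _ _)).trans hN1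
    rw [div_le_iff₀ hγ] at this
    rw [div_le_iff₀ (by linarith : (0:ℝ) < N)]; linarith
  have hn1 : 1 ≤ (blk cp (Fin.last d)).card := Finset.card_pos.2
    ⟨i, by simp only [blk, cp, mem_filter, mem_univ, true_and, moved_self]⟩
  have hn : (0 : ℝ) < (blk cp (Fin.last d)).card := Nat.cast_pos.2 hn1
  have hCn : ∀ C, C ≤ C0 → C / √((blk cp (Fin.last d)).card : ℝ) ≤ γ := fun C hC => by
    have h1 : (C0 / γ) ^ 2 * L₀ ≤ ((blk cp (Fin.last d)).card : ℝ) * L₀ :=
      (((le_max_left _ _).trans (le_max_right _ _)).trans hN1).trans (hL0.trans_eq (mul_comm _ _))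
    have h2 := le_of_mul_le_mul_right h1 hL₀
    refine (div_le_div_of_nonneg_right hC (sqrt_nonneg _)).trans ?_
    rw [div_le_iff₀ (sqrt_pos.2 hn)]
    calc C0 = γ * (C0 / γ) := by field_simp
      _ ≤ _ := mul_le_mul_of_nonneg_left ((le_abs_self _).trans (abs_le_sqrt h2)) hγ.le
  have hρ0 : 0 ≤ min (1 / 2) (δ / k) := le_min (by norm_num) (by positivity)
  have hsw : swErr u T M k (min (1 / 2) (δ / k)) ≤ 4 * δ * K1 + 4 * gap M C2 :=
    swErr_le hu hρ0 (min_le_left _ _)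
      (by rw [← le_div_iff₀' hk0]; exact min_le_right _ _) (min_le_left _ _)
  have hδK : (B ^ 2 + 1) * (4 * δ * K1) ≤ γ := by
    have := min_le_right 1 (γ / ((B ^ 2 + 1) * (4 * K1)))
    rw [← hδd, le_div_iff₀ (by positivity)] at this
    linarith
  have hBsw := mul_le_mul_of_nonneg_left hsw (sq_nonneg B)
  have hdk : 0 ≤ δ * K1 := by positivity
  have hBdk : 0 ≤ B ^ 2 * (δ * K1) := by positivity
  have hK := hker d N k β a cp σ τ m hm hNn hn1
  have ht : 0 ≤ t := ht₀.le.trans ht0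
  have hmem := coord_est_at (t := t) (B := B) (C0 := C0) (Ca := Ca) (Cb := Cb) (Cc := Cc) (γ := γ) (ε := ε)
    (fun q Q j h1 h2 h3 => hker2 1 k q Q L (cutE L) j zero_le_one h1 h2 h3 hL
      (contDiff_cutE L (n := 1)).continuous (fun v => (cutE_bounds hL v).1) (fun v => (cutE_bounds hL v).2.1))
    hm hk hNn hi rfl ht htT hu hu1 hu2 hL0 hK hρ (min_le_left _ _) hL hM1 hγ.le (by positivity) hXL
    (by linarith) (by linarith) (hγt.trans (mul_le_mul_of_nonneg_right ht0 hε.le)) hγε hCn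
    ⟨by linarith, by linarith, by linarith⟩
    (fun x hx j hj => by
      simp only [List.mem_cons, List.not_mem_nil, or_false] at hx
      obtain ⟨hj1, hjk⟩ := mem_Icc.1 hj
      rcases hx with rfl | rfl | rfl
      · exact ha d N k β a c σ τ m i hm hi ht htT hu1 hu2 hL0 _ hρ (min_le_left _ _) j hj1 hjk
      · exact hb d N k β a c σ τ m i hm hi ht htT hu1 hu2 hL0 _ hρ (min_le_left _ _) j hj1 hjk
      · exact hc d N k β a c σ τ m i hm hi ht htT hu1 hu2 hL0 _ hρ (min_le_left _ _) j hj1 hjk)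
  obtain ⟨r1, r2, r3, r4⟩ := hmem
  set E := topErr m k β a cp σ τ
  have hE : 0 ≤ E := topErr_nonneg
  have p0 : 0 ≤ exp (4 * M) * exp (4 * M) * E := by positivity
  have p1 : 0 ≤ exp (4 * M) * E := by positivity
  have p2 : 0 ≤ 4 * C0 / t₀ * E := by positivity
  have eerr : err = ε + (4 * C0 / t₀ * E + exp (4 * M) * exp (4 * M) * E + exp (4 * M) * E) := by
    simp only [err]; ring
  have hfin : ∀ X : ℝ, t * X ≤ t * ε + 4 * C0 * E → X ≤ err := fun X h => by
    have h1 : 4 * C0 * E ≤ t * (4 * C0 / t₀ * E) := by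
      refine le_trans (le_of_eq ?_) (mul_le_mul_of_nonneg_right ht0 p2)
      field_simp
    have h2 : t * X ≤ t * (ε + 4 * C0 / t₀ * E) := by linarith
    have := le_of_mul_le_mul_left h2 (ht₀.trans_le ht0)
    linarith
  exact ⟨⟨hK.1, hK.2.1, hK.2.2.1, hK.2.2.2.trans ((div_le_iff₀ hn).2 hL0)⟩, hfin _ r1, hfin _ r2,
    r3.trans (by linarith), r4.trans (by linarith)⟩

end Vale.Agent.P166.Rsb.Energy
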