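import Vale.Agent.P166.Rsb.Energy.Switch

/-!
# P166: the kernel of the last block under moving one coordinate

The overlaps and the mass inside the last block move little when one coordinate joins it.
-/

open MeasureTheory ProbabilityTheory Real Finset
open Vale.Agent.P157 (cubeLaw)
open Vale.Agent.P157.Rsb (stdG cnd cnd_const)

namespace Vale.Agent.P166.Rsb.Energy

variable {d N k : ℕ} {β : ℝ} {a : Fin (d + 1) → ℝ} {c : Fin N → Fin (d + 1)} {σ τ : ℕ → ℝ}
  {U : Fin N → Fin N → ℝ} {pot : (Fin N → Bool) → ℝ} {j : ℕ} {m : Measure (Fin N → Fin N → ℝ)}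

theorem sP_const (r : ℝ) : sP β a c σ τ k U pot j (fun _ _ => r) = r := by
  have hH := potH_linB (k := k) c β a σ τ U pot
  rw [sP_eq]
  simp only [cnd_const hH]

theorem abs_sP_bound {ψ : (Fin N → Bool) → (Fin N → Bool) → ℝ} {B : ℝ} (h : ∀ x y, |ψ x y| ≤ B) :
    |sP β a c σ τ k U pot j ψ| ≤ B :=
  (abs_sP_le ψ).trans ((sP_mono h).trans (sP_const B).le)

theorem int_sP (hm : IsHaarOrth m) {p : (Fin N → Fin N → ℝ) → (Fin N → Bool) → ℝ}
    (hp : ∀ s, Measurable fun U => p U s)
    {ψ : (Fin N → Fin N → ℝ) → (Fin N → Bool) → (Fin N → Bool) → ℝ}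
    (hψ : ∀ x y, Measurable fun U => ψ U x y) {B : ℝ} (hB : ∀ U, IsOrth U → ∀ x y, |ψ U x y| ≤ B) :
    Integrable (fun U => sP β a c σ τ k U (p U) j (ψ U)) m := by
  have := hm.1
  exact Integrable.of_bound (sP_meas (u := fun U => U) measurable_id hp hψ).aestronglyMeasurable B
    (hm.2.1.mono fun U hU => (norm_eq_abs _).trans_le (abs_sP_bound (hB U hU)))

theorem pairU_sP (ψ : (Fin N → Fin N → ℝ) → (Fin N → Bool) → (Fin N → Bool) → ℝ) :
    pairU m k β a c σ τ j ψ = ∫ U, sP β a c σ τ k U (fun _ => 0) j (ψ U) ∂m := by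
  simp only [pairU_eq, sP_zero]

theorem gibU_sGib (φ : (Fin N → Fin N → ℝ) → (Fin N → Bool) → ℝ) :
    gibU m k β a c σ τ φ = ∫ U, sGib β a c σ τ k U (fun _ => 0) (φ U) ∂m := by
  simp only [gibU_eq, sGib_zero]

theorem sq_rotate_le {U : Fin N → Fin N → ℝ} (hU : IsOrth U) (s : Fin N → Bool) (i : Fin N) :
    rotate U s i ^ 2 ≤ N :=
  (single_le_sum (f := fun l => rotate U s l ^ 2) (fun _ _ => sq_nonneg _) (mem_univ i)).trans
    (sum_sq_rotate hU s).le

theorem abs_rotate_div_le {U : Fin N → Fin N → ℝ} (hU : IsOrth U) (s : Fin N → Bool) (i : Fin N) :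
    |rotate U s i / √N| ≤ 1 := by
  rw [abs_div, abs_of_nonneg (sqrt_nonneg _)]
  exact div_le_one_of_le₀ (abs_le_sqrt (sq_rotate_le hU s i)) (sqrt_nonneg _)

theorem meas_rot (s : Fin N → Bool) (i : Fin N) :
    Measurable fun U : Fin N → Fin N → ℝ => rotate U s i := by
  unfold rotate; fun_prop

variable {i : Fin N} {u T M ρ : ℝ}

/-- The overlaps inside the last block move little. -/
theorem top_move (hm : IsHaarOrth m) (hi : c i ≠ Fin.last d) (ht : 0 ≤ tilt β a (c i))
    (htT : tilt β a (c i) ≤ T) (hM : 1 ≤ M) (hu : 0 < u)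
    (hu1 : 12 * u * N ≤ (blk c (c i)).card) (hu2 : 12 * u * N ≤ (blk (moved c i) (Fin.last d)).card)
    (hρ : ∀ l, |τ l| ≤ ρ) (hρ2 : ρ ≤ 1 / 2) (hj1 : 1 ≤ j) (hj : j ≤ k) :
    |qTop m k β a c σ τ j - qTop m k β a (moved c i) σ τ j|
      ≤ swErr u T M k ρ + exp (4 * M) * (exp (4 * M) * pairErr m k β a (moved c i) σ τ j)
        + 3 / u / N := by
  have := hm.1
  have hM0 : 0 < M := by linarith
  set cp := moved c i
  set t := tilt β a (c i)
  set q1 := qTop m k β a cp σ τ j
  set ψ : (Fin N → Fin N → ℝ) → (Fin N → Bool) → (Fin N → Bool) → ℝ := fun U x y => topOv cp U x y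
  set pc : (Fin N → Fin N → ℝ) → (Fin N → Bool) → ℝ := fun U s => cutF M (√t * rotate U s i)
  have hψm : ∀ x y, Measurable fun U => ψ U x y := fun x y => by
    simp only [ψ, topOv, rotate]; fun_prop
  have hψ' : ∀ x y, Measurable fun U => topOv c U x y := fun x y => by
    simp only [topOv, rotate]; fun_prop
  have hpm : ∀ s, Measurable fun U => pc U s := fun s =>
    (measurable_cutF M).comp ((meas_rot s i).const_mul _)
  have h0m : ∀ s : Fin N → Bool, Measurable fun _ : Fin N → Fin N → ℝ => (0 : ℝ) := fun _ => measurable_const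
  have hψb : ∀ U, IsOrth U → ∀ x y, |ψ U x y| ≤ 1 := fun U hU x y => abs_topOv_le cp U hU x y
  have eS : ∀ (cc : Fin N → Fin (d + 1)) (p : (Fin N → Bool) → ℝ) (U : Fin N → Fin N → ℝ),
      sP β a cc σ τ k U p j (ψ U) = sPair β a cc σ τ k U p j
        (fun l x => topMask cp l * rotate U x l / √N) (fun l y => rotate U y l / √N) := fun cc p U => by
    rw [← sP_sum]
    congr 1
    funext x y
    simp only [ψ, topOv, sum_div]
    refine sum_congr rfl fun l _ => ?_
    rw [div_mul_div_comm, mul_self_sqrt (Nat.cast_nonneg N)]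
  have hsw := switch_avg (β := β) (a := a) (σ := σ) (τ := τ) (k := k)
    (f := fun U l x => topMask cp l * rotate U x l / √N) (g := fun U l y => rotate U y l / √N)
    hm hi ht htT hM one_pos hu hu1 hu2 hρ hρ2 hj
    (fun l s => ((meas_rot s l).const_mul _).div_const _) (fun l s => (meas_rot s l).div_const _)
    (fun U hU x y => by
      have h := hψb U hU x y
      simp only [ψ, topOv, sum_div] at h
      refine le_of_eq_of_le (congrArg abs (sum_congr rfl fun l _ => ?_)) h
      rw [div_mul_div_comm, mul_self_sqrt (Nat.cast_nonneg N)])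
    (fun U hU l s => abs_rotate_div_le hU s l)
  simp only [← eS, one_mul] at hsw
  have iA : Integrable (fun U => sP β a c σ τ k U (fun _ => 0) j (ψ U)) m := int_sP hm h0m hψm hψb
  have iB : Integrable (fun U => sP β a cp σ τ k U (pc U) j (ψ U)) m := int_sP hm hpm hψm hψb
  have iC : Integrable (fun U => sP β a c σ τ k U (fun _ => 0) j (topOv c U)) m :=
    int_sP hm h0m hψ' fun U hU x y => abs_topOv_le c U hU x y
  have h1 : |(∫ U, sP β a c σ τ k U (fun _ => 0) j (ψ U) ∂m) - qTop m k β a c σ τ j| ≤ 3 / u / N := by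
    rw [qTop, if_neg (by omega), pairU_sP, ← integral_sub iA iC]
    obtain ⟨q2, -, -⟩ := moments (β := β) (a := a) (c := c) (σ := σ) (τ := τ) (k := k) hm rfl hu hu1
    have iD : Integrable (fun U => (1 / (N : ℝ)) * sGib β a c σ τ k U (fun _ => 0) fun s => rotate U s i ^ 2) m :=
      (int_pow_le hm rfl 2).const_mul _
    refine abs_integral_le_integral_abs.trans ((integral_mono_ae (iA.sub iC).abs iD
      (hm.2.1.mono fun U hU => ?_)).trans ?_)
    · simp only [Pi.sub_apply]
      rw [← sP_sub]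
      refine (sP_le_sq (φ := fun s => 1 / (2 * N) * rotate U s i ^ 2) fun x y => ?_).trans (le_of_eq ?_)
      · simp only [ψ, topOv_moved hi, cp, add_sub_cancel_left]
        rw [abs_div, Nat.abs_cast, abs_mul, ← mul_add, one_div_mul_eq_div,
          ← sq_abs (rotate U x i), ← sq_abs (rotate U y i)]
        rw [show (|rotate U x i| ^ 2 + |rotate U y i| ^ 2) / (2 * (N : ℝ))
          = (|rotate U x i| ^ 2 + |rotate U y i| ^ 2) / 2 / N by rw [div_div]]
        refine div_le_div_of_nonneg_right ?_ (Nat.cast_nonneg N)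
        nlinarith [sq_nonneg (|rotate U x i| - |rotate U y i|)]
      · rw [sGib, P157.Rsb.cnd_const_mul, ← sGib]; ring
    · rw [integral_const_mul, one_div_mul_eq_div]
      exact div_le_div_of_nonneg_right q2 (Nat.cast_nonneg N)
  have h2 : |(∫ U, sP β a cp σ τ k U (pc U) j (ψ U) ∂m) - q1|
      ≤ exp (4 * M) * (exp (4 * M) * pairErr m k β a cp σ τ j) := by
    have hb : ∀ U, IsOrth U → ∀ x y, |(|ψ U x y - q1|)| ≤ 1 + |q1| := fun U hU x y => by
      rw [abs_abs]; exact (abs_sub _ _).trans (add_le_add (hψb U hU x y) le_rfl)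
    have iE : Integrable (fun U => exp (4 * M) * (exp (4 * M) *
        sP β a cp σ τ k U (fun _ => 0) j fun x y => |ψ U x y - q1|)) m :=
      ((int_sP hm h0m (ψ := fun U x y => |ψ U x y - q1|)
        (fun x y => continuous_abs.measurable.comp ((hψm x y).sub_const _)) hb).const_mul _).const_mul _
    rw [pairErr, pairU_sP, ← integral_const_mul, ← integral_const_mul,
      show (∫ U, sP β a cp σ τ k U (pc U) j (ψ U) ∂m) - q1
        = ∫ U, (sP β a cp σ τ k U (pc U) j (ψ U) - q1) ∂m by
        rw [integral_sub iB (integrable_const _), integral_const, probReal_univ, one_smul]]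
    refine abs_integral_le_integral_abs.trans (integral_mono_ae (iB.sub (integrable_const _)).abs iE
      (hm.2.1.mono fun U _ => ?_))
    beta_reduce
    rw [show sP β a cp σ τ k U (pc U) j (ψ U) - q1
      = sP β a cp σ τ k U (pc U) j fun x y => ψ U x y - q1 by rw [sP_sub, sP_const]]
    refine (abs_sP_le _).trans ((sP_tilt (fun _ _ => abs_nonneg _) hj (L := 2 * M)
      fun s => abs_cutF_le hM0 _).trans (le_of_eq ?_))
    rw [show (2 : ℝ) * (2 * M) = 4 * M by ring]
  calc |qTop m k β a c σ τ j - q1|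
      ≤ |qTop m k β a c σ τ j - ∫ U, sP β a c σ τ k U (fun _ => 0) j (ψ U) ∂m|
        + |(∫ U, sP β a c σ τ k U (fun _ => 0) j (ψ U) ∂m)
          - ∫ U, sP β a cp σ τ k U (pc U) j (ψ U) ∂m|
        + |(∫ U, sP β a cp σ τ k U (pc U) j (ψ U) ∂m) - q1| :=
        (abs_sub_le _ _ _).trans (add_le_add (abs_sub_le _ _ _) le_rfl)
    _ ≤ _ := by
        have h3 : |(∫ U, sP β a c σ τ k U (fun _ => 0) j (ψ U) ∂m)
            - ∫ U, sP β a cp σ τ k U (pc U) j (ψ U) ∂m| ≤ swErr u T M k ρ := by
          rw [abs_sub_comm]; exact hsw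
        rw [abs_sub_comm] at h1
        linarith

/-- The mass of the last block moves little. -/
theorem mass_move (hm : IsHaarOrth m) (hN : 1 ≤ N) (hi : c i ≠ Fin.last d) (ht : 0 ≤ tilt β a (c i))
    (htT : tilt β a (c i) ≤ T) (hM : 1 ≤ M) (hu : 0 < u)
    (hu1 : 12 * u * N ≤ (blk c (c i)).card) (hu2 : 12 * u * N ≤ (blk (moved c i) (Fin.last d)).card)
    (hρ : ∀ l, |τ l| ≤ ρ) (hρ2 : ρ ≤ 1 / 2) :
    |pTop m k β a c σ τ - pTop m k β a (moved c i) σ τ|
      ≤ swErr u T M k ρ + exp (4 * M) * topErr m k β a (moved c i) σ τ + 3 / u / N := by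
  have := hm.1
  have hM0 : 0 < M := by linarith
  have hN' : (0 : ℝ) < N := by exact_mod_cast hN
  set cp := moved c i
  set t := tilt β a (c i)
  set p1 := pTop m k β a cp σ τ
  set φ : (Fin N → Fin N → ℝ) → (Fin N → Bool) → ℝ := fun U s => topSq cp U s / N
  set pc : (Fin N → Fin N → ℝ) → (Fin N → Bool) → ℝ := fun U s => cutF M (√t * rotate U s i)
  have hφm : ∀ s, Measurable fun U => φ U s := fun s => (continuous_topSq cp s).measurable.div_const _
  have hφ' : ∀ s, Measurable fun U => topSq c U s / N := fun s =>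
    (continuous_topSq c s).measurable.div_const _
  have hpm : ∀ s, Measurable fun U => pc U s := fun s =>
    (measurable_cutF M).comp ((meas_rot s i).const_mul _)
  have hb : ∀ (cc : Fin N → Fin (d + 1)) U, IsOrth U → ∀ s, |topSq cc U s / N| ≤ 1 := fun cc U hU s => by
    rw [abs_of_nonneg (div_nonneg (topSq_nonneg cc U s) hN'.le), div_le_one hN']
    exact topSq_le cc U hU s
  have hint : ∀ (cc : Fin N → Fin (d + 1)) {p : (Fin N → Fin N → ℝ) → (Fin N → Bool) → ℝ},
      (∀ s, Measurable fun U => p U s) → ∀ {ξ : (Fin N → Fin N → ℝ) → (Fin N → Bool) → ℝ},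
      (∀ s, Measurable fun U => ξ U s) → ∀ {B : ℝ}, (∀ U, IsOrth U → ∀ s, |ξ U s| ≤ B) →
      Integrable (fun U => sGib β a cc σ τ k U (p U) (ξ U)) m := fun cc p hp ξ hξ B hB =>
    Integrable.of_bound (sGib_meas (u := fun U => U) cc β a σ τ measurable_id hp hξ).aestronglyMeasurable B
      (hm.2.1.mono fun U hU => (norm_eq_abs _).trans_le (abs_sGib_le cc β a σ τ U _ (hB U hU)))
  have h0m : ∀ s : Fin N → Bool, Measurable fun _ : Fin N → Fin N → ℝ => (0 : ℝ) := fun _ => measurable_const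
  have hsw := switch_avg (β := β) (a := a) (σ := σ) (τ := τ) (k := k) (j := 0)
    (f := fun U (_ : Unit) s => φ U s) (g := fun _ _ _ => 1) hm hi ht htT hM one_pos hu hu1 hu2 hρ hρ2
    (Nat.zero_le k) (fun _ s => hφm s) (fun _ _ => measurable_const)
    (fun U hU x _ => by simpa using hb cp U hU x) (fun _ _ _ _ => by simp)
  simp only [sPair_one, one_mul] at hsw
  have iA : Integrable (fun U => sGib β a c σ τ k U (fun _ => 0) (φ U)) m := hint c h0m hφm (hb cp)
  have iB : Integrable (fun U => sGib β a cp σ τ k U (pc U) (φ U)) m := hint cp hpm hφm (hb cp)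
  have iC : Integrable (fun U => sGib β a c σ τ k U (fun _ => 0) fun s => topSq c U s / N) m :=
    hint c h0m hφ' (hb c)
  have h1 : |(∫ U, sGib β a c σ τ k U (fun _ => 0) (φ U) ∂m) - pTop m k β a c σ τ| ≤ 3 / u / N := by
    rw [pTop, gibU_sGib, ← integral_sub iA iC]
    obtain ⟨q2, -, -⟩ := moments (β := β) (a := a) (c := c) (σ := σ) (τ := τ) (k := k) hm rfl hu hu1
    have e : ∀ U, sGib β a c σ τ k U (fun _ => 0) (φ U) - sGib β a c σ τ k U (fun _ => 0)
        (fun s => topSq c U s / N) = 1 / N * sGib β a c σ τ k U (fun _ => 0) fun s => rotate U s i ^ 2 := by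
      intro U
      have hH := potH_linB (k := k) c β a σ τ U fun _ => 0
      rw [sGib, sGib, sGib, ← P157.Rsb.cnd_sub hH (tame_leaf _) (tame_leaf _), ← P157.Rsb.cnd_const_mul]
      congr 1
      funext z s
      simp only [φ, cp, topSq_moved hi]; ring
    simp only [e]
    rw [integral_const_mul, one_div_mul_eq_div,
      abs_of_nonneg (div_nonneg (integral_nonneg fun U => sGib_nonneg fun s => sq_nonneg _) hN'.le)]
    exact div_le_div_of_nonneg_right q2 hN'.le
  have h2 : |(∫ U, sGib β a cp σ τ k U (pc U) (φ U) ∂m) - p1| ≤ exp (4 * M) * topErr m k β a cp σ τ := by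
    have hb2 : ∀ U, IsOrth U → ∀ s, |(|φ U s - p1|)| ≤ 1 + |p1| := fun U hU s => by
      rw [abs_abs]; exact (abs_sub _ _).trans (add_le_add (hb cp U hU s) le_rfl)
    have iE : Integrable (fun U => exp (4 * M) *
        sGib β a cp σ τ k U (fun _ => 0) fun s => |φ U s - p1|) m :=
      (hint cp h0m (fun s => continuous_abs.measurable.comp ((hφm s).sub_const _)) hb2).const_mul _
    have hd : gibU m k β a cp σ τ (fun U s => |topSq cp U s / N - pTop m k β a cp σ τ|)
        ≤ topErr m k β a cp σ τ :=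
      le_add_of_nonneg_left (mul_nonneg P157.Rsb.mass_pos.le (sum_nonneg fun l _ => by
        rw [pairU_sP]
        exact integral_nonneg fun U => (sP_const (0 : ℝ)).symm.le.trans (sP_mono fun _ _ => abs_nonneg _)))
    refine le_trans ?_ (mul_le_mul_of_nonneg_left hd (exp_pos _).le)
    rw [gibU_sGib, ← integral_const_mul,
      show (∫ U, sGib β a cp σ τ k U (pc U) (φ U) ∂m) - p1
        = ∫ U, (sGib β a cp σ τ k U (pc U) (φ U) - p1) ∂m by
        rw [integral_sub iB (integrable_const _), integral_const, probReal_univ, one_smul]]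
    refine abs_integral_le_integral_abs.trans (integral_mono_ae (iB.sub (integrable_const _)).abs iE
      (hm.2.1.mono fun U _ => ?_))
    have hH := potH_linB (k := k) cp β a σ τ U (pc U)
    beta_reduce
    rw [show sGib β a cp σ τ k U (pc U) (φ U) - p1 = sGib β a cp σ τ k U (pc U) fun s => φ U s - p1 by
      rw [sGib, sGib, P157.Rsb.cnd_sub hH (tame_leaf _) (tame_leaf fun _ => p1), cnd_const hH]]
    refine (P157.Cube2.AuxF.abs_cnd_le hH (tame_leaf fun s => φ U s - p1) (tame_leaf fun s => |φ U s - p1|)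
      (fun _ _ => le_rfl) 0 _).trans ?_
    refine ((sGib_tilt (fun _ => abs_nonneg _) (L := 2 * M) fun s => abs_cutF_le hM0 _).trans (le_of_eq ?_))
    rw [show (2 : ℝ) * (2 * M) = 4 * M by ring]
  calc |pTop m k β a c σ τ - p1|
      ≤ |pTop m k β a c σ τ - ∫ U, sGib β a c σ τ k U (fun _ => 0) (φ U) ∂m|
        + |(∫ U, sGib β a c σ τ k U (fun _ => 0) (φ U) ∂m)
          - ∫ U, sGib β a cp σ τ k U (pc U) (φ U) ∂m|
        + |(∫ U, sGib β a cp σ τ k U (pc U) (φ U) ∂m) - p1| :=
        (abs_sub_le _ _ _).trans (add_le_add (abs_sub_le _ _ _) le_rfl)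
    _ ≤ _ := by
        have h3 : |(∫ U, sGib β a c σ τ k U (fun _ => 0) (φ U) ∂m)
            - ∫ U, sGib β a cp σ τ k U (pc U) (φ U) ∂m| ≤ swErr u T M k ρ := by
          rw [abs_sub_comm]; exact hsw
        rw [abs_sub_comm] at h1
        linarith

end Vale.Agent.P166.Rsb.Energy
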