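import Vale.Agent.P166.Gauss
import Vale.Agent.P166.Rsb.CalcBounds
import Vale.Agent.P166.Rsb.HaarGroup
import Vale.Agent.P166.Rsb.Energy.Path
import Vale.Agent.P166.Rsb.Energy.Chi

/-!
# P166: a direction of a block

A rotation inside one block changes neither the energy nor the law of the fields. So a coordinate of
the block may be replaced by a uniform direction of the block, which is a normalised Gaussian vector.
-/

open MeasureTheory ProbabilityTheory Real Finset Matrix
open Vale.Agent.P157 (cubeLaw)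
open Vale.Agent.P157.Rsb (stdG val cnd LinB Tame gaussSize)

namespace Vale.Agent.P166.Rsb.Energy

variable {d N k : ℕ}

/-- A linear functional of a rotated configuration. -/
noncomputable def lin (U : Fin N → Fin N → ℝ) (w : Fin N → ℝ) (s : Fin N → Bool) : ℝ :=
  ∑ i, w i * rotate U s i

/-- The coordinates of a block. -/
def blk (c : Fin N → Fin (d + 1)) (b : Fin (d + 1)) : Finset (Fin N) := univ.filter fun i => c i = b

/-- A unit vector of a block. -/
def InBlk (c : Fin N → Fin (d + 1)) (b : Fin (d + 1)) (w : Fin N → ℝ) : Prop :=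
  w ⬝ᵥ w = 1 ∧ ∀ i, c i ≠ b → w i = 0

/-- The direction inside a block of a vector. -/
noncomputable def dirV (c : Fin N → Fin (d + 1)) (b : Fin (d + 1)) (j : Fin N) (g : Fin N → ℝ) :
    Fin N → ℝ :=
  if ∑ i ∈ blk c b, g i ^ 2 = 0 then bas j
  else fun i => if c i = b then g i / √(∑ i ∈ blk c b, g i ^ 2) else 0

variable {c : Fin N → Fin (d + 1)} {b : Fin (d + 1)} {j : Fin N}

theorem lin_bas (U : Fin N → Fin N → ℝ) (i : Fin N) (s : Fin N → Bool) :
    lin U (bas i) s = rotate U s i := by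
  simp [lin, bas, Pi.single_apply]

theorem inBlk_bas {i : Fin N} (hi : c i = b) : InBlk c b (bas i) :=
  ⟨by rw [dot_bas]; simp [bas], fun l hl => Pi.single_eq_of_ne (fun e => hl (by rw [e, hi])) _⟩

theorem inBlk_dirV (hj : c j = b) (g : Fin N → ℝ) : InBlk c b (dirV c b j g) := by
  unfold dirV
  split_ifs with h
  · exact inBlk_bas hj
  · refine ⟨?_, fun i hi => if_neg hi⟩
    have h0 : 0 ≤ ∑ i ∈ blk c b, g i ^ 2 := sum_nonneg fun i _ => sq_nonneg _
    simp only [dotProduct, ite_mul, zero_mul, mul_ite, mul_zero]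
    simp only [← ite_and, and_self, ← sum_filter]
    rw [show univ.filter (fun i => c i = b) = blk c b from rfl]
    simp only [div_mul_div_comm, Real.mul_self_sqrt h0]
    rw [← sum_div]
    simp only [← pow_two]
    exact div_self h

theorem measurable_dirV : Measurable (dirV c b j) := by
  unfold dirV
  refine Measurable.ite ?_ measurable_const (measurable_pi_lambda _ fun i => ?_)
  · exact (isClosed_eq (by fun_prop) continuous_const).measurableSet
  · by_cases h : c i = b
    · simp only [h, if_true]; fun_prop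
    · simp only [h, if_false]; exact measurable_const

/-- The Gaussian vector seen along its direction. -/
theorem lin_dirV (U : Fin N → Fin N → ℝ) (s : Fin N → Bool) (g : Fin N → ℝ) :
    ∑ i ∈ blk c b, g i * rotate U s i = √(∑ i ∈ blk c b, g i ^ 2) * lin U (dirV c b j g) s := by
  unfold dirV
  split_ifs with h
  · rw [h, Real.sqrt_zero, zero_mul]
    have h0 := (sum_eq_zero_iff_of_nonneg fun i _ => sq_nonneg (g i)).1 h
    exact sum_eq_zero fun i hi => by rw [pow_eq_zero_iff (by norm_num : (2 : ℕ) ≠ 0) |>.1 (h0 i hi), zero_mul]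
  · have hs : √(∑ i ∈ blk c b, g i ^ 2) ≠ 0 :=
      (Real.sqrt_pos.2 (lt_of_le_of_ne (sum_nonneg fun i _ => sq_nonneg _) (Ne.symm h))).ne'
    simp only [lin, ite_mul, zero_mul, ← sum_filter]
    rw [show univ.filter (fun i => c i = b) = blk c b from rfl, mul_sum]
    exact sum_congr rfl fun i _ => by field_simp

theorem abs_lin_le {U : Fin N → Fin N → ℝ} (hU : IsOrth U) {w : Fin N → ℝ} (hw : w ⬝ᵥ w = 1)
    (s : Fin N → Bool) : lin U w s ^ 2 ≤ N := by
  refine (sum_mul_sq_le_sq_mul_sq univ w fun i => rotate U s i).trans (le_of_eq ?_)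
  rw [sum_sq_rotate hU, show ∑ i, w i ^ 2 = 1 from by simpa [dotProduct, pow_two] using hw, one_mul]

theorem measurable_lin (s : Fin N → Bool) :
    Measurable fun q : (Fin N → Fin N → ℝ) × (Fin N → ℝ) => lin q.1 q.2 s := by
  unfold lin rotate; fun_prop

/-! ### rotations inside a block -/

theorem hh_comm (hj : c j = b) {w : Fin N → ℝ} (hw : InBlk c b w) (φ : Fin (d + 1) → ℝ)
    (x : Fin N → ℝ) :
    app (hh j w) (fun i => φ (c i) * x i) = fun i => φ (c i) * app (hh j w) x i := by
  have hv : ∀ i, c i ≠ b → dv j w i = 0 := fun i hi => by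
    simp [dv, bas, hw.2 i hi, Pi.single_eq_of_ne (fun e : i = j => hi (by rw [e, hj]))]
  funext i
  simp only [app, mulVec, dotProduct, Matrix.of_apply, mul_sum]
  refine sum_congr rfl fun l _ => ?_
  rcases eq_or_ne (c i) (c l) with h | h
  · rw [h]; ring
  · have : hh j w i l = 0 := by
      have hil : i ≠ l := fun e => h (by rw [e])
      rcases eq_or_ne (c i) b with hi | hi
      · simp [hh, hil, hv l fun e => h (hi.trans e.symm)]
      · simp [hh, hil, hv i hi]
    rw [this, zero_mul, zero_mul, mul_zero]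

theorem rotate_mul_app (V U : Fin N → Fin N → ℝ) (s : Fin N → Bool) :
    rotate (mul V U) s = app V (rotate U s) := by
  funext i
  simp [rotate_mul, app, mulVec, dotProduct]

theorem rot_quad (hj : c j = b) {w : Fin N → ℝ} (hw : InBlk c b w) (φ : Fin (d + 1) → ℝ)
    (U : Fin N → Fin N → ℝ) (s : Fin N → Bool) :
    ∑ i, φ (c i) * rotate (mul (hh j w) U) s i ^ 2 = ∑ i, φ (c i) * rotate U s i ^ 2 := by
  have e : ∀ x : Fin N → ℝ, ∑ i, φ (c i) * x i ^ 2 = x ⬝ᵥ fun i => φ (c i) * x i := fun x =>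
    sum_congr rfl fun i _ => by ring
  rw [e, e, rotate_mul_app, ← hh_comm hj hw, app_dot (isOrth_hh hw.1)]

theorem rot_line (hj : c j = b) {w : Fin N → ℝ} (hw : InBlk c b w) (φ : Fin (d + 1) → ℝ)
    (U : Fin N → Fin N → ℝ) (s : Fin N → Bool) (y : Fin N → ℝ) :
    ∑ i, φ (c i) * y i * rotate (mul (hh j w) U) s i
      = ∑ i, φ (c i) * app (hh j w) y i * rotate U s i := by
  have e : ∀ x y : Fin N → ℝ, ∑ i, φ (c i) * y i * x i = y ⬝ᵥ fun i => φ (c i) * x i := fun x y =>
    sum_congr rfl fun i _ => by ring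
  rw [e, e, rotate_mul_app, ← hh_comm hj hw, app_transpose_dot, tr_hh]

/-- The rotation of the fields of the blocks. -/
noncomputable def zrot (V : Fin N → Fin N → ℝ) (y : Fld N → ℝ) : Fld N → ℝ :=
  Sum.elim (fun i => y (.inl i)) (app V fun i => y (.inr i))

theorem mp_zrot {V : Fin N → Fin N → ℝ} (hV : IsOrth V) :
    MeasurePreserving (zrot V) (stdG (Fld N)) (stdG (Fld N)) := by
  have e := measurePreserving_sumPiEquivProdPi (fun _ : Fld N => gaussianReal 0 1)
  have hM : (Matrix.of V).transpose * Matrix.of V = 1 := mul_eq_one_comm.1 ((isOrth_iff V).1 hV)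
  have h := (MeasurePreserving.id (Measure.pi fun _ : Fin N => gaussianReal 0 1)).prod
    (measurePreserving_orth (κ := Fin N) (Matrix.of V) hM)
  have key : zrot V = (MeasurableEquiv.sumPiEquivProdPi fun _ : Fld N => ℝ).symm
      ∘ Prod.map id (fun g => (Matrix.of V) *ᵥ g) ∘ MeasurableEquiv.sumPiEquivProdPi fun _ : Fld N => ℝ := by
    funext y i
    cases i <;> rfl
  rw [key]
  exact (e.symm _).comp (h.comp e)

variable (β : ℝ) (a : Fin (d + 1) → ℝ) (σ τ : ℕ → ℝ)

theorem hamU_rot (hj : c j = b) {w : Fin N → ℝ} (hw : InBlk c b w) (U : Fin N → Fin N → ℝ)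
    (z : Fin k → Fld N → ℝ) (s : Fin N → Bool) :
    hamU β a c σ τ (mul (hh j w) U) z s = hamU β a c σ τ U (fun l => zrot (hh j w) (z l)) s := by
  have h1 : topSq c (mul (hh j w) U) s = topSq c U s :=
    rot_quad hj hw (fun e => if e = Fin.last d then 1 else 0) U s
  have h2 : ∀ l : Fin k, ∑ i, topMask c i * z l (.inr i) * rotate (mul (hh j w) U) s i
      = ∑ i, topMask c i * zrot (hh j w) (z l) (.inr i) * rotate U s i := fun l =>
    rot_line hj hw (fun e => if e = Fin.last d then 1 else 0) U s fun i => z l (.inr i)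
  simp only [hamU, rot_quad hj hw a U s, h1, h2]
  rfl

/-! ### quantities at a fixed rotation -/

/-- The system with a potential of the leaf. -/
noncomputable def potH (β : ℝ) (a : Fin (d + 1) → ℝ) (c : Fin N → Fin (d + 1)) (σ τ : ℕ → ℝ)
    (U : Fin N → Fin N → ℝ) (pot : (Fin N → Bool) → ℝ)
    (z : Fin k → Fld N → ℝ) (s : Fin N → Bool) : ℝ :=
  hamU β a c σ τ U z s + pot s

/-- Its value. -/
noncomputable def sVal (β : ℝ) (a : Fin (d + 1) → ℝ) (c : Fin N → Fin (d + 1)) (σ τ : ℕ → ℝ)
    (k : ℕ) (U : Fin N → Fin N → ℝ) (pot : (Fin N → Bool) → ℝ) : ℝ :=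
  val (stdG (Fld N)) (cubeLaw N) (potH (k := k) β a c σ τ U pot) 0 fun _ _ => 0

/-- The expectation of one leaf. -/
noncomputable def sGib (β : ℝ) (a : Fin (d + 1) → ℝ) (c : Fin N → Fin (d + 1)) (σ τ : ℕ → ℝ)
    (k : ℕ) (U : Fin N → Fin N → ℝ) (pot φ : (Fin N → Bool) → ℝ) : ℝ :=
  cnd (stdG (Fld N)) (cubeLaw N) (potH (k := k) β a c σ τ U pot) (fun _ s => φ s) 0 fun _ _ => 0

/-- The expectation of two leaves that branch after level `l`. -/
noncomputable def sPair {A : Type} [Fintype A] (β : ℝ) (a : Fin (d + 1) → ℝ) (c : Fin N → Fin (d + 1)) (σ τ : ℕ → ℝ)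
    (k : ℕ) (U : Fin N → Fin N → ℝ)
    (pot : (Fin N → Bool) → ℝ) (l : ℕ) (f g : A → (Fin N → Bool) → ℝ) : ℝ :=
  cnd (stdG (Fld N)) (cubeLaw N) (potH (k := k) β a c σ τ U pot)
    (pairObs (stdG (Fld N)) (cubeLaw N) (potH (k := k) β a c σ τ U pot) (fun i _ s => f i s)
      (fun i _ s => g i s) l) 0 fun _ _ => 0

variable (c)

theorem bpot_leaf (pot : (Fin N → Bool) → ℝ) : BPot fun (_ : Fin k → Fld N → ℝ) s => pot s :=
  ⟨(measurable_of_countable pot).comp measurable_snd, ∑ s, |pot s|, fun _ s =>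
    single_le_sum (f := fun s => |pot s|) (fun _ _ => abs_nonneg _) (mem_univ s)⟩

theorem tame_leaf (φ : (Fin N → Bool) → ℝ) :
    Tame (gaussSize (Fld N)) fun (_ : Fin k → Fld N → ℝ) s => φ s :=
  Tame.of_bdd (bpot_leaf φ).1 (bpot_leaf φ).2.choose_spec

theorem potH_linB (U : Fin N → Fin N → ℝ) (pot : (Fin N → Bool) → ℝ) :
    LinB (gaussSize (Fld N)) (potH (k := k) β a c σ τ U pot) :=
  linB_pot (hamU_linB β a c U σ τ) (bpot_leaf pot)

variable {c}

theorem rot_sys (hj : c j = b) {w : Fin N → ℝ} (hw : InBlk c b w) (U : Fin N → Fin N → ℝ)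
    (pot : (Fin N → Bool) → ℝ) :
    sVal β a c σ τ k (mul (hh j w) U) pot = sVal β a c σ τ k U pot ∧
    (∀ φ, sGib β a c σ τ k (mul (hh j w) U) pot φ = sGib β a c σ τ k U pot φ) ∧
    ∀ (A : Type) [Fintype A] (l : ℕ) (f g : A → (Fin N → Bool) → ℝ),
      sPair β a c σ τ k (mul (hh j w) U) pot l f g = sPair β a c σ τ k U pot l f g := by
  set V := hh j w
  have hH : LinB (gaussSize (Fld N)) (potH (k := k) β a c σ τ U pot) := potH_linB c β a σ τ U pot
  have hm := fun (l : ℕ) (z : Fin k → Fld N → ℝ) => P157.Rsb.val_map (F := zrot V) (G := id)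
    (mp_zrot (isOrth_hh hw.1)) (MeasurePreserving.id (cubeLaw N)) hH l z
  have e : potH (k := k) β a c σ τ (mul V U) pot
      = fun z s => potH (k := k) β a c σ τ U pot (fun l => zrot V (z l)) (id s) := by
    funext z s
    simp only [potH, id, V, hamU_rot β a σ τ hj hw]
  have z0 : (fun (_ : Fin k) => zrot V fun _ => (0 : ℝ)) = fun _ _ => (0 : ℝ) := by
    funext l i
    cases i <;> simp [zrot, app, mulVec, dotProduct]
  refine ⟨?_, fun φ => ?_, fun A _ l f g => ?_⟩
  · rw [sVal, e, (hm 0 _).1, z0]; rfl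
  · rw [sGib, e, show (fun (_ : Fin k → Fld N → ℝ) s => φ s)
      = fun (z : Fin k → Fld N → ℝ) s => (fun _ s => φ s) (fun l => zrot V (z l)) (id s) from rfl,
      (hm 0 _).2 (fun _ s => φ s) (tame_leaf φ), z0]
    rfl
  · have hi : ∀ i z, cnd (stdG (Fld N)) (cubeLaw N) (potH (k := k) β a c σ τ (mul V U) pot)
        (fun _ s => g i s) l z = cnd (stdG (Fld N)) (cubeLaw N) (potH (k := k) β a c σ τ U pot)
        (fun _ s => g i s) l (fun l => zrot V (z l)) := fun i z => by
      rw [e]
      exact (hm l z).2 (fun _ s => g i s) (tame_leaf (g i))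
    have hobs : pairObs (stdG (Fld N)) (cubeLaw N) (potH (k := k) β a c σ τ (mul V U) pot)
        (fun i _ s => f i s) (fun i _ s => g i s) l = fun z s => pairObs (stdG (Fld N)) (cubeLaw N)
        (potH (k := k) β a c σ τ U pot) (fun i _ s => f i s) (fun i _ s => g i s) l
          (fun l => zrot V (z l)) (id s) := by
      funext z s
      simp only [pairObs, hi, id]
    have ht : Tame (gaussSize (Fld N)) (pairObs (stdG (Fld N)) (cubeLaw N)
        (potH (k := k) β a c σ τ U pot) (fun i _ s => f i s) (fun i _ s => g i s) l) :=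
      Tame.sum univ fun i _ => (tame_leaf (f i)).mul (P157.Rsb.cnd_tame hH (tame_leaf (g i)) l)
    rw [sPair, hobs, e, (hm 0 _).2 (pairObs (stdG (Fld N)) (cubeLaw N)
        (potH (k := k) β a c σ τ U pot) (fun i _ s => f i s) (fun i _ s => g i s) l) ht, z0]
    rfl

/-! ### measurability and bounds -/

section Meas

variable (c) {P : Type} [MeasurableSpace P] {u : P → Fin N → Fin N → ℝ}
  {pot : P → (Fin N → Bool) → ℝ}

theorem potH_meas (hu : Measurable u) (hp : ∀ s, Measurable fun p => pot p s) :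
    Measurable fun q : (P × (Fin k → Fld N → ℝ)) × (Fin N → Bool) =>
      potH β a c σ τ (u q.1.1) (pot q.1.1) q.1.2 q.2 :=
  ((hamU_meas β a c σ τ).comp
    (f := fun q : (P × (Fin k → Fld N → ℝ)) × (Fin N → Bool) => ((u q.1.1, q.1.2), q.2))
    (((hu.comp (measurable_fst.comp measurable_fst)).prodMk (measurable_snd.comp measurable_fst)).prodMk
      measurable_snd)).add
    (measurable_from_prod_countable_left fun s => (hp s).comp measurable_fst)

theorem sVal_meas (hu : Measurable u) (hp : ∀ s, Measurable fun p => pot p s) :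
    Measurable fun p => sVal β a c σ τ k (u p) (pot p) :=
  P157.Rsb.val_measurable_param_at (potH_meas c β a σ τ hu hp) 0 _

theorem sGib_meas (hu : Measurable u) (hp : ∀ s, Measurable fun p => pot p s)
    {φ : P → (Fin N → Bool) → ℝ} (hφ : ∀ s, Measurable fun p => φ p s) :
    Measurable fun p => sGib β a c σ τ k (u p) (pot p) (φ p) :=
  P157.Rsb.cnd_measurable_param_at (φ := fun p (_ : Fin k → Fld N → ℝ) s => φ p s)
    (potH_meas c β a σ τ hu hp)
    (measurable_from_prod_countable_left fun s => (hφ s).comp measurable_fst) 0 _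

theorem sPair_meas {A : Type} [Fintype A] (hu : Measurable u) (hp : ∀ s, Measurable fun p => pot p s)
    (l : ℕ) {f g : P → A → (Fin N → Bool) → ℝ} (hf : ∀ i s, Measurable fun p => f p i s)
    (hg : ∀ i s, Measurable fun p => g p i s) :
    Measurable fun p => sPair β a c σ τ k (u p) (pot p) l (f p) (g p) := by
  have hH := potH_meas (k := k) c β a σ τ hu hp
  refine P157.Rsb.cnd_measurable_param_at hH ?_ 0 _
  refine measurable_from_prod_countable_left fun s => ?_
  simp only [pairObs]
  refine Finset.measurable_sum _ fun i _ => Measurable.mul ((hf i s).comp measurable_fst) ?_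
  exact P157.Rsb.cnd_measurable_param (H := fun p => potH (k := k) β a c σ τ (u p) (pot p))
    (φ := fun p (_ : Fin k → Fld N → ℝ) s => g p i s) hH
    (measurable_from_prod_countable_left fun s => (hg i s).comp measurable_fst) l

end Meas

variable (c)

omit c in
/-- Observables of the leaves as data of a product of two leaves. -/
theorem pairData_leaf {A : Type} [Fintype A] {f g : A → (Fin N → Bool) → ℝ} {R : ℝ}
    (hj : ∀ s s', |∑ i, f i s * g i s'| ≤ R) (hg : ∀ i s, |g i s| ≤ 1) :
    PairData (fun i (_ : Fin k → Fld N → ℝ) s => f i s) (fun i _ s => g i s) R :=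
  ⟨fun i => (measurable_of_countable (f i)).comp measurable_snd,
    fun i => (measurable_of_countable (g i)).comp measurable_snd,
    ⟨∑ i, ∑ s, |f i s|, fun i _ s => (single_le_sum (f := fun s => |f i s|) (fun _ _ => abs_nonneg _)
      (mem_univ s)).trans (single_le_sum (f := fun i => ∑ s, |f i s|)
        (fun _ _ => sum_nonneg fun _ _ => abs_nonneg _) (mem_univ i))⟩,
    fun i _ s => hg i s, fun _ s _ s' => hj s s'⟩

theorem abs_sGib_le (U : Fin N → Fin N → ℝ) (pot : (Fin N → Bool) → ℝ) {φ : (Fin N → Bool) → ℝ}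
    {B : ℝ} (h : ∀ s, |φ s| ≤ B) : |sGib β a c σ τ k U pot φ| ≤ B :=
  P157.Rsb.cnd_abs_le (φ := fun (_ : Fin k → Fld N → ℝ) s => φ s) (potH_linB c β a σ τ U pot)
    ((measurable_of_countable φ).comp measurable_snd) (fun _ s => h s) 0 _

theorem abs_sPair_le {A : Type} [Fintype A] (U : Fin N → Fin N → ℝ) (pot : (Fin N → Bool) → ℝ)
    (l : ℕ) {f g : A → (Fin N → Bool) → ℝ} {R : ℝ} (hj : ∀ s s', |∑ i, f i s * g i s'| ≤ R)
    (hg : ∀ i s, |g i s| ≤ 1) : |sPair β a c σ τ k U pot l f g| ≤ R := by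
  have hH := potH_linB (k := k) c β a σ τ U pot
  exact P157.Rsb.cnd_abs_le hH (pairObs_tame hH (pairData_leaf hj hg) l).meas
    (fun z s => abs_pairObs_le hH (pairData_leaf hj hg) l z s) 0 _

theorem abs_sVal_le {U : Fin N → Fin N → ℝ} (hU : IsOrth U) {pot : (Fin N → Bool) → ℝ} {B : ℝ}
    (h : ∀ s, |pot s| ≤ B) :
    |sVal β a c σ τ k U pot| ≤ |β| / 2 * ((∑ e, |a e|) * N)
      + (∑ l : Fin k, (σ ((l : ℕ) + 1) ^ 2 + τ ((l : ℕ) + 1) ^ 2)) / 2 * N + B := by
  have h1 := P157.Rsb.val_close (γ := stdG (Fld N)) (μ := cubeLaw N) (hamU_linB (k := k) β a c U σ τ)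
    (potH_linB (k := k) c β a σ τ U pot) (L := B) (fun z s => by simpa [potH] using h s) 0 fun _ _ => 0
  have h2 := abs_rootU_amp_le (k := k) β a c hU σ τ
  have h3 := abs_rootU_zero_le (k := k) (β := β) a c hU
  simp only [rootU] at h2 h3
  simp only [sVal]
  rw [abs_le] at h1 h2 h3 ⊢
  constructor <;> linarith

/-! ### a uniform direction -/

variable {c} {m : Measure (Fin N → Fin N → ℝ)}
  {F : (Fin N → Fin N → ℝ) → (Fin N → ℝ) → ℝ}

/-- All directions of a block are alike. -/
theorem dir_const (hm : IsHaarOrth m) (hFm : Measurable (Function.uncurry F))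
    (heq : ∀ U w, InBlk c b w → F (mul (hh j w) U) (bas j) = F U w) {w : Fin N → ℝ}
    (hw : InBlk c b w) : ∫ U, F U w ∂m = ∫ U, F U (bas j) ∂m := by
  simp only [← heq _ w hw]
  exact (isInv_zero hm).integral_left (inK_zero.2 (isOrth_hh hw.1))
    (f := fun U => F U (bas j)) (hFm.comp (measurable_id.prodMk measurable_const))

/-- A coordinate of a block is a uniform direction of the block. -/
theorem dir_average (hm : IsHaarOrth m) (hj : c j = b) (hFm : Measurable (Function.uncurry F))
    (heq : ∀ U w, InBlk c b w → F (mul (hh j w) U) (bas j) = F U w) {C : ℝ}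
    (hC : ∀ U w, IsOrth U → InBlk c b w → |F U w| ≤ C) :
    Integrable (fun U => F U (bas j)) m ∧
    (∀ U, IsOrth U → Integrable (fun g => F U (dirV c b j g)) (stdG (Fin N))) ∧
    Integrable (fun U => ∫ g, F U (dirV c b j g) ∂stdG (Fin N)) m ∧
    ∫ U, F U (bas j) ∂m = ∫ U, ∫ g, F U (dirV c b j g) ∂stdG (Fin N) ∂m := by
  have := hm.1
  have hF2 : Measurable fun p : (Fin N → Fin N → ℝ) × (Fin N → ℝ) => F p.1 (dirV c b j p.2) :=
    hFm.comp (measurable_fst.prodMk (measurable_dirV.comp measurable_snd))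
  have hi : Integrable (fun p : (Fin N → Fin N → ℝ) × (Fin N → ℝ) => F p.1 (dirV c b j p.2))
      (m.prod (stdG (Fin N))) := by
    refine Integrable.of_bound hF2.aestronglyMeasurable C ?_
    exact (Measure.quasiMeasurePreserving_fst.ae hm.2.1).mono fun p hp => by
      rw [norm_eq_abs]; exact hC _ _ hp (inBlk_dirV hj _)
  refine ⟨Integrable.of_bound (hFm.comp (measurable_id.prodMk measurable_const)).aestronglyMeasurable C
      (hm.2.1.mono fun U hU => by rw [norm_eq_abs]; exact hC U _ hU (inBlk_bas hj)),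
    fun U hU => Integrable.of_bound (hFm.comp (measurable_const.prodMk measurable_dirV)).aestronglyMeasurable C
      (ae_of_all _ fun g => by rw [norm_eq_abs]; exact hC U _ hU (inBlk_dirV hj g)),
    hi.integral_prod_left, ?_⟩
  rw [integral_integral_swap hi]
  simp only [fun g => dir_const hm hFm heq (inBlk_dirV hj g), integral_const, probReal_univ, one_smul]

theorem lin_rot {w : Fin N → ℝ} (hw : InBlk c b w) (U : Fin N → Fin N → ℝ) (s : Fin N → Bool) :
    lin (mul (hh j w) U) (bas j) s = lin U w s := by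
  rw [lin_bas, rotate_mul_app, ← dot_bas (app (hh j w) (rotate U s)) j, dotProduct_comm,
    app_transpose_dot, tr_hh, app_hh_bas hw.1]
  rfl

end Vale.Agent.P166.Rsb.Energy
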