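import Vale.Agent.P166.Rsb.Energy.Defs
import Vale.Agent.P166.Rsb.Calc

/-!
# P166: switching one coordinate to the last block

The field of the coordinate and the cut of its tilt change expectations of two leaves little.
-/

open MeasureTheory ProbabilityTheory Real Finset
open Vale.Agent.P157 (cubeLaw)
open Vale.Agent.P157.Rsb (stdG val cnd LinB Tame gaussSize cnd_mono cnd_add cnd_sub cnd_const_mul
  cnd_finsum cnd_tilt cnd_tower cnd_nonneg cnd_const cnd_tame)
open Vale.Agent.P157.Rsb.Slot (rootPair rootPair_eq)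

namespace Vale.Agent.P166.Rsb.Energy

variable {d N k : ℕ} {β : ℝ} {a : Fin (d + 1) → ℝ} {c : Fin N → Fin (d + 1)} {σ τ : ℕ → ℝ}
  {U : Fin N → Fin N → ℝ} {pot : (Fin N → Bool) → ℝ} {j : ℕ}

/-! ### two leaves at a fixed rotation -/

theorem tame_inner (ψ : (Fin N → Bool) → (Fin N → Bool) → ℝ) :
    Tame (gaussSize (Fld N)) fun z x => cnd (stdG (Fld N)) (cubeLaw N)
      (potH (k := k) β a c σ τ U pot) (fun _ y => ψ x y) j z := by
  have hH := potH_linB (k := k) c β a σ τ U pot
  refine Tame.of_bdd (measurable_from_prod_countable_left fun x =>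
    (cnd_tame (μ := cubeLaw N) hH (tame_leaf (ψ x)) j).meas.comp
      (measurable_id.prodMk (measurable_const (a := x)))) (B := ∑ x, ∑ y, |ψ x y|) fun z x => ?_
  exact P157.Rsb.cnd_abs_le (φ := fun (_ : Fin k → Fld N → ℝ) y => ψ x y) hH
    ((measurable_of_countable (ψ x)).comp measurable_snd) (fun _ y =>
      (single_le_sum (f := fun y => |ψ x y|) (fun _ _ => abs_nonneg _) (mem_univ y)).trans
        (single_le_sum (f := fun x => ∑ y, |ψ x y|) (fun _ _ => sum_nonneg fun _ _ => abs_nonneg _)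
          (mem_univ x))) j z

theorem sP_eq (ψ : (Fin N → Bool) → (Fin N → Bool) → ℝ) :
    sP β a c σ τ k U pot j ψ = cnd (stdG (Fld N)) (cubeLaw N) (potH (k := k) β a c σ τ U pot)
      (fun z x => cnd (stdG (Fld N)) (cubeLaw N) (potH (k := k) β a c σ τ U pot)
        (fun _ y => ψ x y) j z) 0 fun _ _ => 0 :=
  rootPair_eq (potH_linB (k := k) c β a σ τ U pot) ψ j _

theorem sP_sum {A : Type} [Fintype A] (f g : A → (Fin N → Bool) → ℝ) :
    sP β a c σ τ k U pot j (fun x y => ∑ p, f p x * g p y) = sPair β a c σ τ k U pot j f g := by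
  rw [sP_eq, sPair]
  congr 1
  funext z x
  rw [cnd_finsum (potH_linB (k := k) c β a σ τ U pot) univ fun p _ => (tame_leaf (g p)).const_mul _]
  simp only [cnd_const_mul]
  rfl

theorem sP_const_mul (r : ℝ) (ψ : (Fin N → Bool) → (Fin N → Bool) → ℝ) :
    sP β a c σ τ k U pot j (fun x y => r * ψ x y) = r * sP β a c σ τ k U pot j ψ := by
  rw [sP_eq, sP_eq]
  simp only [cnd_const_mul]

theorem sP_sub (ψ ψ' : (Fin N → Bool) → (Fin N → Bool) → ℝ) :
    sP β a c σ τ k U pot j (fun x y => ψ x y - ψ' x y)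
      = sP β a c σ τ k U pot j ψ - sP β a c σ τ k U pot j ψ' := by
  have hH := potH_linB (k := k) c β a σ τ U pot
  rw [sP_eq, sP_eq, sP_eq, ← cnd_sub hH (tame_inner ψ) (tame_inner ψ')]
  congr 1
  funext z x
  exact cnd_sub hH (tame_leaf _) (tame_leaf _) j z

theorem sP_mono {ψ ψ' : (Fin N → Bool) → (Fin N → Bool) → ℝ} (h : ∀ x y, ψ x y ≤ ψ' x y) :
    sP β a c σ τ k U pot j ψ ≤ sP β a c σ τ k U pot j ψ' := by
  have hH := potH_linB (k := k) c β a σ τ U pot
  rw [sP_eq, sP_eq]
  exact cnd_mono hH (tame_inner ψ) (tame_inner ψ')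
    (fun z x => cnd_mono hH (tame_leaf _) (tame_leaf _) (fun _ y => h x y) j z) 0 _

theorem abs_sP_le (ψ : (Fin N → Bool) → (Fin N → Bool) → ℝ) :
    |sP β a c σ τ k U pot j ψ| ≤ sP β a c σ τ k U pot j fun x y => |ψ x y| := by
  have h1 := sP_mono (β := β) (a := a) (c := c) (σ := σ) (τ := τ) (k := k) (U := U) (pot := pot) (j := j)
    (ψ := fun x y => (-1) * |ψ x y|) (ψ' := ψ) fun x y => by linarith [neg_abs_le (ψ x y)]
  rw [sP_const_mul] at h1
  exact abs_le.2 ⟨by linarith, sP_mono fun x y => le_abs_self _⟩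

/-- An expectation of two leaves is bounded by one of a single leaf. -/
theorem sP_le_sq {ψ : (Fin N → Bool) → (Fin N → Bool) → ℝ} {φ : (Fin N → Bool) → ℝ}
    (h : ∀ x y, |ψ x y| ≤ φ x + φ y) :
    |sP β a c σ τ k U pot j ψ| ≤ 2 * sGib β a c σ τ k U pot φ := by
  have hH := potH_linB (k := k) c β a σ τ U pot
  refine (abs_sP_le ψ).trans ((sP_mono h).trans (le_of_eq ?_))
  rw [sP_eq]
  have e : (fun (z : Fin k → Fld N → ℝ) x => cnd (stdG (Fld N)) (cubeLaw N) (potH β a c σ τ U pot)
      (fun _ y => φ x + φ y) j z) = fun z x => φ x + cnd (stdG (Fld N)) (cubeLaw N)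
      (potH β a c σ τ U pot) (fun _ y => φ y) j z := by
    funext z x
    rw [cnd_add hH (tame_leaf fun _ => φ x) (tame_leaf φ), cnd_const hH]
  rw [e, cnd_add hH (tame_leaf φ) (cnd_tame hH (tame_leaf φ) j), cnd_tower hH (Nat.zero_le j), sGib]
  ring

/-- A bounded potential costs a factor. -/
theorem sP_tilt {ψ : (Fin N → Bool) → (Fin N → Bool) → ℝ} (h0 : ∀ x y, 0 ≤ ψ x y) (hj : j ≤ k) {L : ℝ}
    (hL : ∀ s, |pot s| ≤ L) :
    sP β a c σ τ k U pot j ψ ≤ exp (2 * L) * (exp (2 * L) * sP β a c σ τ k U (fun _ => 0) j ψ) := by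
  have hH := potH_linB (k := k) c β a σ τ U pot
  have hH0 := potH_linB (k := k) c β a σ τ U fun _ => 0
  have hd : ∀ (z : Fin k → Fld N → ℝ) s, |potH (k := k) β a c σ τ U pot z s
      - potH (k := k) β a c σ τ U (fun _ => 0) z s| ≤ L := fun z s => by simpa [potH] using hL s
  rw [sP_eq, sP_eq]
  refine (cnd_tilt hH0 hH (tame_inner ψ) (fun z x => cnd_nonneg (fun _ y => h0 x y) j z) hd
    (Nat.zero_le k) _).trans (mul_le_mul_of_nonneg_left ?_ (exp_pos _).le)
  rw [← cnd_const_mul]
  exact cnd_mono hH0 (tame_inner ψ) ((tame_inner ψ).const_mul _)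
    (fun z x => cnd_tilt hH0 hH (tame_leaf (ψ x)) (fun _ y => h0 x y) hd hj z) 0 _

theorem sGib_tilt {φ : (Fin N → Bool) → ℝ} (h0 : ∀ x, 0 ≤ φ x) {L : ℝ} (hL : ∀ s, |pot s| ≤ L) :
    sGib β a c σ τ k U pot φ ≤ exp (2 * L) * sGib β a c σ τ k U (fun _ => 0) φ :=
  cnd_tilt (potH_linB c β a σ τ U fun _ => 0) (potH_linB c β a σ τ U pot) (tame_leaf φ)
    (fun _ x => h0 x) (fun z s => by simpa [potH] using hL s) (Nat.zero_le k) _

theorem potH_zero : potH (k := k) β a c σ τ U (fun _ => 0) = hamU β a c σ τ U := by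
  funext z s; simp [potH]

theorem sP_zero (ψ : (Fin N → Bool) → (Fin N → Bool) → ℝ) :
    sP β a c σ τ k U (fun _ => 0) j ψ = pairR β a c U k σ τ j ψ := by
  rw [sP, rootPair, potH_zero]; rfl

theorem sGib_zero (φ : (Fin N → Bool) → ℝ) :
    sGib β a c σ τ k U (fun _ => 0) φ = gibR β a c U k σ τ φ := by
  rw [sGib, potH_zero]; rfl

theorem sPair_one (φ : (Fin N → Bool) → ℝ) :
    sPair β a c σ τ k U pot j (fun (_ : Unit) => φ) (fun _ _ => 1) = sGib β a c σ τ k U pot φ := by
  have hH := potH_linB (k := k) c β a σ τ U pot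
  rw [sPair, sGib]
  congr 1
  funext z s
  simp [pairObs, cnd_const hH]

/-! ### integrals over the rotation -/

section Avg

variable {P : Type} [MeasurableSpace P] {u : P → Fin N → Fin N → ℝ} {p : P → (Fin N → Bool) → ℝ}

theorem sP_meas (hu : Measurable u) (hp : ∀ s, Measurable fun x => p x s)
    {ψ : P → (Fin N → Bool) → (Fin N → Bool) → ℝ} (hψ : ∀ x y, Measurable fun q => ψ q x y) :
    Measurable fun q => sP β a c σ τ k (u q) (p q) j (ψ q) :=
  P157.Rsb.measurable_root_pair (H := fun q => potH (k := k) β a c σ τ (u q) (p q)) (Ψ := ψ)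
    (potH_meas c β a σ τ hu hp) (measurable_from_prod_countable_left fun xy => hψ xy.1 xy.2) j _

end Avg

/-! ### moving a coordinate -/

variable {i : Fin N}

theorem mask_moved (hi : c i ≠ Fin.last d) (l : Fin N) :
    topMask (moved c i) l = topMask c l + if l = i then 1 else 0 := by
  rcases eq_or_ne l i with h | h
  · subst h; simp [topMask, moved, hi]
  · simp [topMask, moved, h]

theorem topOv_moved (hi : c i ≠ Fin.last d) (U : Fin N → Fin N → ℝ) (x y : Fin N → Bool) :
    topOv (moved c i) U x y = topOv c U x y + rotate U x i * rotate U y i / N := by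
  simp only [topOv, mask_moved hi, add_mul, sum_add_distrib, add_div, ite_mul, one_mul, zero_mul,
    sum_ite_eq', mem_univ, if_true]

theorem topSq_moved (hi : c i ≠ Fin.last d) (U : Fin N → Fin N → ℝ) (s : Fin N → Bool) :
    topSq (moved c i) U s = topSq c U s + rotate U s i ^ 2 := by
  simp only [topSq, mask_moved hi, add_mul, sum_add_distrib, ite_mul, one_mul, zero_mul,
    sum_ite_eq', mem_univ, if_true]

theorem blk_moved (hi : c i ≠ Fin.last d) :
    (blk (moved c i) (Fin.last d)).card = (blk c (Fin.last d)).card + 1 := by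
  classical
  have e : blk (moved c i) (Fin.last d) = insert i (blk c (Fin.last d)) := by
    ext l
    simp only [blk, mem_insert, mem_filter, mem_univ, true_and]
    rcases eq_or_ne l i with h | h
    · subst h; simp [moved]
    · simp [moved, h]
  rw [e, card_insert_of_notMem (by simp [blk, hi])]

theorem moved_self (c : Fin N → Fin (d + 1)) (i : Fin N) : moved c i i = Fin.last d := by simp [moved]

/-- The error of switching one coordinate. -/
noncomputable def swErr (u T M : ℝ) (k : ℕ) (ρ : ℝ) : ℝ :=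
  4 * (k * ρ * (1 + 2 / u * (2 + k * ρ ^ 2 / 2 * (3 / u))) + gap M (T ^ 2 / 4 * (6 / u ^ 2)))

variable {m : Measure (Fin N → Fin N → ℝ)} {u T M ρ R : ℝ} {A : Type} [Fintype A]
  {f g : (Fin N → Fin N → ℝ) → A → (Fin N → Bool) → ℝ}

theorem switch_pointwise (hi : c i ≠ Fin.last d) (ht : 0 ≤ tilt β a (c i)) (hM : 1 ≤ M) (hR : 0 < R)
    (hf : ∀ s s', |∑ p, f U p s * g U p s'| ≤ R) (hg : ∀ p s, |g U p s| ≤ 1) (hj : j ≤ k) (hu : 0 < u)
    (hρ : ∀ l, |τ l| ≤ ρ) (hρ2 : ρ ≤ 1 / 2) :
    |sPair β a (moved c i) σ τ k U (fun s => cutF M (√(tilt β a (c i)) * rotate U s i)) j (f U) (g U)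
        - sPair β a c σ τ k U (fun _ => 0) j (f U) (g U)|
      ≤ 4 * R * (k * ρ * (1 + 2 / u *
          (sVal β a c σ τ k U (fun s => u * rotate U s i ^ 2) - sVal β a c σ τ k U (fun _ => 0)
            + k * ρ ^ 2 / 2 * sGib β a c σ τ k U (fun _ => 0) fun s => rotate U s i ^ 2))
        + ((√M * exp (-√M / 4)) + (4 / M + 1 / √M) * (tilt β a (c i) ^ 2 / 4 *
            sGib β a (moved c i) σ τ k U (fun _ => 0) fun s => rotate U s i ^ 4))) := by
  set t := tilt β a (c i) with htd
  have hM0 : 0 < M := by linarith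
  have hsM : 0 < √M := sqrt_pos.2 hM0
  have hfo := field_off (β := β) (a := a) hi (σ := σ) hR hf hg hj hu hρ hρ2 U
  set g1 : (Fin k → Fld N → ℝ) → (Fin N → Bool) → ℝ := fun _ s => cutF M (√t * rotate U s i)
  set g0 : (Fin k → Fld N → ℝ) → (Fin N → Bool) → ℝ := fun _ s => undo β a c i U s
  have e0 : ∀ s, undo β a c i U s = -(√t * rotate U s i) ^ 2 / 2 := fun s => by
    rw [undo, mul_pow, sq_sqrt ht]; ring
  have h01 : ∀ z s, g0 z s ≤ g1 z s := fun z s => by
    simp only [g0, g1, e0]; exact (cutF_mem hM0 _).1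
  have hH := potH_linB (k := k) (moved c i) β a σ τ U fun _ => 0
  have hgap := val_gap (γ := stdG (Fld N)) (μ := cubeLaw N) hH (bpot_leaf fun s => undo β a c i U s)
    (bpot_leaf fun s => cutF M (√t * rotate U s i)) h01 (fun z s => (cutF_mem hM0 _).2.1) (M := M / 2)
    (fun z s => (exp_cutF_le hM0 _).trans (by simp only [e0]; exact le_rfl))
    (p := 1 / √M) (by positivity) (by rw [div_le_one hsM]; exact one_le_sqrt.2 hM) (X0 := M / 4)
    (by positivity) fun _ _ => 0
  have eH : ∀ φ : (Fin N → Bool) → ℝ,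
      (fun z s => potH (k := k) β a (moved c i) σ τ U (fun _ => 0) z s + φ s)
        = potH β a (moved c i) σ τ U φ := fun φ => by funext z s; simp [potH]
  rw [eH, eH] at hgap
  have hgap' : sVal β a (moved c i) σ τ k U (fun s => cutF M (√t * rotate U s i))
      - sVal β a (moved c i) σ τ k U (undo β a c i U)
      ≤ √M * exp (-√M / 4) + (4 / M + 1 / √M) * (t ^ 2 / 4 *
          sGib β a (moved c i) σ τ k U (fun _ => 0) fun s => rotate U s i ^ 4) := by
    refine hgap.trans (le_of_eq ?_)
    rw [show 1 / √M * (M / 4 - M / 2) = -√M / 4 from by field_simp; nlinarith [sq_sqrt hM0.le],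
      show 1 / (M / 4) = 4 / M by field_simp, sGib,
      show (fun (_ : Fin k → Fld N → ℝ) s => undo β a c i U s ^ 2)
        = fun _ s => t ^ 2 / 4 * rotate U s i ^ 4 from by funext z s; simp only [undo, ← htd]; ring,
      cnd_const_mul]
    congr 1
    field_simp
  have hpath := hPath_lin (w := gaussSize (Fld N))
    (potH_linB (k := k) (moved c i) β a σ τ U (undo β a c i U))
    (bpot_leaf fun s => cutF M (√t * rotate U s i) - undo β a c i U s)
  have hm := pair_mono (γ := stdG (Fld N)) (μ := cubeLaw N) hpath hR (pairData_leaf (k := k) hf hg)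
    (fun _ z s => sub_nonneg.2 (h01 z s)) hj fun _ _ => 0
  have e1 : (fun z s => potH (k := k) β a (moved c i) σ τ U (undo β a c i U) z s
      + 1 * (cutF M (√t * rotate U s i) - undo β a c i U s))
      = potH β a (moved c i) σ τ U fun s => cutF M (√t * rotate U s i) := by
    funext z s; simp [potH]
  simp only [e1, zero_mul, add_zero] at hm
  have hm' : |sPair β a (moved c i) σ τ k U (fun s => cutF M (√t * rotate U s i)) j (f U) (g U)
      - sPair β a (moved c i) σ τ k U (undo β a c i U) j (f U) (g U)| ≤ 4 * R *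
        (sVal β a (moved c i) σ τ k U (fun s => cutF M (√t * rotate U s i))
          - sVal β a (moved c i) σ τ k U (undo β a c i U)) := hm
  refine (abs_sub_le _ (sPair β a (moved c i) σ τ k U (undo β a c i U) j (f U) (g U)) _).trans ?_
  rw [mul_add (4 * R) (k * ρ * _), add_comm (4 * R * (k * ρ * _))]
  refine add_le_add (hm'.trans (mul_le_mul_of_nonneg_left hgap' (by positivity))) (hfo.trans (le_of_eq ?_))
  ring

theorem int_pow_le (hm : IsHaarOrth m) {b : Fin (d + 1)} (hb : c i = b) (p : ℕ) :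
    Integrable (fun U => sGib β a c σ τ k U (fun _ => 0) fun s => rotate U s i ^ p) m := by
  have := hm.1
  refine Integrable.of_bound (sGib_meas (u := fun U => U) c β a σ τ measurable_id
    (pot := fun _ _ => 0) (fun _ => measurable_const) (φ := fun U s => rotate U s i ^ p)
    fun s => by unfold rotate; fun_prop).aestronglyMeasurable ((1 + N : ℝ) ^ p)
    (hm.2.1.mono fun U hU => ?_)
  rw [norm_eq_abs]
  refine abs_sGib_le c β a σ τ U _ fun s => ?_
  rw [abs_pow]
  refine pow_le_pow_left₀ (abs_nonneg _) ?_ p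
  have h := abs_lin_le hU (inBlk_bas (c := c) hb).1 s
  rw [lin_bas] at h
  nlinarith [sq_abs (rotate U s i), sq_nonneg (|rotate U s i| - 1), abs_nonneg (rotate U s i)]

/-- Switching one coordinate, on average over the rotation. -/
theorem switch_avg (hm : IsHaarOrth m) (hi : c i ≠ Fin.last d) (ht : 0 ≤ tilt β a (c i))
    (htT : tilt β a (c i) ≤ T) (hM : 1 ≤ M) (hR : 0 < R) (hu : 0 < u)
    (hu1 : 12 * u * N ≤ (blk c (c i)).card) (hu2 : 12 * u * N ≤ (blk (moved c i) (Fin.last d)).card)
    (hρ : ∀ l, |τ l| ≤ ρ) (hρ2 : ρ ≤ 1 / 2) (hj : j ≤ k)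
    (hfm : ∀ p s, Measurable fun U => f U p s) (hgm : ∀ p s, Measurable fun U => g U p s)
    (hf : ∀ U, IsOrth U → ∀ s s', |∑ p, f U p s * g U p s'| ≤ R)
    (hg : ∀ U, IsOrth U → ∀ p s, |g U p s| ≤ 1) :
    |(∫ U, sPair β a (moved c i) σ τ k U (fun s => cutF M (√(tilt β a (c i)) * rotate U s i)) j
          (f U) (g U) ∂m)
        - ∫ U, sPair β a c σ τ k U (fun _ => 0) j (f U) (g U) ∂m| ≤ R * swErr u T M k ρ := by
  have := hm.1
  set t := tilt β a (c i) with htd
  have hρ0 : 0 ≤ ρ := (abs_nonneg _).trans (hρ 0)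
  have hrot : Measurable fun U : Fin N → Fin N → ℝ => fun s => rotate U s i :=
    measurable_pi_lambda _ fun s => by unfold rotate; fun_prop
  have hpm : ∀ s, Measurable fun U : Fin N → Fin N → ℝ => cutF M (√t * rotate U s i) := fun s =>
    (measurable_cutF M).comp (((measurable_pi_apply s).comp hrot).const_mul _)
  have i1 : Integrable (fun U => sPair β a (moved c i) σ τ k U
      (fun s => cutF M (√t * rotate U s i)) j (f U) (g U)) m :=
    Integrable.of_bound (sPair_meas (u := fun U => U) (moved c i) β a σ τ measurable_id hpm j hfm hgm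
      ).aestronglyMeasurable R (hm.2.1.mono fun U hU => (norm_eq_abs _).trans_le
        (abs_sPair_le (moved c i) β a σ τ U _ j (hf U hU) (hg U hU)))
  have i0 : Integrable (fun U => sPair β a c σ τ k U (fun _ => 0) j (f U) (g U)) m :=
    Integrable.of_bound (sPair_meas (u := fun U => U) c β a σ τ measurable_id
      (pot := fun _ _ => 0) (fun _ => measurable_const) j hfm hgm
      ).aestronglyMeasurable R (hm.2.1.mono fun U hU => (norm_eq_abs _).trans_le
        (abs_sPair_le c β a σ τ U _ j (hf U hU) (hg U hU)))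
  obtain ⟨q2, -, q3⟩ := moments (β := β) (a := a) (c := c) (σ := σ) (τ := τ) (k := k) hm rfl hu hu1
  obtain ⟨-, q4, -⟩ := moments (β := β) (a := a) (c := moved c i) (σ := σ) (τ := τ) (k := k) hm
    (moved_self c i) hu hu2
  have j2 : Integrable (fun U => sGib β a c σ τ k U (fun _ => 0) fun s => rotate U s i ^ 2) m :=
    int_pow_le hm rfl 2
  have j4 : Integrable (fun U => sGib β a (moved c i) σ τ k U (fun _ => 0) fun s => rotate U s i ^ 4) m :=
    int_pow_le hm (moved_self c i) 4
  have j3 : Integrable (fun U => sVal β a c σ τ k U (fun s => u * rotate U s i ^ 2)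
      - sVal β a c σ τ k U fun _ => 0) m := by
    refine Integrable.of_bound ((sVal_meas (u := fun U => U) c β a σ τ measurable_id
      fun s => (((measurable_pi_apply s).comp hrot).pow_const 2).const_mul u).sub
      (sVal_meas (u := fun U => U) c β a σ τ measurable_id
        (pot := fun _ _ => 0) fun _ => measurable_const)).aestronglyMeasurable (u * N)
      (hm.2.1.mono fun U hU => ?_)
    rw [norm_eq_abs]
    refine P157.Rsb.val_close (γ := stdG (Fld N)) (μ := cubeLaw N)
      (potH_linB (k := k) c β a σ τ U fun _ => 0)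
      (potH_linB (k := k) c β a σ τ U fun s => u * rotate U s i ^ 2)
      (fun z s => ?_) 0 _
    simp only [potH, add_zero, add_sub_cancel_left, abs_mul, abs_of_pos hu,
      abs_of_nonneg (sq_nonneg (rotate U s i))]
    refine mul_le_mul_of_nonneg_left ?_ hu.le
    have h := abs_lin_le hU (inBlk_bas (c := c) (rfl : c i = c i)).1 s
    rwa [lin_bas] at h
  rw [← integral_sub i1 i0]
  have hX : Integrable (fun U => sVal β a c σ τ k U (fun s => u * rotate U s i ^ 2)
      - sVal β a c σ τ k U (fun _ => 0)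
      + k * ρ ^ 2 / 2 * sGib β a c σ τ k U (fun _ => 0) fun s => rotate U s i ^ 2) m :=
    j3.add (j2.const_mul _)
  have hY : Integrable (fun U => k * ρ * (1 + 2 / u *
      (sVal β a c σ τ k U (fun s => u * rotate U s i ^ 2) - sVal β a c σ τ k U (fun _ => 0)
        + k * ρ ^ 2 / 2 * sGib β a c σ τ k U (fun _ => 0) fun s => rotate U s i ^ 2))) m :=
    ((integrable_const 1).add (hX.const_mul _)).const_mul _
  have hZ : Integrable (fun U => √M * exp (-√M / 4) + (4 / M + 1 / √M) * (t ^ 2 / 4 *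
      sGib β a (moved c i) σ τ k U (fun _ => 0) fun s => rotate U s i ^ 4)) m :=
    (integrable_const _).add ((j4.const_mul _).const_mul _)
  refine (abs_integral_le_integral_abs).trans ((integral_mono_ae (i1.sub i0).abs
    ((hY.add hZ).const_mul (4 * R)) (hm.2.1.mono fun U hU =>
      switch_pointwise hi ht hM hR (hf U hU) (hg U hU) hj hu hρ hρ2)).trans ?_)
  simp only [Pi.add_apply]
  rw [integral_const_mul, integral_add hY hZ, integral_const_mul,
    integral_add (integrable_const 1) (hX.const_mul _), integral_const_mul,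
    integral_add j3 (j2.const_mul _), integral_const_mul,
    integral_add (integrable_const _) ((j4.const_mul _).const_mul _), integral_const_mul,
    integral_const_mul, integral_const, integral_const, probReal_univ, one_smul, one_smul, swErr, gap]
  have hb : t ^ 2 / 4 * (∫ U, sGib β a (moved c i) σ τ k U (fun _ => 0) (fun s => rotate U s i ^ 4) ∂m)
      ≤ T ^ 2 / 4 * (6 / u ^ 2) :=
    mul_le_mul (by nlinarith) q4 (integral_nonneg fun U => sGib_nonneg fun s => by positivity)
      (by positivity)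
  rw [show R * (4 * (k * ρ * (1 + 2 / u * (2 + k * ρ ^ 2 / 2 * (3 / u)))
      + (√M * exp (-√M / 4) + (4 / M + 1 / √M) * (T ^ 2 / 4 * (6 / u ^ 2)))))
    = 4 * R * (k * ρ * (1 + 2 / u * (2 + k * ρ ^ 2 / 2 * (3 / u)))
      + (√M * exp (-√M / 4) + (4 / M + 1 / √M) * (T ^ 2 / 4 * (6 / u ^ 2)))) by ring]
  gcongr
  rw [integral_const_mul]
  exact hb

end Vale.Agent.P166.Rsb.Energy
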